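import Crest.Agent.R103.Iface

/-!
# R103: abstract conclusion (AB)
-/

open MeasureTheory Filter Topology

noncomputable section

namespace Crest.Agent.R103

namespace PlaneSys

theorem abs_ : StThmA → StProd → StThmB → StAbs := by
  intro hA hP hB Ω _ _ _ _ _ μ _ S hc s hs hinv
  obtain ⟨S2, hφ, hT⟩ := hP Ω μ S
  apply hB Ω μ S hc s hs
  intro ζ
  set u : Lp ℂ 2 (μ.prod μ) := indicatorConstLp 2 hs (measure_ne_top _ _) (1 : ℂ) with hu_def
  have hu : u =ᵐ[μ.prod μ] s.indicator (fun _ => (1 : ℂ)) := indicatorConstLp_coeFn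
  have hb : ∀ᵐ z ∂(μ.prod μ), ‖u z‖ ≤ 1 := by
    filter_upwards [hu] with z hz
    rw [hz]
    by_cases h : z ∈ s <;> simp [h]
  have hmem : ∀ z w : Ω × Ω, s.indicator (fun _ => (1 : ℂ)) z = s.indicator (fun _ => (1 : ℂ)) w
      ↔ (z ∈ s ↔ w ∈ s) := by
    intro z w
    by_cases h : z ∈ s <;> by_cases h' : w ∈ s <;> simp [h, h']
  have hU : ∀ t, S2.Uφ t u = u := by
    intro t
    apply Lp.ext
    have h1 := S2.Uφ_coe t u
    have h2 : ∀ᵐ z ∂(μ.prod μ), u (S2.φ t z) = s.indicator (fun _ => (1 : ℂ)) (S2.φ t z) :=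
      (S2.φ_mp t).quasiMeasurePreserving.ae hu
    have h3 : ∀ᵐ z ∂(μ.prod μ), ((S2.φ t z ∈ s) ↔ z ∈ s) := by
      have := hinv t
      filter_upwards [Filter.eventuallyEq_set.1 this] with z hz
      rw [hφ]
      simpa using hz
    filter_upwards [h1, h2, h3, hu] with z e1 e2 e3 e4
    rw [e1, e2, e4, hmem]
    exact e3
  have key := hA (Ω × Ω) (μ.prod μ) S2 u 1 hb hU ζ
  have h1 := S2.U_coe ζ u
  rw [key] at h1
  have h2 : ∀ᵐ z ∂(μ.prod μ), u (S2.T ζ z) = s.indicator (fun _ => (1 : ℂ)) (S2.T ζ z) :=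
    (S2.T_mp ζ).quasiMeasurePreserving.ae hu
  apply Filter.eventuallyEq_set.2
  filter_upwards [h1, h2, hu] with z e1 e2 e3
  have e : s.indicator (fun _ => (1 : ℂ)) (S2.T ζ z) = s.indicator (fun _ => (1 : ℂ)) z := by
    rw [← e2, ← e1, e3]
  rw [hmem, hT] at e
  simpa using e

end PlaneSys

end Crest.Agent.R103
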