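import Crest.Agent.R103.IfaceG

/-!
# R103, H5: almost every state is good
-/

open MeasureTheory Filter Topology
open Crest.AnalysisR.Billiard

noncomputable section

namespace Crest.Agent.R103

namespace AeAux

variable (A : Fin 3 → Plane)

lemma reflW_append (w w' : List (Fin 3)) (x : Plane) :
    reflW A (w ++ w') x = reflW A w' (reflW A w x) := by
  induction w generalizing x with
  | nil => rfl
  | cons i w ih => simp only [List.cons_append, reflW, ih]

lemma reflW_reverse (h : ∀ i x, refl A i (refl A i x) = x) (w : List (Fin 3)) (x : Plane) :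
    reflW A w.reverse (reflW A w x) = x := by
  induction w generalizing x with
  | nil => rfl
  | cons i w ih =>
    rw [List.reverse_cons, reflW_append]
    simp only [reflW]
    rw [ih, h]

lemma reflW_reverse' (h : ∀ i x, refl A i (refl A i x) = x) (w : List (Fin 3)) (x : Plane) :
    reflW A w (reflW A w.reverse x) = x := by
  have := reflW_reverse A h w.reverse x
  rwa [List.reverse_reverse] at this

/-- unfolded vertices -/
def vtx (wj : List (Fin 3) × Fin 3) : Plane := reflW A wj.1.reverse (A wj.2)

lemma cr_eq_zero_iff {v : Plane} (hv : ‖v‖ = 1) (u : Plane) :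
    cr u v = 0 ↔ ∃ s : ℝ, s • v = u := by
  have h1 : v 0 ^ 2 + v 1 ^ 2 = 1 := by
    have : ‖v‖ ^ 2 = v 0 ^ 2 + v 1 ^ 2 := by
      rw [EuclideanSpace.norm_sq_eq]; simp [Fin.sum_univ_two]
    rw [← this, hv]; norm_num
  constructor
  · intro h
    refine ⟨u 0 * v 0 + u 1 * v 1, ?_⟩
    unfold cr at h
    ext i
    fin_cases i
    · simp only [PiLp.smul_apply, smul_eq_mul, Fin.zero_eta]
      linear_combination u 0 * h1 - v 1 * h
    · simp only [PiLp.smul_apply, smul_eq_mul, Fin.mk_one]
      linear_combination u 1 * h1 + v 0 * h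
  · rintro ⟨s, rfl⟩
    simp [cr]; ring

lemma lineOK_iff (h : ∀ i x, refl A i (refl A i x) = x) (p : Phase) :
    LineOK A p ↔ ∀ wj : List (Fin 3) × Fin 3, cr (vtx A wj - p.1) (p.2 : Plane) ≠ 0 := by
  have hv : ‖(p.2 : Plane)‖ = 1 := by simp
  constructor
  · rintro hp ⟨w, j⟩ hc
    obtain ⟨s, hs⟩ := (cr_eq_zero_iff hv _).1 hc
    apply hp w s j
    rw [hs, add_sub_cancel]
    exact reflW_reverse' A h w _
  · intro hp w s j hw
    apply hp (w, j)
    rw [cr_eq_zero_iff hv]
    refine ⟨s, ?_⟩
    have : vtx A (w, j) = p.1 + s • (p.2 : Plane) := by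
      rw [vtx, ← hw]
      exact reflW_reverse A h w _
    rw [this, add_sub_cancel_left]

lemma continuous_cr (P : Plane) :
    Continuous fun p : Phase => cr (P - p.1) (p.2 : Plane) := by
  unfold cr
  have h2 : Continuous fun p : Phase => (p.2 : Plane) := continuous_subtype_val.comp continuous_snd
  have e : ∀ i : Fin 2, Continuous fun p : Phase => (p.2 : Plane) i := fun i =>
    (EuclideanSpace.proj (𝕜 := ℝ) i).continuous.comp h2
  have e' : ∀ i : Fin 2, Continuous fun p : Phase => (P - p.1) i := fun i =>
    (EuclideanSpace.proj (𝕜 := ℝ) i).continuous.comp (continuous_const.sub continuous_fst)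
  exact ((e' 0).mul (e 1)).sub ((e' 1).mul (e 0))

/-- the linear form `x ↦ cr x v` -/
def crL (v : Plane) : Plane →ₗ[ℝ] ℝ where
  toFun x := cr x v
  map_add' x y := by simp [cr]; ring
  map_smul' c x := by simp [cr]; ring

lemma volume_line {v : Plane} (hv : ‖v‖ = 1) (P : Plane) :
    volume {x : Plane | cr (P - x) v = 0} = 0 := by
  have h1 : v 0 ^ 2 + v 1 ^ 2 = 1 := by
    have : ‖v‖ ^ 2 = v 0 ^ 2 + v 1 ^ 2 := by
      rw [EuclideanSpace.norm_sq_eq]; simp [Fin.sum_univ_two]
    rw [← this, hv]; norm_num
  have hne : LinearMap.ker (crL v) ≠ ⊤ := by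
    intro h
    have : -J v ∈ LinearMap.ker (crL v) := by rw [h]; trivial
    rw [LinearMap.mem_ker] at this
    change cr (-J v) v = 0 at this
    simp only [cr, PiLp.neg_apply, J_zero, J_one] at this
    nlinarith
  have h0 : volume ((LinearMap.ker (crL v) : Submodule ℝ Plane) : Set Plane) = 0 :=
    Measure.addHaar_submodule volume _ hne
  have h2 := measure_preimage_add_right (volume : Measure Plane) (-P)
    ((LinearMap.ker (crL v) : Submodule ℝ Plane) : Set Plane)
  rw [h0] at h2
  rw [← h2]
  congr 1
  ext x
  simp only [Set.mem_ofPred_eq, Set.mem_preimage, SetLike.mem_coe, LinearMap.mem_ker]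
  change _ ↔ cr (x + -P) v = 0
  have : cr (x + -P) v = -cr (P - x) v := by simp [cr]; ring
  rw [this, neg_eq_zero]

lemma null_line (P : Plane) :
    phaseMeasure A {p : Phase | cr (P - p.1) (p.2 : Plane) = 0} = 0 := by
  have hm : MeasurableSet {p : Phase | cr (P - p.1) (p.2 : Plane) = 0} :=
    (isClosed_eq (continuous_cr P) continuous_const).measurableSet
  rw [phaseMeasure, Measure.prod_apply_symm hm]
  rw [lintegral_eq_zero_iff (measurable_measure_prodMk_right hm)]
  refine Eventually.of_forall fun v => ?_
  have h1 : (volume : Measure Plane) {x : Plane | cr (P - x) (v : Plane) = 0} = 0 :=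
    volume_line (by simp) P
  refine le_antisymm ?_ zero_le
  calc _ ≤ (volume : Measure Plane) ((fun x => (x, v)) ⁻¹'
      {p : Phase | cr (P - p.1) (p.2 : Plane) = 0}) := Measure.restrict_apply_le _ _
    _ = 0 := h1

end AeAux

theorem ae_ : StG1 → StG2 → StAe := by
  intro hG1 hG2 A hA
  obtain ⟨-, -, -, -, -, -, -, hcd, hld, hint, -⟩ := hG1 A hA
  have hrr : ∀ i x, refl A i (refl A i x) = x := fun i => (hG2 A hA i).1
  constructor
  · have h1 : ∀ᵐ p ∂(phaseMeasure A), ∀ wj : List (Fin 3) × Fin 3,
        cr (AeAux.vtx A wj - p.1) (p.2 : Plane) ≠ 0 := by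
      rw [ae_all_iff]
      intro wj
      rw [ae_iff]
      simpa using AeAux.null_line A (AeAux.vtx A wj)
    have h2 : ∀ᵐ p ∂(phaseMeasure A), ∀ i, 0 < cd A i p.1 := by
      have h3 : ∀ᵐ x ∂((volume : Measure Plane).restrict
          (interior (convexHull ℝ (Set.range A)))), ∀ i, 0 < cd A i x := by
        have := ae_restrict_mem (μ := (volume : Measure Plane))
          (s := interior (convexHull ℝ (Set.range A))) isOpen_interior.measurableSet
        filter_upwards [this] with x hx
        rw [hint] at hx
        exact hx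
      exact Measure.quasiMeasurePreserving_fst.ae h3
    filter_upwards [h1, h2] with p h1 h2
    refine ⟨⟨fun i => Or.inl (h2 i), ?_⟩, h2⟩
    rwa [AeAux.lineOK_iff A hrr]
  · have e1 : {p : Phase | OK A p} = {p : Phase | Adm A p} ∩ {p : Phase | LineOK A p} := rfl
    rw [e1]
    refine MeasurableSet.inter ?_ ?_
    · have e2 : {p : Phase | Adm A p} = ⋂ i, ({p : Phase | 0 < cd A i p.1} ∪
          ({p : Phase | cd A i p.1 = 0} ∩ {p : Phase | 0 < ld A i p.2})) := by
        ext p; simp [Adm]
      rw [e2]
      have hl : ∀ i, Continuous fun p : Phase => ld A i (p.2 : Plane) := fun i =>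
        (hld i).comp (continuous_subtype_val.comp continuous_snd)
      have hc : ∀ i, Continuous fun p : Phase => cd A i p.1 := fun i =>
        (hcd i).comp continuous_fst
      refine MeasurableSet.iInter fun i => ?_
      exact (measurableSet_lt measurable_const (hc i).measurable).union
        ((measurableSet_eq_fun (hc i).measurable measurable_const).inter
          (measurableSet_lt measurable_const (hl i).measurable))
    · have e3 : {p : Phase | LineOK A p} = ⋂ wj : List (Fin 3) × Fin 3,
          {p : Phase | cr (AeAux.vtx A wj - p.1) (p.2 : Plane) = 0}ᶜ := by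
        ext p; simp [AeAux.lineOK_iff A hrr]
      rw [e3]
      refine MeasurableSet.iInter fun wj => ?_
      exact (measurableSet_eq_fun (AeAux.continuous_cr _).measurable measurable_const).compl

end Crest.Agent.R103
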