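import Crest.Agent.R103.IfaceG

/-!
# R103 / H4: existence of chains through good states
-/

open MeasureTheory Filter Topology
open Crest.AnalysisR.Billiard

noncomputable section

namespace Crest.Agent.R103

namespace Ex

/-- collision states: a side, a point on it, an outgoing unit velocity, with good line -/
structure CS (A : Fin 3 → Plane) where
  /-- side -/
  i : Fin 3
  /-- collision point -/
  q : Plane
  /-- outgoing velocity -/
  u : Plane
  hq : cd A i q = 0
  hq' : ∀ j, j ≠ i → 0 < cd A j q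
  hu : 0 < ld A i u
  hn : ‖u‖ = 1
  hL : ∀ (w : List (Fin 3)) (s : ℝ) (j : Fin 3), reflW A w (q + s • u) ≠ A j

variable {A : Fin 3 → Plane}

lemma vertex_of_two (h1 : StG1) (hA : AffineIndependent ℝ A) {y : Plane} {i j : Fin 3}
    (hij : i ≠ j) (hi : cd A i y = 0) (hj : cd A j y = 0) : ∃ k, y = A k := by
  obtain ⟨-, sum1, -, -, vert, -, ext, -⟩ := h1 A hA
  have hk : ∃ k : Fin 3, k ≠ i ∧ k ≠ j ∧ ∀ l : Fin 3, l = i ∨ l = j ∨ l = k := by
    revert hij
    clear hi hj
    revert i j
    decide
  obtain ⟨k, hki, hkj, hl⟩ := hk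
  refine ⟨k, ext _ _ fun l => ?_⟩
  have h3 : cd A k y = 1 := by
    have hs := sum1 y
    have hsum : cd A i y + cd A j y + cd A k y = cd A 0 y + cd A 1 y + cd A 2 y := by
      clear hi hj hs
      revert hij hki hkj
      generalize cd A = f
      clear hl
      fin_cases i <;> fin_cases j <;> fin_cases k <;> simp <;> ring
    rw [hs, hi, hj] at hsum
    linarith
  rcases hl l with rfl | rfl | rfl
  · rw [hi, vert, if_neg (Ne.symm hki)]
  · rw [hj, vert, if_neg (Ne.symm hkj)]
  · rw [h3, vert, if_pos rfl]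

lemma fwd (h1 : StG1) (h2 : StG2) (hA : AffineIndependent ℝ A) (x v : Plane) (hv : ‖v‖ = 1)
    (hadm : ∀ i, 0 < cd A i x ∨ (cd A i x = 0 ∧ 0 < ld A i v))
    (hL : ∀ (w : List (Fin 3)) (s : ℝ) (j : Fin 3), reflW A w (x + s • v) ≠ A j) :
    ∃ (s : CS A) (τ : ℝ), 0 < τ ∧ s.q = x + τ • v ∧ s.u = mirror (sideVec A s.i) v := by
  obtain ⟨-, sum1, sum0, lin, vert, sep, ext, -⟩ := h1 A hA
  have hex : ∃ i, ld A i v < 0 := by
    by_contra hcon
    push Not at hcon
    have hz : ∀ i, ld A i v = 0 := by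
      have := sum0 v
      have a := hcon 0
      have b := hcon 1
      have c := hcon 2
      intro i
      fin_cases i
      · show ld A 0 v = 0; linarith
      · show ld A 1 v = 0; linarith
      · show ld A 2 v = 0; linarith
    have := sep v hz
    rw [this, norm_zero] at hv
    exact zero_ne_one hv
  obtain ⟨i0, hi0⟩ := hex
  obtain ⟨i, hiI, hmin⟩ := Finset.exists_min_image
    (Finset.univ.filter fun i => ld A i v < 0) (fun i => cd A i x / (-ld A i v))
    ⟨i0, by simp [hi0]⟩
  have hi : ld A i v < 0 := by simpa using hiI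
  set τ : ℝ := cd A i x / (-ld A i v) with hτ
  have hτpos : 0 < τ := by
    refine div_pos ?_ (by linarith)
    rcases hadm i with h | h
    · exact h
    · linarith [h.2]
  have hcdi : cd A i (x + τ • v) = 0 := by
    rw [lin]
    have h5 : -ld A i v ≠ 0 := by linarith
    have h6 : τ * -ld A i v = cd A i x := div_mul_cancel₀ _ h5
    linarith
  have hnn : ∀ j, 0 ≤ cd A j (x + τ • v) := by
    intro j
    rw [lin]
    by_cases hj : ld A j v < 0
    · have := hmin j (by simp [hj])
      rw [le_div_iff₀ (by linarith)] at this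
      linarith
    · push Not at hj
      have h3 : 0 ≤ cd A j x := by
        rcases hadm j with h | h
        · exact h.le
        · exact h.1.ge
      have := mul_nonneg hτpos.le hj
      linarith
  have hpos : ∀ j, j ≠ i → 0 < cd A j (x + τ • v) := by
    intro j hj
    rcases (hnn j).lt_or_eq with h | h
    · exact h
    · exfalso
      obtain ⟨k, hk⟩ := vertex_of_two h1 hA hj h.symm hcdi
      exact hL [] τ k hk
  obtain ⟨hinv, minv, -, mnorm, mlin, raff, rcd, mld, rfix, -⟩ := h2 A hA i
  refine ⟨⟨i, x + τ • v, mirror (sideVec A i) v, hcdi, hpos, ?_, ?_, ?_⟩, τ, hτpos, rfl, rfl⟩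
  · rw [mld]; linarith
  · rw [mnorm, hv]
  · intro w s j
    have h3 : x + τ • v + s • mirror (sideVec A i) v = refl A i (x + (τ + s) • v) := by
      rw [add_smul, ← add_assoc, raff (x + τ • v), rfix _ hcdi]
    rw [h3]
    exact hL (i :: w) (τ + s) j

/-- the one flight relation -/
def Step (s s' : CS A) (τ : ℝ) : Prop :=
  0 < τ ∧ s'.q = s.q + τ • s.u ∧ s'.u = mirror (sideVec A s'.i) s.u

lemma exists_fwd (h1 : StG1) (h2 : StG2) (hA : AffineIndependent ℝ A) (s : CS A) :
    ∃ s' τ, Step s s' τ := by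
  obtain ⟨s', τ, h, h', h''⟩ := fwd h1 h2 hA s.q s.u s.hn (fun j => by
    by_cases hj : j = s.i
    · exact Or.inr ⟨hj ▸ s.hq, hj ▸ s.hu⟩
    · exact Or.inl (s.hq' j hj)) s.hL
  exact ⟨s', τ, h, h', h''⟩

lemma reflW_neg_line {s : CS A} (h2 : StG2) (hA : AffineIndependent ℝ A) :
    ∀ (w : List (Fin 3)) (r : ℝ) (j : Fin 3),
      reflW A w (s.q + r • (-mirror (sideVec A s.i) s.u)) ≠ A j := by
  intro w r j
  obtain ⟨hinv, minv, -, mnorm, mlin, raff, rcd, mld, rfix, -⟩ := h2 A hA s.i
  have h3 : s.q + r • (-mirror (sideVec A s.i) s.u) = refl A s.i (s.q + (-r) • s.u) := by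
    rw [raff, rfix _ s.hq, smul_neg, neg_smul]
  rw [h3]
  exact s.hL (s.i :: w) (-r) j

lemma mirror_neg' (h2 : StG2) (hA : AffineIndependent ℝ A) (i : Fin 3) (v : Plane) :
    mirror (sideVec A i) (-v) = -mirror (sideVec A i) v := by
  obtain ⟨-, -, -, -, mlin, -⟩ := h2 A hA i
  have := mlin (-1) 0 v 0
  simpa using this

lemma ld_neg' (h1 : StG1) (hA : AffineIndependent ℝ A) (i : Fin 3) (v : Plane) :
    ld A i (-v) = -ld A i v := by
  obtain ⟨-, -, -, lin, -⟩ := h1 A hA
  have a := lin i 0 1 (-v)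
  have b := lin i 0 (-1) v
  rw [neg_one_smul] at b
  rw [one_smul] at a
  linarith

/-- the reversed collision state -/
def rev (h1 : StG1) (h2 : StG2) (hA : AffineIndependent ℝ A) (s : CS A) : CS A where
  i := s.i
  q := s.q
  u := -mirror (sideVec A s.i) s.u
  hq := s.hq
  hq' := s.hq'
  hu := by
    obtain ⟨-, -, -, -, -, -, -, mld, -⟩ := h2 A hA s.i
    rw [ld_neg' h1 hA, mld, neg_neg]; exact s.hu
  hn := by
    obtain ⟨-, -, -, mnorm, -⟩ := h2 A hA s.i
    rw [norm_neg, mnorm, s.hn]
  hL := reflW_neg_line h2 hA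

lemma step_rev (h1 : StG1) (h2 : StG2) (hA : AffineIndependent ℝ A) {s s' : CS A} {τ : ℝ}
    (h : Step s s' τ) : Step (rev h1 h2 hA s') (rev h1 h2 hA s) τ := by
  obtain ⟨h3, h4, h5⟩ := h
  obtain ⟨-, minv', -⟩ := h2 A hA s'.i
  have hu : (rev h1 h2 hA s').u = -s.u := by
    show -mirror (sideVec A s'.i) s'.u = -s.u
    rw [h5, minv']
  refine ⟨h3, ?_, ?_⟩
  · rw [hu]
    show s.q = s'.q + τ • (-s.u)
    rw [h4, smul_neg]; abel
  · rw [hu]
    show -mirror (sideVec A s.i) s.u = mirror (sideVec A s.i) (-s.u)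
    rw [mirror_neg' h2 hA]

lemma exists_bwd (h1 : StG1) (h2 : StG2) (hA : AffineIndependent ℝ A) (s' : CS A) :
    ∃ s τ, Step s s' τ := by
  obtain ⟨s, τ, h3, h4, h5⟩ := exists_fwd h1 h2 hA (rev h1 h2 hA s')
  have h6 := step_rev h1 h2 hA ⟨h3, h4, h5⟩
  refine ⟨rev h1 h2 hA s, τ, h6.1, ?_, ?_⟩
  · exact h6.2.1
  · have := h6.2.2
    have h7 : (rev h1 h2 hA (rev h1 h2 hA s')).u = s'.u := by
      obtain ⟨-, minv', -⟩ := h2 A hA s'.i
      show -mirror (sideVec A s'.i) (-mirror (sideVec A s'.i) s'.u) = s'.u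
      rw [mirror_neg' h2 hA, minv', neg_neg]
    rw [h7] at this
    exact this

lemma step_side_ne (h1 : StG1) (hA : AffineIndependent ℝ A) {s s' : CS A} {τ : ℝ}
    (h : Step s s' τ) : s'.i ≠ s.i := by
  intro hi
  obtain ⟨-, -, -, lin, -⟩ := h1 A hA
  obtain ⟨h3, h4, h5⟩ := h
  have a := s'.hq
  rw [hi, h4, lin, s.hq, zero_add] at a
  have b := mul_pos h3 s.hu
  linarith

/-- two-sided sequences from a relation that is total in both directions -/
lemma exists_zseq {α : Type*} (r : α → α → Prop) (hf : ∀ a, ∃ b, r a b) (hb : ∀ b, ∃ a, r a b)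
    (a₀ : α) : ∃ s : ℤ → α, s 0 = a₀ ∧ ∀ k, r (s k) (s (k + 1)) := by
  choose f hf using hf
  choose g hg using hb
  refine ⟨fun k => match k with
    | Int.ofNat n => f^[n] a₀
    | Int.negSucc n => g^[n + 1] a₀, rfl, ?_⟩
  intro k
  rcases k with n | n
  · show r (f^[n] a₀) (f^[n + 1] a₀)
    rw [Function.iterate_succ_apply']
    exact hf _
  · rcases n with _ | n
    · show r (g a₀) a₀
      exact hg _
    · have hk : (Int.negSucc (n + 1) + 1 : ℤ) = Int.negSucc n := by omega
      rw [hk]
      show r (g^[n + 1 + 1] a₀) (g^[n + 1] a₀)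
      rw [Function.iterate_succ_apply' g (n + 1)]
      exact hg _

/-- a two-sided sequence with prescribed increments -/
lemma exists_zsum (f : ℤ → ℝ) (a : ℝ) : ∃ t : ℤ → ℝ, t 0 = a ∧ ∀ k, t (k + 1) = t k + f k := by
  refine ⟨fun k => a + ∑ m ∈ Finset.Ico 0 k, f m - ∑ m ∈ Finset.Ico k 0, f m, by simp, ?_⟩
  intro k
  rcases le_or_gt 0 k with hk | hk
  · have e1 : Finset.Ico (k + 1) 0 = ∅ := Finset.Ico_eq_empty (by omega)
    have e2 : Finset.Ico k 0 = ∅ := Finset.Ico_eq_empty (by omega)
    have e3 : Finset.Ico 0 (k + 1) = insert k (Finset.Ico 0 k) := by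
      ext m; simp only [Finset.mem_Ico, Finset.mem_insert]; omega
    simp only [e1, e2, e3]
    rw [Finset.sum_insert (by simp)]
    simp; ring
  · have e1 : Finset.Ico 0 (k + 1) = ∅ := Finset.Ico_eq_empty (by omega)
    have e2 : Finset.Ico 0 k = ∅ := Finset.Ico_eq_empty (by omega)
    have e3 : Finset.Ico k 0 = insert k (Finset.Ico (k + 1) 0) := by
      ext m; simp only [Finset.mem_Ico, Finset.mem_insert]; omega
    simp only [e1, e2, e3]
    rw [Finset.sum_insert (by simp)]
    simp
    ring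

/-- dist to a vertex along a chain of collisions at sides adjacent to it -/
lemma dist_vertex (h1 : StG1) (h2 : StG2) (hA : AffineIndependent ℝ A) {s s' : CS A} {τ : ℝ}
    (h : Step s s' τ) {k : Fin 3} (hk : s'.i ≠ k) (r : ℝ) :
    dist (s'.q + r • s'.u) (A k) = dist (s.q + (τ + r) • s.u) (A k) := by
  obtain ⟨-, -, -, lin, vert, -⟩ := h1 A hA
  obtain ⟨hinv, minv, rdist, mnorm, mlin, raff, rcd, mld, rfix, -⟩ := h2 A hA s'.i
  obtain ⟨h3, h4, h5⟩ := h
  have e1 : refl A s'.i (A k) = A k := rfix _ (by rw [vert, if_neg hk])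
  have e2 : s'.q + r • s'.u = refl A s'.i (s.q + (τ + r) • s.u) := by
    rw [add_smul, ← add_assoc, raff (s.q + τ • s.u), ← h4, rfix _ s'.hq, h5]
  rw [e2]
  nth_rewrite 1 [← e1]
  rw [rdist]

/-- no accumulation of collisions -/
lemma no_acc (h1 : StG1) (h2 : StG2) (hA : AffineIndependent ℝ A) (s : ℕ → CS A) (τ T : ℕ → ℝ)
    (hs : ∀ n, Step (s n) (s (n + 1)) (τ n)) (hT : ∀ n, T (n + 1) = T n + τ n) :
    Tendsto T atTop atTop := by
  obtain ⟨-, sum1, -, lin, vert, -, -, ccont, -⟩ := h1 A hA
  have hmono : Monotone T := monotone_nat_of_le_succ fun n => by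
    rw [hT]; linarith [(hs n).1]
  rcases tendsto_atTop_of_monotone hmono with h | ⟨l, hl⟩
  · exact h
  exfalso
  have hle : ∀ n, T n ≤ l := fun n => hmono.ge_of_tendsto hl n
  -- the collision points form a Cauchy sequence
  have hdist : ∀ n, dist (s n).q (s (n + 1)).q = T (n + 1) - T n := by
    intro n
    rw [(hs n).2.1, dist_self_add_right, norm_smul, (s n).hn, mul_one, Real.norm_eq_abs,
      abs_of_pos (hs n).1, hT]
    ring
  have hsum : ∀ n, ∑ k ∈ Finset.range n, dist (s k).q (s (k + 1)).q = T n - T 0 := by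
    intro n
    simp only [hdist]
    rw [Finset.sum_range_sub]
  have hsumm : Summable fun n => dist (s n).q (s (n + 1)).q := by
    refine summable_of_sum_range_le (c := l - T 0) (fun n => dist_nonneg) fun n => ?_
    rw [hsum]; linarith [hle n]
  obtain ⟨q, hq⟩ := cauchySeq_tendsto_of_complete (cauchySeq_of_summable_dist hsumm)
  have hcd : ∀ j, Tendsto (fun n => cd A j (s n).q) atTop (𝓝 (cd A j q)) := fun j =>
    ((ccont j).tendsto q).comp hq
  have hside : ∀ j, 0 < cd A j q → ∀ᶠ n in atTop, (s n).i ≠ j := by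
    intro j hj
    filter_upwards [(hcd j).eventually (lt_mem_nhds hj)] with n hn hi
    have := (s n).hq
    rw [hi] at this
    linarith
  have hnn : ∀ j, 0 ≤ cd A j q := fun j => by
    refine ge_of_tendsto' (hcd j) fun n => ?_
    by_cases hj : j = (s n).i
    · rw [hj, (s n).hq]
    · exact ((s n).hq' j hj).le
  by_cases hvert : ∃ k, q = A k
  · -- the limit is a vertex
    obtain ⟨k, rfl⟩ := hvert
    obtain ⟨N, hN⟩ := eventually_atTop.1 (hside k (by rw [vert, if_pos rfl]; exact one_pos))
    have key : ∀ n, ∀ r : ℝ, dist ((s (N + n)).q + r • (s (N + n)).u) (A k)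
        = dist ((s N).q + (T (N + n) - T N + r) • (s N).u) (A k) := by
      intro n
      induction n with
      | zero => intro r; simp
      | succ n ih =>
        intro r
        rw [← add_assoc, dist_vertex h1 h2 hA (hs (N + n)) (hN _ (by omega)), ih, hT]
        congr 3
        ring
    have lim1 : Tendsto (fun n => dist ((s (N + n)).q + (0 : ℝ) • (s (N + n)).u) (A k)) atTop
        (𝓝 (dist (A k) (A k))) := by
      have h3 : Tendsto (fun n => (s (N + n)).q) atTop (𝓝 (A k)) := by
        have := (tendsto_add_atTop_iff_nat N).2 hq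
        simpa [add_comm] using this
      simpa using h3.dist (tendsto_const_nhds (x := A k))
    have lim2 : Tendsto (fun n => dist ((s N).q + (T (N + n) - T N + 0) • (s N).u) (A k)) atTop
        (𝓝 (dist ((s N).q + (l - T N + 0) • (s N).u) (A k))) := by
      have h3 : Tendsto (fun n => T (N + n)) atTop (𝓝 l) := by
        have := (tendsto_add_atTop_iff_nat N).2 hl
        simpa [add_comm] using this
      have h4 : Tendsto (fun n => (s N).q + (T (N + n) - T N + 0) • (s N).u) atTop
          (𝓝 ((s N).q + (l - T N + 0) • (s N).u)) :=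
        (((h3.sub_const _).add_const _).smul_const _).const_add _
      exact h4.dist tendsto_const_nhds
    have heq : dist (A k) (A k) = dist ((s N).q + (l - T N + 0) • (s N).u) (A k) := by
      refine tendsto_nhds_unique lim1 ?_
      simp only [key _ 0]
      exact lim2
    rw [dist_self] at heq
    exact (s N).hL [] (l - T N + 0) k (dist_eq_zero.1 heq.symm)
  · -- the limit is not a vertex
    push Not at hvert
    have hone : ∃ i, ∀ j, j ≠ i → 0 < cd A j q := by
      by_cases h : ∃ i, cd A i q = 0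
      · obtain ⟨i, hi⟩ := h
        refine ⟨i, fun j hj => (hnn j).lt_of_ne fun h0 => ?_⟩
        obtain ⟨k, hk⟩ := vertex_of_two h1 hA hj h0.symm hi
        exact hvert k hk
      · push Not at h
        exact ⟨0, fun j _ => (hnn j).lt_of_ne (h j).symm⟩
    obtain ⟨i, hi⟩ := hone
    have hall : ∀ᶠ n in atTop, (s n).i = i := by
      have : ∀ᶠ n in atTop, ∀ j, j ≠ i → (s n).i ≠ j := by
        rw [eventually_all]
        intro j
        by_cases hj : j = i
        · exact Eventually.of_forall fun n h => absurd hj h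
        · filter_upwards [hside j (hi j hj)] with n hn _
          exact hn
      filter_upwards [this] with n hn
      by_contra h
      exact hn _ h rfl
    obtain ⟨N, hN⟩ := eventually_atTop.1 hall
    have := step_side_ne h1 hA (hs N)
    rw [hN N le_rfl, hN (N + 1) (by omega)] at this
    exact this rfl

end Ex

open Ex in
theorem exist (h1 : StG1) (h2 : StG2) : StExist := by
  intro A hA p hp
  obtain ⟨hadm, hline⟩ := hp
  have hv : ‖(p.2 : Plane)‖ = 1 := by simp
  obtain ⟨s₁, τ, hτ, hq, hu⟩ := fwd h1 h2 hA p.1 p.2 hv hadm hline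
  obtain ⟨s', hs'0, hs'⟩ := exists_zseq (fun a b : CS A => ∃ τ, Step a b τ)
    (fun a => exists_fwd h1 h2 hA a) (fun b => exists_bwd h1 h2 hA b) s₁
  choose σ hσ using hs'
  obtain ⟨t', ht'0, ht'⟩ := exists_zsum σ τ
  have hmono' : StrictMono t' := by
    refine strictMono_int_of_lt_succ fun k => ?_
    rw [ht']; linarith [(hσ k).1]
  -- velocities
  have hvel : ∀ k, (t' (k + 1) - t' k)⁻¹ • ((s' (k + 1)).q - (s' k).q) = (s' k).u := by
    intro k
    rw [ht', (hσ k).2.1, add_sub_cancel_left, add_sub_cancel_left, smul_smul,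
      inv_mul_cancel₀ (hσ k).1.ne', one_smul]
  have htop : Tendsto t' atTop atTop := by
    have h3 := no_acc h1 h2 hA (fun n : ℕ => s' n) (fun n : ℕ => σ n) (fun n : ℕ => t' n)
      (fun n => by have := hσ n; push_cast; exact this)
      (fun n => by have := ht' n; push_cast; exact this)
    refine tendsto_atTop_atTop_of_monotone hmono'.monotone fun b => ?_
    obtain ⟨n, hn⟩ := (h3.eventually (eventually_ge_atTop b)).exists
    exact ⟨n, hn⟩
  have hbot : Tendsto t' atBot atBot := by
    have h3 := no_acc h1 h2 hA (fun n : ℕ => rev h1 h2 hA (s' (-(n : ℤ))))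
      (fun n : ℕ => σ (-(n : ℤ) - 1)) (fun n : ℕ => -t' (-(n : ℤ)))
      (fun n => by
        have := step_rev h1 h2 hA (hσ (-(n : ℤ) - 1))
        have e : (-(n : ℤ) - 1 + 1) = -(n : ℤ) := by ring
        rw [e] at this
        have e2 : (-((n + 1 : ℕ) : ℤ)) = -(n : ℤ) - 1 := by push_cast; ring
        simp only [e2]
        exact this)
      (fun n => by
        have := ht' (-(n : ℤ) - 1)
        have e : (-(n : ℤ) - 1 + 1) = -(n : ℤ) := by ring
        rw [e] at this
        have e2 : (-((n + 1 : ℕ) : ℤ)) = -(n : ℤ) - 1 := by push_cast; ring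
        simp only [e2]
        linarith)
    refine tendsto_atBot_atBot_of_monotone hmono'.monotone fun b => ?_
    obtain ⟨n, hn⟩ := (h3.eventually (eventually_ge_atTop (-b))).exists
    exact ⟨-(n : ℤ), by linarith⟩
  obtain ⟨-, -, -, lin, -, -, -, -, -, -, hopen⟩ := h1 A hA
  -- the flight before `s₁`
  have hst := hσ (-1)
  rw [show (-1 + 1 : ℤ) = 0 by norm_num, hs'0] at hst
  have hu0 : (s' (-1)).u = p.2 := by
    obtain ⟨-, minv, -⟩ := h2 A hA s₁.i
    have h4 := hst.2.2
    rw [hu] at h4
    have h5 := congrArg (mirror (sideVec A s₁.i)) h4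
    rw [minv, minv] at h5
    exact h5.symm
  have hq0 : (s' (-1)).q = p.1 + (τ - σ (-1)) • (p.2 : Plane) := by
    have h4 := hst.2.1
    rw [hq, hu0] at h4
    rw [sub_smul, add_sub, ← sub_eq_iff_eq_add.2 h4]
  have ht0 : t' (-1) = τ - σ (-1) := by
    have := ht' (-1)
    rw [show (-1 + 1 : ℤ) = 0 by norm_num, ht'0] at this
    linarith
  have hle : τ ≤ σ (-1) := by
    by_contra hcon
    push Not at hcon
    have a := (s' (-1)).hq
    have b := (s' (-1)).hu
    rw [hu0] at b
    rw [hq0, lin] at a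
    have c : 0 ≤ cd A (s' (-1)).i p.1 := by
      rcases hadm (s' (-1)).i with h | h
      · exact h.le
      · exact h.1.ge
    have d := mul_pos (sub_pos.2 hcon) b
    linarith
  refine ⟨{
    t := fun k => t' (k - 1)
    q := fun k => (s' (k - 1)).q
    side := fun k => (s' (k - 1)).i
    strictMono_t := fun a b hab => hmono' (by omega)
    t_zero_le := by simp only [zero_sub]; rw [ht0]; linarith
    t_one_pos := by simp only [sub_self]; rw [ht'0]; exact hτ
    tendsto_atTop := htop.comp (tendsto_atTop_add_const_right _ (-1) tendsto_id)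
    tendsto_atBot := hbot.comp (tendsto_atBot_add_const_right _ (-1) tendsto_id)
    mem_side := fun k => by
      rw [hopen]
      exact ⟨(s' (k - 1)).hq, (s' (k - 1)).hq'⟩
    side_ne := fun k => by
      have := step_side_ne h1 hA (hσ (k - 1))
      rw [sub_add_cancel] at this
      simp only [add_sub_cancel_right]
      exact this
    unit_speed := fun k => by
      have h3 := hσ (k - 1)
      have h4 := ht' (k - 1)
      rw [sub_add_cancel] at h3 h4
      simp only [add_sub_cancel_right]
      rw [h4, h3.2.1, dist_self_add_right, norm_smul, (s' (k - 1)).hn, mul_one,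
        Real.norm_eq_abs, abs_of_pos h3.1]
      ring
    reflect := fun k => by
      have h3 := hvel k
      have h4 := hvel (k - 1)
      have h5 := hσ (k - 1)
      rw [sub_add_cancel] at h4 h5
      have e1 : k + 2 - 1 = k + 1 := by ring
      have e2 : k + 1 - 1 = k := by ring
      simp only [e1, e2]
      rw [h3, h4]
      exact h5.2.2 }, ?_⟩
  refine ⟨0, ?_, ?_, ?_, ?_⟩
  · simp only [zero_sub]; rw [ht0]; linarith
  · simp only [zero_add, sub_self]; rw [ht'0]; exact hτ
  · simp only [Chain.vel, zero_add, sub_self, zero_sub]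
    have h3 := hvel (-1)
    rw [show (-1 + 1 : ℤ) = 0 by norm_num] at h3
    rw [h3, hu0, hq0, ht0]
    module
  · simp only [Chain.vel, zero_add, sub_self, zero_sub]
    have h3 := hvel (-1)
    rw [show (-1 + 1 : ℤ) = 0 by norm_num] at h3
    rw [h3, hu0]

end Crest.Agent.R103
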