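import Crest.Agent.R103.IfaceG

/-!
# R103, H2: shifting a chain in time (helper611)
-/

open MeasureTheory Filter Topology
open Crest.AnalysisR.Billiard

noncomputable section

namespace Crest.Agent.R103

namespace Shift

variable {A : Fin 3 → Plane}

/-- the chain `c` shifted by time `s` -/
def shiftC (c : Chain A) (s : ℝ) : Chain A where
  t := fun k => c.t (k + idx c s) - s
  q := fun k => c.q (k + idx c s)
  side := fun k => c.side (k + idx c s)
  strictMono_t := fun a b h => sub_lt_sub_right (c.strictMono_t (by omega)) s
  t_zero_le := by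
    have h := idx_le c s
    rw [zero_add]; linarith
  t_one_pos := by
    have h := lt_idx c s
    rw [add_comm 1 (idx c s)]; linarith
  tendsto_atTop := by
    have h1 : Tendsto (fun k : ℤ => k + idx c s) atTop atTop :=
      tendsto_atTop_add_const_right _ _ tendsto_id
    have h2 := (c.tendsto_atTop.comp h1)
    simpa [sub_eq_add_neg, Function.comp_def] using tendsto_atTop_add_const_right _ (-s) h2
  tendsto_atBot := by
    have h1 : Tendsto (fun k : ℤ => k + idx c s) atBot atBot :=
      tendsto_atBot_add_const_right _ _ tendsto_id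
    have h2 := (c.tendsto_atBot.comp h1)
    simpa [sub_eq_add_neg, Function.comp_def] using tendsto_atBot_add_const_right _ (-s) h2
  mem_side := fun k => c.mem_side _
  side_ne := fun k => by
    have h := c.side_ne (k + idx c s)
    rw [show k + idx c s + 1 = k + 1 + idx c s by ring] at h
    exact h
  unit_speed := fun k => by
    have h := c.unit_speed (k + idx c s)
    rw [show k + idx c s + 1 = k + 1 + idx c s by ring] at h
    rw [← h]; ring
  reflect := fun k => by
    have h := c.reflect (k + idx c s)
    rw [show k + idx c s + 1 = k + 1 + idx c s by ring,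
      show k + idx c s + 2 = k + 2 + idx c s by ring] at h
    rw [sub_sub_sub_cancel_right, sub_sub_sub_cancel_right]
    exact h

lemma shiftC_vel (c : Chain A) (s : ℝ) (k : ℤ) : (shiftC c s).vel k = c.vel (k + idx c s) := by
  have e : k + idx c s + 1 = k + 1 + idx c s := by ring
  simp only [Chain.vel, shiftC, e, sub_sub_sub_cancel_right]

lemma shiftC_idx (c : Chain A) (s τ : ℝ) :
    idx (shiftC c s) τ = idx c (τ + s) - idx c s := by
  refine idx_unique _ ?_ ?_
  · have h := idx_le c (τ + s)
    show c.t (idx c (τ + s) - idx c s + idx c s) - s ≤ τ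
    rw [sub_add_cancel]; linarith
  · have h := lt_idx c (τ + s)
    show τ < c.t (idx c (τ + s) - idx c s + 1 + idx c s) - s
    rw [show idx c (τ + s) - idx c s + 1 + idx c s = idx c (τ + s) + 1 by ring]; linarith

lemma shiftC_stateAt (c : Chain A) (s τ : ℝ) :
    stateAt (shiftC c s) τ = stateAt c (τ + s) := by
  have hv : (shiftC c s).vel (idx (shiftC c s) τ) = c.vel (idx c (τ + s)) := by
    rw [shiftC_vel, shiftC_idx, sub_add_cancel]
  have hq : (shiftC c s).q (idx (shiftC c s) τ) = c.q (idx c (τ + s)) := by
    show c.q (idx (shiftC c s) τ + idx c s) = _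
    rw [shiftC_idx, sub_add_cancel]
  have ht : (shiftC c s).t (idx (shiftC c s) τ) = c.t (idx c (τ + s)) - s := by
    show c.t (idx (shiftC c s) τ + idx c s) - s = _
    rw [shiftC_idx, sub_add_cancel]
  refine Prod.ext ?_ (Subtype.ext ?_)
  · simp only [stateAt, hv, hq, ht]
    congr 2; ring
  · exact hv

end Shift

/-- H2: shifting a chain in time. -/
theorem shift : StShift := fun _ c s =>
  ⟨Shift.shiftC c s, fun _ => rfl, fun _ => rfl, fun _ => rfl, Shift.shiftC_idx c s,
    Shift.shiftC_stateAt c s⟩

end Crest.Agent.R103
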