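import Crest.Agent.R103.IfaceG

/-!
# R103, H1: uniqueness of chains through a state
-/

open Crest.AnalysisR.Billiard Set

noncomputable section

namespace Crest.Agent.R103

namespace H1

variable {A : Fin 3 → Plane}

lemma tau_pos (c : Chain A) (k : ℤ) : 0 < c.t (k + 1) - c.t k :=
  sub_pos.2 (c.strictMono_t (by omega))

lemma q_succ (c : Chain A) (k : ℤ) :
    c.q (k + 1) = c.q k + (c.t (k + 1) - c.t k) • c.vel k := by
  have h2 := tau_pos c k
  rw [Chain.vel, smul_smul, mul_inv_cancel₀ h2.ne', one_smul]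
  abel

lemma vel_succ (c : Chain A) (k : ℤ) :
    c.vel (k + 1) = mirror (sideVec A (c.side (k + 1))) (c.vel k) := by
  have h := c.reflect k
  have e : k + 1 + 1 = k + 2 := by ring
  rw [Chain.vel, Chain.vel, e]
  exact h

/-- along the line of the flight, the open triangle is exactly the flight -/
lemma flight
    (haff : ∀ i x (s : ℝ) v, cd A i (x + s • v) = cd A i x + s * ld A i v)
    (hos : ∀ i, openSide A i = {x | cd A i x = 0 ∧ ∀ j, j ≠ i → 0 < cd A j x})
    (c : Chain A) (k : ℤ) (x v : Plane) (a : ℝ) (hv : c.vel k = v) (hq : c.q k = x + a • v) :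
    {s : ℝ | ∀ m, 0 < cd A m (x + s • v)} = Ioo a (a + (c.t (k + 1) - c.t k)) := by
  have hτ := tau_pos c k
  set τ := c.t (k + 1) - c.t k with hτdef
  have h0 := c.mem_side k
  have h1 := c.mem_side (k + 1)
  have hne := c.side_ne k
  rw [hos] at h0 h1
  obtain ⟨h00, h01⟩ := h0
  obtain ⟨h10, h11⟩ := h1
  have hq1 : c.q (k + 1) = x + (a + τ) • v := by
    rw [q_succ, hv, hq, add_smul, add_assoc]
  rw [hq1] at h10 h11
  rw [hq] at h00 h01
  have hf := fun m s => haff m x s v
  ext s
  simp only [mem_setOf_eq, mem_Ioo]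
  constructor
  · intro hs
    constructor
    · by_contra hle
      push Not at hle
      have A1 := h11 (c.side k) (Ne.symm hne)
      have A2 := hs (c.side k)
      rw [hf] at h00 A1 A2
      have hl : 0 < τ * ld A (c.side k) v := by nlinarith
      have hl' : 0 < ld A (c.side k) v := by
        by_contra hh
        push Not at hh
        nlinarith
      nlinarith
    · by_contra hle
      push Not at hle
      have A1 := h01 (c.side (k + 1)) hne
      have A2 := hs (c.side (k + 1))
      rw [hf] at h10 A1 A2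
      have hl' : ld A (c.side (k + 1)) v < 0 := by
        by_contra hh
        push Not at hh
        nlinarith
      nlinarith
  · rintro ⟨hs1, hs2⟩ m
    have ha : 0 ≤ cd A m (x + a • v) := by
      by_cases hm : m = c.side k
      · rw [hm, h00]
      · exact (h01 m hm).le
    have hb : 0 ≤ cd A m (x + (a + τ) • v) := by
      by_cases hm : m = c.side (k + 1)
      · rw [hm, h10]
      · exact (h11 m hm).le
    have hab : 0 < cd A m (x + a • v) ∨ 0 < cd A m (x + (a + τ) • v) := by
      by_cases hm : m = c.side k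
      · right
        exact h11 m (by rw [hm]; exact Ne.symm hne)
      · left
        exact h01 m hm
    rw [hf] at ha hb hab ⊢
    rw [hf] at hab
    have key : τ * (cd A m x + s * ld A m v) =
        (a + τ - s) * (cd A m x + a * ld A m v)
          + (s - a) * (cd A m x + (a + τ) * ld A m v) := by ring
    have hpos : 0 < τ * (cd A m x + s * ld A m v) := by
      rw [key]
      have p1 : 0 < a + τ - s := by linarith
      have p2 : 0 < s - a := by linarith
      rcases hab with h | h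
      · have := mul_pos p1 h
        have := mul_nonneg p2.le hb
        linarith
      · have := mul_pos p2 h
        have := mul_nonneg p1.le ha
        linarith
    exact (pos_iff_pos_of_mul_pos hpos).1 hτ

lemma Ioo_inj {a b a' b' : ℝ} (h : a < b) (h' : a' < b') (e : Ioo a b = Ioo a' b') :
    a = a' ∧ b = b' := by
  have h1 := isGLB_Ioo h
  have h2 := isGLB_Ioo h'
  have h3 := isLUB_Ioo h
  have h4 := isLUB_Ioo h'
  rw [e] at h1 h3
  exact ⟨h1.unique h2, h3.unique h4⟩

lemma side_unique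
    (hos : ∀ i, openSide A i = {x | cd A i x = 0 ∧ ∀ j, j ≠ i → 0 < cd A j x})
    {i j : Fin 3} {x : Plane} (hi : x ∈ openSide A i) (hj : x ∈ openSide A j) : i = j := by
  rw [hos] at hi hj
  by_contra h
  have := hj.2 i h
  rw [hi.1] at this
  exact lt_irrefl _ this

lemma matching
    (haff : ∀ i x (s : ℝ) v, cd A i (x + s • v) = cd A i x + s * ld A i v)
    (hos : ∀ i, openSide A i = {x | cd A i x = 0 ∧ ∀ j, j ≠ i → 0 < cd A j x})
    (c c' : Chain A) (k k' : ℤ) (x v : Plane) (a a' : ℝ)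
    (hv : c.vel k = v) (hq : c.q k = x + a • v)
    (hv' : c'.vel k' = v) (hq' : c'.q k' = x + a' • v) :
    a = a' ∧ c.t (k + 1) - c.t k = c'.t (k' + 1) - c'.t k' ∧
      c.q k = c'.q k' ∧ c.q (k + 1) = c'.q (k' + 1) ∧
      c.side k = c'.side k' ∧ c.side (k + 1) = c'.side (k' + 1) := by
  have e1 := flight haff hos c k x v a hv hq
  have e2 := flight haff hos c' k' x v a' hv' hq'
  have hτ := tau_pos c k
  have hτ' := tau_pos c' k'
  obtain ⟨h1, h2⟩ := Ioo_inj (by linarith) (by linarith) (e1.symm.trans e2)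
  have hτe : c.t (k + 1) - c.t k = c'.t (k' + 1) - c'.t k' := by
    rw [h1] at h2; linarith
  have hqe : c.q k = c'.q k' := by rw [hq, hq', h1]
  have hqe' : c.q (k + 1) = c'.q (k' + 1) := by
    rw [q_succ, q_succ, hqe, hτe, hv, hv']
  refine ⟨h1, hτe, hqe, hqe', ?_, ?_⟩
  · have m1 := c.mem_side k
    have m2 := c'.mem_side k'
    rw [hqe] at m1
    exact side_unique hos m1 m2
  · have m1 := c.mem_side (k + 1)
    have m2 := c'.mem_side (k' + 1)
    rw [hqe'] at m1
    exact side_unique hos m1 m2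

lemma chain_ext {c c' : Chain A} (ht : c.t = c'.t) (hq : c.q = c'.q) (hs : c.side = c'.side) :
    c = c' := by
  cases c; cases c'
  dsimp only at ht hq hs
  subst ht hq hs
  rfl

/-- the data of two chains agree at index `k` -/
def Eqv (c c' : Chain A) (k : ℤ) : Prop :=
  c.t k = c'.t k ∧ c.q k = c'.q k ∧ c.side k = c'.side k

lemma vel_eq {c c' : Chain A} {k : ℤ} (h : Eqv c c' k) (h' : Eqv c c' (k + 1)) :
    c.vel k = c'.vel k := by
  rw [Chain.vel, Chain.vel, h.1, h.2.1, h'.1, h'.2.1]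

lemma fwd
    (haff : ∀ i x (s : ℝ) v, cd A i (x + s • v) = cd A i x + s * ld A i v)
    (hos : ∀ i, openSide A i = {x | cd A i x = 0 ∧ ∀ j, j ≠ i → 0 < cd A j x})
    {c c' : Chain A} {k : ℤ} (h : Eqv c c' k) (h' : Eqv c c' (k + 1)) :
    Eqv c c' (k + 1 + 1) := by
  have hv := vel_eq h h'
  have hv1 : c.vel (k + 1) = c'.vel (k + 1) := by
    rw [vel_succ, vel_succ, hv, h'.2.2]
  obtain ⟨-, h2, -, h4, -, h6⟩ := matching haff hos c c' (k + 1) (k + 1) (c.q (k + 1))
    (c.vel (k + 1)) 0 0 rfl (by simp) hv1.symm (by simp [h'.2.1])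
  refine ⟨?_, h4, h6⟩
  have := h'.1
  linarith

lemma bwd
    (haff : ∀ i x (s : ℝ) v, cd A i (x + s • v) = cd A i x + s * ld A i v)
    (hos : ∀ i, openSide A i = {x | cd A i x = 0 ∧ ∀ j, j ≠ i → 0 < cd A j x})
    (hmm : ∀ i v, mirror (sideVec A i) (mirror (sideVec A i) v) = v)
    {c c' : Chain A} {k : ℤ} (h : Eqv c c' (k + 1)) (h' : Eqv c c' (k + 1 + 1)) :
    Eqv c c' k := by
  have hv := vel_eq h h'
  have hv1 : c.vel k = c'.vel k := by
    have e1 := vel_succ c k
    have e2 := vel_succ c' k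
    rw [← hmm (c.side (k + 1)) (c.vel k), ← hmm (c'.side (k + 1)) (c'.vel k), ← e1, ← e2, hv,
      h.2.2]
  have hqc : c.q k = c.q (k + 1) + (-(c.t (k + 1) - c.t k)) • c.vel k := by
    rw [q_succ, neg_smul]; abel
  have hqc' : c'.q k = c.q (k + 1) + (-(c'.t (k + 1) - c'.t k)) • c.vel k := by
    rw [h.2.1, hv1, q_succ, neg_smul]; abel
  obtain ⟨h1, h2, h3, h4, h5, h6⟩ := matching haff hos c c' k k (c.q (k + 1))
    (c.vel k) _ _ rfl hqc hv1.symm hqc'
  refine ⟨?_, h3, h5⟩
  have := h.1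
  linarith

lemma all_eqv
    (haff : ∀ i x (s : ℝ) v, cd A i (x + s • v) = cd A i x + s * ld A i v)
    (hos : ∀ i, openSide A i = {x | cd A i x = 0 ∧ ∀ j, j ≠ i → 0 < cd A j x})
    (hmm : ∀ i v, mirror (sideVec A i) (mirror (sideVec A i) v) = v)
    {c c' : Chain A} (h0 : Eqv c c' 0) (h1 : Eqv c c' 1) (k : ℤ) :
    Eqv c c' k ∧ Eqv c c' (k + 1) := by
  induction k using Int.induction_on with
  | zero => exact ⟨h0, by simpa using h1⟩
  | succ i ih => exact ⟨ih.2, fwd haff hos ih.1 ih.2⟩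
  | pred i ih =>
    have e : (-(i : ℤ) - 1 + 1) = -i := by ring
    refine ⟨?_, by rw [e]; exact ih.1⟩
    refine bwd haff hos hmm (by rw [e]; exact ih.1) ?_
    rw [e]; exact ih.2

end H1

/-- H1. uniqueness of chains through a state -/
theorem uniq (g1 : StG1) (g2 : StG2) : StUniq := by
  intro A hA c c' p hc hc'
  obtain ⟨-, -, -, haff, -, -, -, -, -, -, hos⟩ := g1 A hA
  have hmm : ∀ i v, mirror (sideVec A i) (mirror (sideVec A i) v) = v :=
    fun i v => (g2 A hA i).2.1 v
  rw [through_iff] at hc hc'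
  have e1 : p.1 = c.q 0 + (0 - c.t 0) • c.vel 0 := by
    rw [hc]; simp only [stateAt, idx_zero]
  have e1' : p.1 = c'.q 0 + (0 - c'.t 0) • c'.vel 0 := by
    rw [hc']; simp only [stateAt, idx_zero]
  have e2 : (p.2 : Plane) = c.vel 0 := by
    rw [hc]; simp only [stateAt, idx_zero]
  have e2' : (p.2 : Plane) = c'.vel 0 := by
    rw [hc']; simp only [stateAt, idx_zero]
  have hv : c'.vel 0 = c.vel 0 := by rw [← e2, ← e2']
  have hq : c.q 0 = p.1 + (c.t 0) • c.vel 0 := by
    rw [e1, zero_sub, neg_smul]; abel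
  have hq' : c'.q 0 = p.1 + (c'.t 0) • c.vel 0 := by
    rw [e1', hv, zero_sub, neg_smul]; abel
  obtain ⟨h1, h2, h3, h4, h5, h6⟩ := H1.matching haff hos c c' 0 0 p.1 (c.vel 0) _ _ rfl hq hv hq'
  have E0 : H1.Eqv c c' 0 := ⟨h1, h3, h5⟩
  have E1 : H1.Eqv c c' 1 := by
    rw [zero_add] at h2 h4 h6
    exact ⟨by linarith, h4, h6⟩
  have hall := H1.all_eqv haff hos hmm E0 E1
  exact H1.chain_ext (funext fun k => (hall k).1.1) (funext fun k => (hall k).1.2.1)
    (funext fun k => (hall k).1.2.2)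

end Crest.Agent.R103
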