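import Crest.Agent.R103.Iface

/-!
# R103, A4: the commutation identity `‖Ep δ f‖ = ‖Em δ f‖` for `f` supported in `{C₀ δ ≤ ρ}`
-/

open MeasureTheory Filter Topology Set
open scoped InnerProductSpace

noncomputable section

namespace Crest.Agent.R103

namespace Comm

section hilbert

variable {H : Type*} [NormedAddCommGroup H] [InnerProductSpace ℂ H] [CompleteSpace H]

lemma inner_harm (f : H) (k : ℤ) (F : ℝ → H) (hF : Continuous F) :
    ⟪f, harm k F⟫_ℂ =
      ((2 * Real.pi)⁻¹ : ℝ) * ∫ α in (0 : ℝ)..(2 * Real.pi),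
        Complex.exp (k * α * Complex.I) * ⟪f, F α⟫_ℂ := by
  unfold harm
  rw [← Complex.coe_smul, inner_smul_right]
  congr 1
  have hc : Continuous fun α : ℝ => Complex.exp (k * α * Complex.I) • F α := by
    refine Continuous.smul ?_ hF
    fun_prop
  have := (innerSL ℂ f).intervalIntegral_comp_comm
    (hc.intervalIntegrable (μ := volume) (0 : ℝ) (2 * Real.pi))
  simp only [innerSL_apply_apply] at this
  rw [← this]
  refine intervalIntegral.integral_congr fun α _ => ?_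
  simp only [inner_smul_right]

/-- the abstract symmetry: the double harmonic of a symmetric jointly continuous family. -/
lemma double_harm (U : ℝ → H →ₗᵢ[ℂ] H) (hU : ∀ f, Continuous fun α => U α f) (f : H)
    (hs : ∀ a b, ⟪f, U a (U b f)⟫_ℂ = ⟪f, U b (U a f)⟫_ℂ) :
    ⟪f, harm 1 fun a => U a (harm (-1) fun b => U b f)⟫_ℂ =
      ⟪f, harm (-1) fun a => U a (harm 1 fun b => U b f)⟫_ℂ := by
  -- joint continuity
  have hjoint : Continuous fun p : ℝ × ℝ => U p.1 (U p.2 f) := by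
    rw [continuous_iff_continuousAt]
    intro p
    rw [ContinuousAt, tendsto_iff_norm_sub_tendsto_zero]
    have h1 : Tendsto (fun q : ℝ × ℝ => ‖U q.2 f - U p.2 f‖ + ‖U q.1 (U p.2 f) - U p.1 (U p.2 f)‖)
        (𝓝 p) (𝓝 (0 + 0)) := by
      refine Tendsto.add ?_ ?_
      · have : Continuous fun q : ℝ × ℝ => ‖U q.2 f - U p.2 f‖ :=
          (((hU f).comp continuous_snd).sub continuous_const).norm
        simpa using this.tendsto p
      · have : Continuous fun q : ℝ × ℝ => ‖U q.1 (U p.2 f) - U p.1 (U p.2 f)‖ :=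
          (((hU (U p.2 f)).comp continuous_fst).sub continuous_const).norm
        simpa using this.tendsto p
    rw [add_zero] at h1
    refine squeeze_zero (fun _ => norm_nonneg _) (fun q => ?_) h1
    calc ‖U q.1 (U q.2 f) - U p.1 (U p.2 f)‖
        ≤ ‖U q.1 (U q.2 f) - U q.1 (U p.2 f)‖ + ‖U q.1 (U p.2 f) - U p.1 (U p.2 f)‖ :=
          norm_sub_le_norm_sub_add_norm_sub _ _ _
      _ = _ := by
          rw [← map_sub, (U q.1).norm_map]
  set G : ℝ → ℝ → ℂ := fun a b => ⟪f, U a (U b f)⟫_ℂ with hG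
  have hGc : Continuous fun p : ℝ × ℝ => G p.1 p.2 := continuous_const.inner hjoint
  -- expansion of one side
  have expand : ∀ k : ℤ, ⟪f, harm k fun a => U a (harm (-k) fun b => U b f)⟫_ℂ =
      ((2 * Real.pi)⁻¹ : ℝ) * ∫ a in (0 : ℝ)..(2 * Real.pi),
        (((2 * Real.pi)⁻¹ : ℝ) : ℂ) * ∫ b in (0 : ℝ)..(2 * Real.pi),
          Complex.exp (k * a * Complex.I) * (Complex.exp (((-k : ℤ) : ℂ) * b * Complex.I) * G a b) := by
    intro k
    rw [inner_harm _ _ _ (hU _)]
    congr 1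
    refine intervalIntegral.integral_congr fun a _ => ?_
    have h1 : U a (harm (-k) fun b => U b f) = harm (-k) fun b => U a (U b f) := by
      unfold harm
      rw [← Complex.coe_smul, ← Complex.coe_smul, map_smul, ← LinearIsometry.intervalIntegral_comp_comm]
      simp only [map_smul]
    have hc : Continuous fun b => U a (U b f) := (U a).continuous.comp (hU f)
    rw [h1, inner_harm _ _ _ hc, ← mul_assoc, mul_comm (Complex.exp _), mul_assoc]
    congr 1
    rw [← intervalIntegral.integral_const_mul]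
  have e1 := expand 1
  have e2 := expand (-1)
  rw [neg_neg] at e2
  rw [e1, e2]
  congr 1
  simp_rw [intervalIntegral.integral_const_mul (((2 * Real.pi)⁻¹ : ℝ) : ℂ)]
  congr 1
  rw [intervalIntegral_intervalIntegral_swap]
  · refine intervalIntegral.integral_congr fun a _ => ?_
    refine intervalIntegral.integral_congr fun b _ => ?_
    have : G b a = G a b := hs b a
    rw [this]
    ring
  · have hc : Continuous (Function.uncurry fun a b : ℝ =>
        Complex.exp (((1 : ℤ) : ℂ) * a * Complex.I) *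
          (Complex.exp (((-1 : ℤ) : ℂ) * b * Complex.I) * G a b)) := by
      refine Continuous.mul ?_ (Continuous.mul ?_ hGc)
      · fun_prop
      · fun_prop
    refine (hc.continuousOn.integrableOn_compact
      (isCompact_uIcc.prod isCompact_uIcc)).mono_set
      (prod_mono uIoc_subset_uIcc uIoc_subset_uIcc)

end hilbert

open PlaneSys

variable {Ω : Type} [TopologicalSpace Ω] [MeasurableSpace Ω] {μ : Measure Ω}

/-- the quadratic form `⟪f, U ζ' U ζ f⟫` is symmetric in small `ζ, ζ'` if `f` is supported away from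
the singular set. -/
lemma symm (S : PlaneSys Ω μ) {δ : ℝ} (hδ : 0 < δ) (f : Lp ℂ 2 μ) (hf : S.SuppGe (S.C₀ * δ) f)
    {ζ ζ' : ℂ} (h : ‖ζ‖ ≤ δ) (h' : ‖ζ'‖ ≤ δ) :
    ⟪f, S.U ζ (S.U ζ' f)⟫_ℂ = ⟪f, S.U ζ' (S.U ζ f)⟫_ℂ := by
  rw [L2.inner_def, L2.inner_def]
  refine integral_congr_ae ?_
  have a1 : ∀ ζ ζ' : ℂ, ∀ᵐ z ∂μ, (S.U ζ (S.U ζ' f)) z = f (S.T ζ' (S.T ζ z)) := by
    intro ζ ζ'
    have h1 := S.U_coe ζ (S.U ζ' f)
    have h2 := (S.T_mp ζ).quasiMeasurePreserving.ae (S.U_coe ζ' f)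
    filter_upwards [h1, h2] with z h1 h2
    rw [h1, h2]
  filter_upwards [a1 ζ ζ', a1 ζ' ζ, hf, S.LC δ hδ ζ ζ' h h', S.LC δ hδ ζ' ζ h' h]
    with z h1 h2 h3 h4 h5
  rcases lt_or_ge (S.ρ z) (S.C₀ * δ) with hz | hz
  · simp only [h3 hz, inner_zero_left]
  · have e4 := h4 hz
    have e5 := h5 hz
    rw [h1, h2]
    have : S.T ζ' (S.T ζ z) = S.T ζ (S.T ζ' z) := by
      unfold PlaneSys.T
      rw [e4, e5, add_comm]
    rw [this]

end Comm

open Comm in
theorem comm (hC : PlaneSys.StCont) (hE : PlaneSys.StE) : PlaneSys.StComm := by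
  intro Ω _ _ _ _ _ μ _ S δ hδ f hf
  obtain ⟨-, -, -, hU⟩ := hC Ω μ S
  obtain ⟨-, -, -, -, -, -, -, -, hpm, hmp⟩ := hE Ω μ S δ hδ.le
  have hn : ∀ α : ℝ, ‖(δ : ℂ) * Complex.exp (α * Complex.I)‖ ≤ δ := by
    intro α
    rw [norm_mul, Complex.norm_exp_ofReal_mul_I, mul_one, Complex.norm_real, Real.norm_eq_abs,
      abs_of_pos hδ]
  have key : ⟪f, S.Em δ (S.Ep δ f)⟫_ℂ = ⟪f, S.Ep δ (S.Em δ f)⟫_ℂ := by
    have := double_harm (fun α => S.U (δ * Complex.exp (α * Complex.I)))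
      (fun g => hU δ g hδ.le) f (fun a b => symm S hδ f hf (hn a) (hn b))
    exact this
  have h1 : ⟪S.Ep δ f, S.Ep δ f⟫_ℂ = ⟪S.Em δ f, S.Em δ f⟫_ℂ := by
    rw [hpm, hmp, key]
  rw [inner_self_eq_norm_sq_to_K, inner_self_eq_norm_sq_to_K] at h1
  have h2 : ‖S.Ep δ f‖ ^ 2 = ‖S.Em δ f‖ ^ 2 := by exact_mod_cast h1
  exact (pow_left_inj₀ (norm_nonneg _) (norm_nonneg _) two_ne_zero).1 h2

end Crest.Agent.R103
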