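import Crest.Agent.R103.ThC3

set_option autoImplicit false

/-!
# Row 103, Theorem C (helper876), part 4: the core
-/

namespace Crest.Agent.R103.ThC

open MeasureTheory Metric Set Module Crest.AnalysisR.Billiard Crest.Agent.R103
open scoped ComplexConjugate

/-- arc length on the unit sphere -/
noncomputable abbrev sg1 : Measure (sphere (0 : Plane) 1) := (volume : Measure Plane).toSphere

instance sfinite_prod (D : Set Plane) :
    SFinite ((volume.restrict D : Measure Plane).prod sg1) := Measure.prod.instSFinite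

theorem meas_fr (b : Bool) :
    Measurable (fun q : ℂ × (Plane × sphere (0 : Plane) 1) => fr b q.2.2 q.1) := by
  have h : Continuous (fun q : ℂ × (Plane × sphere (0 : Plane) 1) => fr b q.2.2 q.1) :=
    (fr_continuous b).comp (continuous_fst.prodMk (continuous_snd.comp continuous_snd))
  exact h.measurable

/-- step 1: translation invariance gives independence of the position -/
theorem step1 {D : Set Plane} (hD : MeasurableSet D) {f : Phase × Bool → ℂ} (hf : Measurable f)
    (b : Bool)
    (H1 : ∀ ζ, ∀ᵐ p ∂((volume.restrict D).prod sg1),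
      p.1 + fr b p.2 ζ ∈ D → f ((p.1 + fr b p.2 ζ, p.2), b) = f (p, b)) :
    ∀ᵐ v ∂sg1, ∀ᵐ x ∂(volume.restrict D), ∀ᵐ y ∂(volume.restrict D),
      f ((y, v), b) = f ((x, v), b) := by
  have hm1 : Measurable (fun q : ℂ × (Plane × sphere (0 : Plane) 1) =>
      q.2.1 + fr b q.2.2 q.1) := (measurable_fst.comp measurable_snd).add (meas_fr b)
  have hm2 : Measurable (fun q : ℂ × (Plane × sphere (0 : Plane) 1) =>
      f ((q.2.1 + fr b q.2.2 q.1, q.2.2), b)) :=
    hf.comp ((hm1.prodMk (measurable_snd.comp measurable_snd)).prodMk measurable_const)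
  have hm3 : Measurable (fun q : ℂ × (Plane × sphere (0 : Plane) 1) => f (q.2, b)) :=
    hf.comp (measurable_snd.prodMk measurable_const)
  have hms : MeasurableSet {q : ℂ × (Plane × sphere (0 : Plane) 1) |
      q.2.1 + fr b q.2.2 q.1 ∈ D → f ((q.2.1 + fr b q.2.2 q.1, q.2.2), b) = f ((q.2.1, q.2.2), b)} := by
    have e : {q : ℂ × (Plane × sphere (0 : Plane) 1) |
      q.2.1 + fr b q.2.2 q.1 ∈ D → f ((q.2.1 + fr b q.2.2 q.1, q.2.2), b) = f ((q.2.1, q.2.2), b)} =
      ({q | q.2.1 + fr b q.2.2 q.1 ∈ D})ᶜ ∪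
        {q | f ((q.2.1 + fr b q.2.2 q.1, q.2.2), b) = f (q.2, b)} := by
      ext q
      simp only [Set.mem_ofPred_eq, Set.mem_union, Set.mem_compl_iff, Prod.mk.eta]
      tauto
    rw [e]
    exact (hm1 hD).compl.union (measurableSet_eq_fun hm2 hm3)
  have h1 := ae_swap3 (μX := volume.restrict D) (μV := sg1) (μZ := (volume : Measure ℂ))
    (P := fun ζ x v => x + fr b v ζ ∈ D → f ((x + fr b v ζ, v), b) = f ((x, v), b)) hms H1
  filter_upwards [h1] with v hv
  filter_upwards [hv] with x hx
  have hmp : MeasurePreserving (fun ζ : ℂ => x + fr b v ζ) volume volume :=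
    (measurePreserving_add_left volume x).comp (fr_mp b v)
  have hE : MeasurableSet {y : Plane | y ∈ D ∧ f ((y, v), b) ≠ f ((x, v), b)} := by
    have h2 : Measurable (fun y : Plane => f ((y, v), b)) :=
      hf.comp ((measurable_id.prodMk measurable_const).prodMk measurable_const)
    exact hD.inter (measurableSet_eq_fun h2 measurable_const).compl
  rw [ae_restrict_iff' hD, ae_iff]
  have h3 : {y : Plane | ¬(y ∈ D → f ((y, v), b) = f ((x, v), b))} =
      {y : Plane | y ∈ D ∧ f ((y, v), b) ≠ f ((x, v), b)} := by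
    ext y; simp
  rw [h3, ← hmp.measure_preimage hE.nullMeasurableSet]
  rw [ae_iff] at hx
  refine measure_mono_null ?_ hx
  intro ζ hζ
  simp only [Set.mem_preimage, Set.mem_ofPred_eq] at hζ ⊢
  push Not
  exact hζ

/-- the average over the positions -/
noncomputable def avg (D : Set Plane) (f : Phase × Bool → ℂ) (b : Bool)
    (v : sphere (0 : Plane) 1) : ℂ :=
  ((volume.real D)⁻¹ : ℝ) • ∫ y in D, f ((y, v), b)

theorem avg_meas {D : Set Plane} {f : Phase × Bool → ℂ} (hf : Measurable f) (b : Bool) :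
    AEStronglyMeasurable (avg D f b) sg1 := by
  have h1 : StronglyMeasurable (fun q : sphere (0 : Plane) 1 × Plane => f ((q.2, q.1), b)) :=
    (hf.comp ((measurable_snd.prodMk measurable_fst).prodMk measurable_const)).stronglyMeasurable
  have h2 : StronglyMeasurable (fun v : sphere (0 : Plane) 1 =>
      ∫ y, f ((y, v), b) ∂(volume.restrict D)) := h1.integral_prod_right'
  exact (h2.const_smul ((volume.real D)⁻¹ : ℝ)).aestronglyMeasurable

theorem step1' {D : Set Plane} (hD : MeasurableSet D) (hD0 : volume D ≠ 0) (hDt : volume D ≠ ⊤)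
    {f : Phase × Bool → ℂ} (hf : Measurable f) (b : Bool)
    (H1 : ∀ ζ, ∀ᵐ p ∂((volume.restrict D).prod sg1),
      p.1 + fr b p.2 ζ ∈ D → f ((p.1 + fr b p.2 ζ, p.2), b) = f (p, b)) :
    ∀ᵐ v ∂sg1, ∀ᵐ x ∂(volume.restrict D), f ((x, v), b) = avg D f b v := by
  filter_upwards [step1 hD hf b H1] with v hv
  filter_upwards [hv] with x hx
  unfold avg
  rw [integral_congr_ae hx, integral_const, measureReal_restrict_apply_univ, smul_smul,
    inv_mul_cancel₀, one_smul]
  exact (ENNReal.toReal_ne_zero.2 ⟨hD0, hDt⟩)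

/-- step 2: crossing one side -/
theorem step2 {A : Fin 3 → Plane} {D U : Set Plane} (hUD : U ⊆ D)
    (hU : MeasurableSet U) (hU0 : volume U ≠ 0) {f : Phase × Bool → ℂ} (hf : Measurable f)
    (b : Bool) (i : Fin 3) (S : sphere (0 : Plane) 1 → sphere (0 : Plane) 1)
    (hS : MeasurePreserving S sg1 sg1) (hrefl : MeasurePreserving (refl A i) volume volume)
    (F : Bool → sphere (0 : Plane) 1 → ℂ)
    (hF : ∀ b, ∀ᵐ v ∂sg1, ∀ᵐ x ∂(volume.restrict D), f ((x, v), b) = F b v)
    (H2 : ∀ ζ, ∀ᵐ p ∂((volume.restrict D).prod sg1), p.1 ∈ U →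
      refl A i (p.1 + fr b p.2 ζ) ∈ U →
        f ((refl A i (p.1 + fr b p.2 ζ), S p.2), !b) = f (p, b)) :
    ∀ᵐ v ∂sg1, F (!b) (S v) = F b v := by
  have hm1 : Measurable (fun q : ℂ × (Plane × sphere (0 : Plane) 1) =>
      refl A i (q.2.1 + fr b q.2.2 q.1)) :=
    hrefl.measurable.comp ((measurable_fst.comp measurable_snd).add (meas_fr b))
  have hm2 : Measurable (fun q : ℂ × (Plane × sphere (0 : Plane) 1) =>
      f ((refl A i (q.2.1 + fr b q.2.2 q.1), S q.2.2), !b)) :=
    hf.comp ((hm1.prodMk (hS.measurable.comp (measurable_snd.comp measurable_snd))).prodMk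
      measurable_const)
  have hm3 : Measurable (fun q : ℂ × (Plane × sphere (0 : Plane) 1) => f (q.2, b)) :=
    hf.comp (measurable_snd.prodMk measurable_const)
  have hm4 : Measurable (fun q : ℂ × (Plane × sphere (0 : Plane) 1) => q.2.1) :=
    measurable_fst.comp measurable_snd
  have hms : MeasurableSet {q : ℂ × (Plane × sphere (0 : Plane) 1) |
      q.2.1 ∈ U → refl A i (q.2.1 + fr b q.2.2 q.1) ∈ U →
        f ((refl A i (q.2.1 + fr b q.2.2 q.1), S q.2.2), !b) = f ((q.2.1, q.2.2), b)} := by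
    have e : {q : ℂ × (Plane × sphere (0 : Plane) 1) |
      q.2.1 ∈ U → refl A i (q.2.1 + fr b q.2.2 q.1) ∈ U →
        f ((refl A i (q.2.1 + fr b q.2.2 q.1), S q.2.2), !b) = f ((q.2.1, q.2.2), b)} =
      (({q | q.2.1 ∈ U})ᶜ ∪ ({q | refl A i (q.2.1 + fr b q.2.2 q.1) ∈ U})ᶜ) ∪
        {q | f ((refl A i (q.2.1 + fr b q.2.2 q.1), S q.2.2), !b) = f (q.2, b)} := by
      ext q
      simp only [Set.mem_ofPred_eq, Set.mem_union, Set.mem_compl_iff, Prod.mk.eta]
      tauto
    rw [e]
    exact ((hm4 hU).compl.union (hm1 hU).compl).union (measurableSet_eq_fun hm2 hm3)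
  have h1 := ae_swap3 (μX := volume.restrict D) (μV := sg1) (μZ := (volume : Measure ℂ))
    (P := fun ζ x v => x ∈ U → refl A i (x + fr b v ζ) ∈ U →
      f ((refl A i (x + fr b v ζ), S v), !b) = f ((x, v), b)) hms H2
  have h2 := hS.quasiMeasurePreserving.ae (hF (!b))
  have hUr : (volume.restrict D) U ≠ 0 := by
    rw [Measure.restrict_apply hU, Set.inter_eq_self_of_subset_left hUD]
    exact hU0
  have hfreq : ∃ᵐ x ∂(volume.restrict D), x ∈ U := by
    rw [frequently_ae_mem_iff]
    exact hUr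
  filter_upwards [h1, h2, hF b] with v hv1 hv2 hv3
  obtain ⟨x, hxU, hx1, hx2⟩ := (hfreq.and_eventually (hv1.and hv3)).exists
  -- almost every `y ∈ U`
  have hmp : MeasurePreserving (fun ζ : ℂ => refl A i (x + fr b v ζ)) volume volume :=
    hrefl.comp ((measurePreserving_add_left volume x).comp (fr_mp b v))
  have h3 : ∀ᵐ y ∂(volume : Measure Plane), y ∈ U → f ((y, S v), !b) = f ((x, v), b) := by
    have hE : MeasurableSet {y : Plane | y ∈ U ∧ f ((y, S v), !b) ≠ f ((x, v), b)} := by
      have h2 : Measurable (fun y : Plane => f ((y, S v), !b)) :=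
        hf.comp ((measurable_id.prodMk measurable_const).prodMk measurable_const)
      exact hU.inter (measurableSet_eq_fun h2 measurable_const).compl
    rw [ae_iff]
    have h3 : {y : Plane | ¬(y ∈ U → f ((y, S v), !b) = f ((x, v), b))} =
        {y : Plane | y ∈ U ∧ f ((y, S v), !b) ≠ f ((x, v), b)} := by
      ext y; simp
    rw [h3, ← hmp.measure_preimage hE.nullMeasurableSet]
    have hx1' := hx1
    rw [ae_iff] at hx1'
    refine measure_mono_null ?_ hx1'
    intro ζ hζ
    simp only [Set.mem_preimage, Set.mem_ofPred_eq] at hζ ⊢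
    push Not
    exact ⟨hxU, hζ⟩
  have h4 := ae_restrict_of_ae (s := D) h3
  obtain ⟨y, hyU, hy1, hy2⟩ := (hfreq.and_eventually (h4.and hv2)).exists
  rw [← hy2, hy1 hyU, hx2]

/-- **the core of Theorem C** -/
theorem core {A : Fin 3 → Plane} (hA : AffineIndependent ℝ A)
    (hirr : ∃ i : Fin 3,
      Irrational (EuclideanGeometry.angle (A (i + 1)) (A i) (A (i + 2)) / Real.pi))
    {D : Set Plane} (hD : MeasurableSet D) (hD0 : volume D ≠ 0) (hDt : volume D ≠ ⊤)
    {f : Phase × Bool → ℂ} (hf : Measurable f)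
    (hrefl : ∀ i, MeasurePreserving (refl A i) volume volume)
    (H1 : ∀ ζ, ∀ᵐ z ∂(((volume.restrict D).prod sg1).prod Measure.count),
      z.1.1 + frm z ζ ∈ D → f ((z.1.1 + frm z ζ, z.1.2), z.2) = f z)
    (H2 : ∀ i : Fin 3, ∃ U ⊆ D, MeasurableSet U ∧ volume U ≠ 0 ∧
      ∀ ζ, ∀ᵐ z ∂(((volume.restrict D).prod sg1).prod Measure.count), z.1.1 ∈ U →
        refl A i (z.1.1 + frm z ζ) ∈ U →
          f ((refl A i (z.1.1 + frm z ζ),
            sphMap (mirE (sideVec A i) (sideVec_ne_zero hA i)) z.1.2), !z.2) = f z) :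
    ∃ c : ℂ, ∀ᵐ z ∂(((volume.restrict D).prod sg1).prod Measure.count), f z = c := by
  set S : Fin 3 → sphere (0 : Plane) 1 → sphere (0 : Plane) 1 :=
    fun i => sphMap (mirE (sideVec A i) (sideVec_ne_zero hA i)) with hS
  have hSmp : ∀ i, MeasurePreserving (S i) sg1 sg1 := fun i => measurePreserving_sphMap _
  have hF : ∀ b, ∀ᵐ v ∂sg1, ∀ᵐ x ∂(volume.restrict D), f ((x, v), b) = avg D f b v := by
    intro b
    refine step1' hD hD0 hDt hf b fun ζ => ?_
    exact ae_bool (H1 ζ) b
  have hcross : ∀ (i : Fin 3) (b : Bool), ∀ᵐ v ∂sg1, avg D f (!b) (S i v) = avg D f b v := by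
    intro i b
    obtain ⟨U, hUD, hU, hU0, h⟩ := H2 i
    refine step2 (A := A) hUD hU hU0 hf b i (S i) (hSmp i) (hrefl i) (avg D f) hF fun ζ => ?_
    exact ae_bool (h ζ) b
  obtain ⟨i, hi⟩ := hirr
  obtain ⟨a, ha, hrot⟩ := exists_irrational_rot hA i hi
  have hSS : ∀ v, S (i + 2) (S (i + 1) v) = sphMap (rotE (Circle.exp a)) v := by
    intro v
    apply Subtype.ext
    change mirE _ _ (mirE _ _ (v : Plane)) = rotE (Circle.exp a) (v : Plane)
    rw [mirE_apply, mirE_apply, hrot]
  have hconst : ∀ b, ∃ c, avg D f b =ᵐ[sg1] fun _ => c := by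
    intro b
    refine const_of_rot ha (avg D f b) (avg_meas hf b) ?_
    have h1 := hcross (i + 1) b
    have h2 := (hSmp (i + 1)).quasiMeasurePreserving.ae (hcross (i + 2) (!b))
    filter_upwards [h1, h2] with v hv1 hv2
    rw [Bool.not_not] at hv2
    rw [← hSS, hv2, hv1]
  choose c hc using hconst
  have hne : (sg1 : Measure (sphere (0 : Plane) 1)) ≠ 0 := Measure.toSphere_ne_zero _
  have : (ae (sg1 : Measure (sphere (0 : Plane) 1))).NeBot := ae_neBot.2 hne
  have hcc : ∀ b, c b = c true := by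
    have h1 := hcross i true
    have h2 := (hSmp i).quasiMeasurePreserving.ae (hc false)
    obtain ⟨v, hv1, hv2, hv3⟩ := (h1.and (h2.and (hc true))).exists
    intro b
    cases b
    · calc c false = avg D f false (S i v) := hv2.symm
        _ = avg D f true v := hv1
        _ = c true := hv3
    · rfl
  refine ⟨c true, ?_⟩
  have hms : MeasurableSet {z : Phase × Bool | f z = c true} :=
    measurableSet_eq_fun hf measurable_const
  rw [Measure.ae_prod_iff_ae_ae hms]
  have hall : ∀ b, ∀ᵐ p ∂((volume.restrict D).prod sg1), f (p, b) = c true := by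
    intro b
    have hms2 : MeasurableSet {q : sphere (0 : Plane) 1 × Plane | f ((q.2, q.1), b) = c true} :=
      measurableSet_eq_fun
        (hf.comp ((measurable_snd.prodMk measurable_fst).prodMk measurable_const))
        measurable_const
    have h1 : ∀ᵐ q ∂(sg1.prod (volume.restrict D)), f ((q.2, q.1), b) = c true := by
      rw [Measure.ae_prod_iff_ae_ae hms2]
      filter_upwards [hF b, hc b] with v hv1 hv2
      filter_upwards [hv1] with x hx
      rw [hx, hv2, hcc b]
    exact (Measure.measurePreserving_swap (μ := volume.restrict D)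
      (ν := sg1)).quasiMeasurePreserving.ae h1
  have h2 : ∀ᵐ p ∂((volume.restrict D).prod sg1), ∀ b, f (p, b) = c true := by
    rw [ae_all_iff]
    exact hall
  filter_upwards [h2] with p hp
  exact Measure.ae_count_iff.2 hp

end Crest.Agent.R103.ThC
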