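import Crest.Agent.R103.Iface

/-!
# R103, A2: strong continuity of the Koopman representations (helper690)
-/

open MeasureTheory Filter Topology
open scoped InnerProductSpace BoundedContinuousFunction ENNReal

noncomputable section

namespace Crest.Agent.R103

namespace PlaneSys

section general

variable {Ω : Type*} [TopologicalSpace Ω] [MeasurableSpace Ω] [BorelSpace Ω]
  [SecondCountableTopology Ω] [TopologicalSpace.PseudoMetrizableSpace Ω]
  {μ : Measure Ω} [IsFiniteMeasure μ]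

/-- strong convergence of Koopman operators of a.e. convergent measure preserving maps, on bounded
continuous functions -/
theorem koopman_bcf {ι : Type*} {l : Filter ι} [l.IsCountablyGenerated] {g : ι → Ω → Ω}
    (hg : ∀ i, MeasurePreserving (g i) μ μ)
    (hae : ∀ᵐ z ∂μ, Tendsto (fun i => g i z) l (𝓝 z)) (f : Ω →ᵇ ℂ) :
    Tendsto (fun i => Lp.compMeasurePreservingₗᵢ ℂ (g i) (hg i)
      (BoundedContinuousFunction.toLp 2 μ ℂ f)) l (𝓝 (BoundedContinuousFunction.toLp 2 μ ℂ f)) := by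
  set F : Lp ℂ 2 μ := BoundedContinuousFunction.toLp 2 μ ℂ f with hF
  have hFf : (F : Ω → ℂ) =ᵐ[μ] f := BoundedContinuousFunction.coeFn_toLp 2 μ ℂ f
  -- the inner products converge
  have hinner : Tendsto (fun i => ⟪Lp.compMeasurePreservingₗᵢ ℂ (g i) (hg i) F, F⟫_ℂ) l
      (𝓝 ⟪F, F⟫_ℂ) := by
    have e1 : ∀ i, ⟪Lp.compMeasurePreservingₗᵢ ℂ (g i) (hg i) F, F⟫_ℂ
        = ∫ z, ⟪f (g i z), f z⟫_ℂ ∂μ := by
      intro i
      rw [L2.inner_def]
      have h1 : (Lp.compMeasurePreservingₗᵢ ℂ (g i) (hg i) F : Ω → ℂ) =ᵐ[μ] fun z => F (g i z) :=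
        Lp.coeFn_compMeasurePreserving F (hg i)
      have h2 : ∀ᵐ z ∂μ, F (g i z) = f (g i z) := (hg i).quasiMeasurePreserving.ae hFf
      refine integral_congr_ae ?_
      filter_upwards [h1, h2, hFf] with z h1 h2 h3
      rw [h1, h2, h3]
    have e2 : ⟪F, F⟫_ℂ = ∫ z, ⟪f z, f z⟫_ℂ ∂μ := by
      rw [L2.inner_def]
      refine integral_congr_ae ?_
      filter_upwards [hFf] with z h3
      rw [h3]
    simp only [e1]
    rw [e2]
    refine tendsto_integral_filter_of_dominated_convergence (fun _ => ‖f‖ * ‖f‖) ?_ ?_ ?_ ?_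
    · refine Eventually.of_forall fun i => ?_
      have hm : Measurable (g i) := (hg i).measurable
      exact ((f.continuous.measurable.comp hm).aestronglyMeasurable).inner
        f.continuous.measurable.aestronglyMeasurable
    · refine Eventually.of_forall fun i => Eventually.of_forall fun z => ?_
      exact (norm_inner_le_norm _ _).trans
        (mul_le_mul (f.norm_coe_le_norm _) (f.norm_coe_le_norm _) (norm_nonneg _) (norm_nonneg _))
    · exact integrable_const _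
    · filter_upwards [hae] with z hz
      exact ((f.continuous.tendsto z).comp hz).inner tendsto_const_nhds
  rw [tendsto_iff_norm_sub_tendsto_zero]
  have hsq : Tendsto (fun i => ‖Lp.compMeasurePreservingₗᵢ ℂ (g i) (hg i) F - F‖ ^ 2) l (𝓝 0) := by
    have e : ∀ i, ‖Lp.compMeasurePreservingₗᵢ ℂ (g i) (hg i) F - F‖ ^ 2
        = 2 * ‖F‖ ^ 2 - 2 * RCLike.re ⟪Lp.compMeasurePreservingₗᵢ ℂ (g i) (hg i) F, F⟫_ℂ := by
      intro i
      rw [@norm_sub_sq ℂ, LinearIsometry.norm_map]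
      ring
    simp only [e]
    have h1 : Tendsto (fun i => RCLike.re ⟪Lp.compMeasurePreservingₗᵢ ℂ (g i) (hg i) F, F⟫_ℂ) l
        (𝓝 (RCLike.re ⟪F, F⟫_ℂ)) := (RCLike.continuous_re.tendsto _).comp hinner
    have h2 : RCLike.re ⟪F, F⟫_ℂ = ‖F‖ ^ 2 := by
      rw [← @inner_self_eq_norm_sq ℂ]
    rw [h2] at h1
    have := (h1.const_mul 2).const_sub (2 * ‖F‖ ^ 2)
    simpa using this
  have := (Real.continuous_sqrt.tendsto 0).comp hsq
  rw [Real.sqrt_zero] at this
  refine this.congr fun i => ?_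
  simp only [Function.comp]
  exact Real.sqrt_sq (norm_nonneg _)

/-- strong convergence of Koopman operators of a.e. convergent measure preserving maps -/
theorem koopman_tendsto {ι : Type*} {l : Filter ι} [l.IsCountablyGenerated] {g : ι → Ω → Ω}
    (hg : ∀ i, MeasurePreserving (g i) μ μ)
    (hae : ∀ᵐ z ∂μ, Tendsto (fun i => g i z) l (𝓝 z)) (f : Lp ℂ 2 μ) :
    Tendsto (fun i => Lp.compMeasurePreservingₗᵢ ℂ (g i) (hg i) f) l (𝓝 f) := by
  rw [Metric.tendsto_nhds]
  intro ε hε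
  have hd : DenseRange (BoundedContinuousFunction.toLp 2 μ ℂ : (Ω →ᵇ ℂ) →L[ℂ] Lp ℂ 2 μ) :=
    BoundedContinuousFunction.toLp_denseRange ℂ μ ℂ (by norm_num)
  obtain ⟨f0, hf0⟩ := hd.exists_dist_lt f (show 0 < ε / 4 by positivity)
  set F0 : Lp ℂ 2 μ := BoundedContinuousFunction.toLp 2 μ ℂ f0 with hF0
  have h0 := (Metric.tendsto_nhds.1 (koopman_bcf hg hae f0)) (ε / 4) (by positivity)
  filter_upwards [h0] with i hi
  have h1 : dist (Lp.compMeasurePreservingₗᵢ ℂ (g i) (hg i) f)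
      (Lp.compMeasurePreservingₗᵢ ℂ (g i) (hg i) F0) = dist f F0 :=
    (Lp.compMeasurePreservingₗᵢ ℂ (g i) (hg i)).dist_map _ _
  calc dist (Lp.compMeasurePreservingₗᵢ ℂ (g i) (hg i) f) f
      ≤ dist (Lp.compMeasurePreservingₗᵢ ℂ (g i) (hg i) f)
          (Lp.compMeasurePreservingₗᵢ ℂ (g i) (hg i) F0)
        + dist (Lp.compMeasurePreservingₗᵢ ℂ (g i) (hg i) F0) F0 + dist F0 f :=
        dist_triangle4 _ _ _ _
    _ < ε := by
        rw [h1, dist_comm F0 f]
        linarith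

end general

theorem cont_ : StCont := by
  intro Ω _ _ _ _ _ μ _ S
  have hU : ∀ f : Lp ℂ 2 μ, Tendsto (fun ζ : ℂ => S.U ζ f) (𝓝 0) (𝓝 f) := fun f =>
    koopman_tendsto (g := S.T) (fun ζ => S.T_mp ζ) S.cont f
  -- a group of isometries which is continuous at `0` is continuous
  have hgrp : ∀ V : ℝ → Lp ℂ 2 μ →ₗᵢ[ℂ] Lp ℂ 2 μ, (∀ a b f, V (a + b) f = V b (V a f)) →
      (∀ f, Tendsto (fun a => V a f) (𝓝 0) (𝓝 f)) → ∀ f, Continuous fun a => V a f := by
    intro V hV h0 f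
    rw [continuous_iff_continuousAt]
    intro a₀
    have h1 : Tendsto (fun a : ℝ => a - a₀) (𝓝 a₀) (𝓝 0) := by
      have : Tendsto (fun a : ℝ => a - a₀) (𝓝 a₀) (𝓝 (a₀ - a₀)) :=
        (continuous_id.sub continuous_const).tendsto a₀
      simpa using this
    have h2 := (h0 (V a₀ f)).comp h1
    refine h2.congr fun a => ?_
    simp only [Function.comp]
    rw [← hV]
    congr 2
    ring
  have hrot_add : ∀ a b (f : Lp ℂ 2 μ), S.rot (a + b) f = S.rot b (S.rot a f) := by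
    intro a b f
    refine Lp.ext ?_
    have h1 := S.rot_coe (a + b) f
    have h2 := S.rot_coe b (S.rot a f)
    have h3 : ∀ᵐ z ∂μ, S.rot a f (S.R b z) = f (S.R a (S.R b z)) :=
      (S.R_mp b).quasiMeasurePreserving.ae (S.rot_coe a f)
    filter_upwards [h1, h2, h3] with z h1 h2 h3
    rw [h1, h2, h3, S.R_add]
  have hφ_add : ∀ a b (f : Lp ℂ 2 μ), S.Uφ (a + b) f = S.Uφ b (S.Uφ a f) := by
    intro a b f
    refine Lp.ext ?_
    have h1 := S.Uφ_coe (a + b) f
    have h2 := S.Uφ_coe b (S.Uφ a f)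
    have h3 : ∀ᵐ z ∂μ, S.Uφ a f (S.φ b z) = f (S.φ a (S.φ b z)) :=
      (S.φ_mp b).quasiMeasurePreserving.ae (S.Uφ_coe a f)
    filter_upwards [h1, h2, h3] with z h1 h2 h3
    rw [h1, h2, h3, S.φ_add]
  have hφ_zero : ∀ f : Lp ℂ 2 μ, S.Uφ 0 f = f := by
    intro f
    refine Lp.ext ?_
    filter_upwards [S.Uφ_coe 0 f] with z h1
    rw [h1, S.φ_zero]
  have hrot : ∀ f : Lp ℂ 2 μ, Continuous fun α => S.rot α f := by
    refine hgrp S.rot hrot_add fun f => ?_
    refine koopman_tendsto (g := S.R) (fun a => S.R_mp a) (Eventually.of_forall fun z => ?_) f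
    have := (S.R_cont z).tendsto 0
    rwa [S.R_zero] at this
  have hpos : ∀ t : ℝ, 0 ≤ t → ∀ f : Lp ℂ 2 μ, S.Uφ t f = S.U (t : ℂ) f := by
    intro t ht f
    refine Lp.ext ?_
    filter_upwards [S.Uφ_coe t f, S.U_coe (t : ℂ) f] with z h1 h2
    rw [h1, h2, S.T_ofReal_of_nonneg ht]
  have hφ : ∀ f : Lp ℂ 2 μ, Continuous fun t => S.Uφ t f := by
    refine hgrp S.Uφ hφ_add fun f => ?_
    rw [tendsto_iff_norm_sub_tendsto_zero]
    have habs : Tendsto (fun t : ℝ => ((|t| : ℝ) : ℂ)) (𝓝 0) (𝓝 0) := by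
      have : Continuous fun t : ℝ => ((|t| : ℝ) : ℂ) := Complex.continuous_ofReal.comp continuous_abs
      simpa using this.tendsto 0
    have h1 := (tendsto_iff_norm_sub_tendsto_zero.1 ((hU f).comp habs))
    refine h1.congr fun t => ?_
    simp only [Function.comp]
    rw [← hpos |t| (abs_nonneg t)]
    rcases le_total 0 t with ht | ht
    · rw [abs_of_nonneg ht]
    · rw [abs_of_nonpos ht]
      have e1 : S.Uφ (-t) (S.Uφ t f - f) = f - S.Uφ (-t) f := by
        rw [map_sub, ← hφ_add, add_neg_cancel, hφ_zero]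
      rw [← (S.Uφ (-t)).norm_map (S.Uφ t f - f), e1, norm_sub_rev]
  refine ⟨hU, hrot, hφ, fun t f ht => ?_⟩
  have e : ∀ α : ℝ, S.U (t * Complex.exp (α * Complex.I)) f
      = S.rot α (S.Uφ t (S.rot (-α) f)) := by
    intro α
    refine Lp.ext ?_
    have h1 := S.U_coe (t * Complex.exp (α * Complex.I)) f
    have h2 := S.rot_coe α (S.Uφ t (S.rot (-α) f))
    have h3 : ∀ᵐ z ∂μ, S.Uφ t (S.rot (-α) f) (S.R α z) = S.rot (-α) f (S.φ t (S.R α z)) :=
      (S.R_mp α).quasiMeasurePreserving.ae (S.Uφ_coe t (S.rot (-α) f))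
    have h4 : ∀ᵐ z ∂μ, S.rot (-α) f (S.φ t (S.R α z)) = f (S.R (-α) (S.φ t (S.R α z))) :=
      ((S.φ_mp t).comp (S.R_mp α)).quasiMeasurePreserving.ae (S.rot_coe (-α) f)
    filter_upwards [h1, h2, h3, h4] with z h1 h2 h3 h4
    rw [h1, h2, h3, h4, S.T_polar ht]
  simp only [e]
  rw [continuous_iff_continuousAt]
  intro α₀
  have hin : Continuous fun α : ℝ => S.Uφ t (S.rot (-α) f) :=
    (S.Uφ t).continuous.comp ((hrot f).comp continuous_neg)
  rw [ContinuousAt, tendsto_iff_norm_sub_tendsto_zero]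
  have h1 := tendsto_iff_norm_sub_tendsto_zero.1 (hin.tendsto α₀)
  have h2 := tendsto_iff_norm_sub_tendsto_zero.1 ((hrot (S.Uφ t (S.rot (-α₀) f))).tendsto α₀)
  have h3 := h1.add h2
  rw [add_zero] at h3
  refine squeeze_zero (fun _ => norm_nonneg _) (fun α => ?_) h3
  have : S.rot α (S.Uφ t (S.rot (-α) f)) - S.rot α₀ (S.Uφ t (S.rot (-α₀) f))
      = S.rot α (S.Uφ t (S.rot (-α) f) - S.Uφ t (S.rot (-α₀) f))
        + (S.rot α (S.Uφ t (S.rot (-α₀) f)) - S.rot α₀ (S.Uφ t (S.rot (-α₀) f))) := by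
    rw [map_sub]; abel
  rw [this]
  refine (norm_add_le _ _).trans ?_
  rw [LinearIsometry.norm_map]

end PlaneSys

theorem cont : PlaneSys.StCont := PlaneSys.cont_

end Crest.Agent.R103
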