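import Crest.Agent.R103.Iface

/-!
# R103, A3: the operators `Ep`, `Em` (helper950)
-/

open MeasureTheory Filter Topology
open scoped InnerProductSpace

noncomputable section

namespace Crest.Agent.R103

namespace EOps

section harm

variable {H : Type*} [NormedAddCommGroup H] [NormedSpace ℂ H]

lemma continuous_kernel (k : ℤ) : Continuous fun α : ℝ => Complex.exp (k * α * Complex.I) := by
  fun_prop

lemma norm_kernel (k : ℤ) (α : ℝ) : ‖Complex.exp (k * α * Complex.I)‖ = 1 := by
  have : (k : ℂ) * α * Complex.I = ((k * α : ℝ) : ℂ) * Complex.I := by push_cast; ring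
  rw [this, Complex.norm_exp_ofReal_mul_I]

lemma harm_add (k : ℤ) {F G : ℝ → H} (hF : Continuous F) (hG : Continuous G) :
    harm k (fun α => F α + G α) = harm k F + harm k G := by
  unfold harm
  rw [← smul_add]
  congr 1
  rw [← intervalIntegral.integral_add]
  · congr 1; ext α; rw [smul_add]
  · exact ((continuous_kernel k).smul hF).intervalIntegrable _ _
  · exact ((continuous_kernel k).smul hG).intervalIntegrable _ _

lemma harm_smul (k : ℤ) (c : ℂ) (F : ℝ → H) :
    harm k (fun α => c • F α) = c • harm k F := by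
  unfold harm
  rw [smul_comm c]
  congr 1
  rw [← intervalIntegral.integral_smul]
  congr 1; ext α; rw [smul_comm]

lemma norm_harm_le (k : ℤ) {F : ℝ → H} {B : ℝ} (hF : ∀ α, ‖F α‖ ≤ B) : ‖harm k F‖ ≤ B := by
  unfold harm
  have h := intervalIntegral.norm_integral_le_of_norm_le_const (a := 0) (b := 2 * Real.pi)
    (f := fun α => Complex.exp (k * α * Complex.I) • F α) (C := B) (fun α _ => by
      rw [norm_smul, norm_kernel, one_mul]; exact hF α)
  have hpi : 0 < 2 * Real.pi := by positivity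
  rw [norm_smul, Real.norm_of_nonneg (by positivity)]
  rw [sub_zero, abs_of_pos hpi] at h
  calc (2 * Real.pi)⁻¹ * ‖∫ α in (0 : ℝ)..(2 * Real.pi), Complex.exp (k * α * Complex.I) • F α‖
      ≤ (2 * Real.pi)⁻¹ * (B * (2 * Real.pi)) := by gcongr
    _ = B := by field_simp

lemma map_harm {H' : Type*} [NormedAddCommGroup H'] [NormedSpace ℂ H'] [CompleteSpace H]
    [CompleteSpace H'] (L : H →L[ℂ] H') (k : ℤ)
    {F : ℝ → H} (hF : Continuous F) : L (harm k F) = harm k (fun α => L (F α)) := by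
  unfold harm
  have h1 : L (((2 * Real.pi)⁻¹ : ℝ) • ∫ α in (0 : ℝ)..(2 * Real.pi),
      Complex.exp (k * α * Complex.I) • F α) = ((2 * Real.pi)⁻¹ : ℝ) •
      L (∫ α in (0 : ℝ)..(2 * Real.pi), Complex.exp (k * α * Complex.I) • F α) := by
    rw [← Complex.coe_smul, map_smul, Complex.coe_smul]
  rw [h1, ← ContinuousLinearMap.intervalIntegral_comp_comm]
  · simp only [map_smul]
  · exact ((continuous_kernel k).smul hF).intervalIntegrable _ _

/-- shift of a periodic integrand -/
lemma harm_shift (k : ℤ) (c : ℝ) {F : ℝ → H} (hp : Function.Periodic F (2 * Real.pi)) :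
    harm k (fun α => F (α + c)) = Complex.exp (-(k * c * Complex.I)) • harm k F := by
  unfold harm
  rw [smul_comm (Complex.exp (-(k * c * Complex.I)))]
  congr 1
  rw [← intervalIntegral.integral_smul]
  set G : ℝ → H := fun α => Complex.exp (-(k * c * Complex.I)) •
    (Complex.exp (k * α * Complex.I) • F α) with hG
  have hGp : Function.Periodic G (2 * Real.pi) := by
    intro α
    simp only [hG, hp α]
    congr 2
    have : (k : ℂ) * ((α + 2 * Real.pi : ℝ) : ℂ) * Complex.I
        = k * α * Complex.I + k * (2 * Real.pi * Complex.I) := by push_cast; ring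
    rw [this, Complex.exp_add, Complex.exp_int_mul_two_pi_mul_I, mul_one]
  have h1 : (∫ α in (0 : ℝ)..(2 * Real.pi), Complex.exp (k * α * Complex.I) • F (α + c))
      = ∫ α in (0 : ℝ)..(2 * Real.pi), G (α + c) := by
    congr 1; ext α
    simp only [hG]
    rw [smul_smul, ← Complex.exp_add]
    congr 2; push_cast; ring
  rw [h1, intervalIntegral.integral_comp_add_right]
  rw [zero_add, add_comm (2 * Real.pi) c]
  have h2 := hGp.intervalIntegral_add_eq c 0
  rw [zero_add] at h2
  exact h2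

end harm

section inner

variable {H : Type*} [NormedAddCommGroup H] [InnerProductSpace ℂ H] [CompleteSpace H]

/-- pairing on the right -/
lemma inner_harm_right (k : ℤ) (f : H) {F : ℝ → H} (hF : Continuous F) :
    ⟪f, harm k F⟫_ℂ = harm k (fun α => ⟪f, F α⟫_ℂ) :=
  map_harm (innerSL ℂ f) k hF

lemma harm_conj (k : ℤ) (F : ℝ → ℂ) :
    harm k (fun α => (starRingEnd ℂ) (F α)) = (starRingEnd ℂ) (harm (-k) F) := by
  unfold harm
  rw [Complex.real_smul, Complex.real_smul, map_mul, Complex.conj_ofReal,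
    intervalIntegral.integral_of_le (by positivity), intervalIntegral.integral_of_le (by positivity),
    ← integral_conj]
  congr 2; ext α
  rw [smul_eq_mul, smul_eq_mul, map_mul, ← Complex.exp_conj]
  congr 2
  simp [Complex.conj_ofReal, Complex.conj_I]

/-- pairing on the left -/
lemma inner_harm_left (k : ℤ) (f : H) {F : ℝ → H} (hF : Continuous F) :
    ⟪harm k F, f⟫_ℂ = harm (-k) (fun α => ⟪F α, f⟫_ℂ) := by
  rw [← inner_conj_symm, inner_harm_right k f hF]
  have h := harm_conj (-k) (fun α => ⟪f, F α⟫_ℂ)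
  rw [neg_neg] at h
  rw [← h]
  congr 1; ext α
  rw [inner_conj_symm]

end inner

end EOps

open EOps

namespace PlaneSys

section

variable {Ω : Type*} [TopologicalSpace Ω] [MeasurableSpace Ω] {μ : Measure Ω} (S : PlaneSys Ω μ)

/-- Koopman operators of maps that agree a.e. -/
lemma cmp_congr {g g' : Ω → Ω} (hg : MeasurePreserving g μ μ) (hg' : MeasurePreserving g' μ μ)
    (h : ∀ᵐ z ∂μ, g z = g' z) (f : Lp ℂ 2 μ) :
    Lp.compMeasurePreservingₗᵢ ℂ g hg f = Lp.compMeasurePreservingₗᵢ ℂ g' hg' f := by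
  refine Lp.ext ?_
  have h1 : Lp.compMeasurePreservingₗᵢ ℂ g hg f =ᵐ[μ] fun z => f (g z) :=
    Lp.coeFn_compMeasurePreserving f hg
  have h2 : Lp.compMeasurePreservingₗᵢ ℂ g' hg' f =ᵐ[μ] fun z => f (g' z) :=
    Lp.coeFn_compMeasurePreserving f hg'
  filter_upwards [h1, h2, h] with z e1 e2 e3
  rw [e1, e2, e3]

/-- `rot α ∘ U ζ = U (e^{iα} ζ) ∘ rot α` -/
lemma rot_U (α : ℝ) (ζ : ℂ) (f : Lp ℂ 2 μ) :
    S.rot α (S.U ζ f) = S.U (Complex.exp (α * Complex.I) * ζ) (S.rot α f) := by
  refine Lp.ext ?_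
  have h1 : S.rot α (S.U ζ f) =ᵐ[μ] fun z => f (S.T ζ (S.R α z)) := by
    refine (S.rot_coe α _).trans ?_
    exact (S.R_mp α).quasiMeasurePreserving.ae (S.U_coe ζ f)
  have h2 : S.U (Complex.exp (α * Complex.I) * ζ) (S.rot α f) =ᵐ[μ]
      fun z => f (S.R α (S.T (Complex.exp (α * Complex.I) * ζ) z)) := by
    refine (S.U_coe _ _).trans ?_
    exact (S.T_mp _).quasiMeasurePreserving.ae (S.rot_coe α f)
  filter_upwards [h1, h2] with z e1 e2
  rw [e1, e2, S.T_R]

/-- `U ζ (U (-ζ) f) = f` -/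
lemma U_U_neg (ζ : ℂ) (f : Lp ℂ 2 μ) : S.U ζ (S.U (-ζ) f) = f := by
  refine Lp.ext ?_
  have h1 : S.U ζ (S.U (-ζ) f) =ᵐ[μ] fun z => f (S.T (-ζ) (S.T ζ z)) := by
    refine (S.U_coe ζ _).trans ?_
    exact (S.T_mp ζ).quasiMeasurePreserving.ae (S.U_coe (-ζ) f)
  filter_upwards [h1, S.T_neg ζ] with z e1 e2
  rw [e1, e2]

lemma U_neg_U (ζ : ℂ) (f : Lp ℂ 2 μ) : S.U (-ζ) (S.U ζ f) = f := by
  have := S.U_U_neg (-ζ) f
  rwa [neg_neg] at this

/-- the adjoint of `U ζ` is `U (-ζ)` -/
lemma inner_U_left (ζ : ℂ) (f g : Lp ℂ 2 μ) : ⟪S.U ζ f, g⟫_ℂ = ⟪f, S.U (-ζ) g⟫_ℂ := by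
  rw [← (S.U ζ).inner_map_map f (S.U (-ζ) g), S.U_U_neg]

lemma U_circle_periodic (δ : ℝ) (f : Lp ℂ 2 μ) :
    Function.Periodic (fun α : ℝ => S.U (δ * Complex.exp (α * Complex.I)) f) (2 * Real.pi) := by
  intro α
  have : Complex.exp (((α + 2 * Real.pi : ℝ) : ℂ) * Complex.I) = Complex.exp (α * Complex.I) := by
    push_cast
    rw [add_mul, Complex.exp_add, Complex.exp_two_pi_mul_I, mul_one]
  simp only [this]

end

/-- covariance of the circle averages -/
lemma rot_harm_U {Ω : Type*} [TopologicalSpace Ω] [MeasurableSpace Ω] {μ : Measure Ω}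
    (S : PlaneSys Ω μ) (δ : ℝ)
    (hc : ∀ f : Lp ℂ 2 μ, Continuous fun α : ℝ => S.U (δ * Complex.exp (α * Complex.I)) f)
    (k : ℤ) (a : ℝ) (f : Lp ℂ 2 μ) :
    S.rot a (harm k fun α => S.U (δ * Complex.exp (α * Complex.I)) f)
      = Complex.exp (-(k * a * Complex.I)) •
        harm k fun α => S.U (δ * Complex.exp (α * Complex.I)) (S.rot a f) := by
  have h1 := map_harm (S.rot a).toContinuousLinearMap k (hc f)
  have h2 : (fun α : ℝ => (S.rot a).toContinuousLinearMap
      (S.U (δ * Complex.exp (α * Complex.I)) f))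
      = fun α : ℝ => (fun β : ℝ => S.U (δ * Complex.exp (β * Complex.I)) (S.rot a f)) (α + a) := by
    ext1 α
    show S.rot a (S.U (δ * Complex.exp (α * Complex.I)) f) = _
    rw [S.rot_U]
    congr 2
    push_cast
    rw [add_mul, Complex.exp_add]; ring
  rw [h2, harm_shift k a (S.U_circle_periodic δ (S.rot a f))] at h1
  exact h1

/-- A3, given the continuity of the circle of translations. -/
theorem eops_of (hcont : StCont) : StE := by
  intro Ω _ _ _ _ _ μ _ S δ hδ
  obtain ⟨-, -, -, hU⟩ := hcont Ω μ S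
  have hc : ∀ f : Lp ℂ 2 μ, Continuous fun α : ℝ => S.U (δ * Complex.exp (α * Complex.I)) f :=
    fun f => hU δ f hδ
  have hlin : ∀ k : ℤ, ∃ E : Lp ℂ 2 μ →L[ℂ] Lp ℂ 2 μ,
      ∀ f, E f = harm k fun α => S.U (δ * Complex.exp (α * Complex.I)) f := by
    intro k
    refine ⟨LinearMap.mkContinuous
      { toFun := fun f => harm k fun α => S.U (δ * Complex.exp (α * Complex.I)) f
        map_add' := fun f g => by
          rw [← harm_add k (hc f) (hc g)]
          congr 1; ext1 α; rw [map_add]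
        map_smul' := fun c f => by
          rw [RingHom.id_apply, ← harm_smul]
          congr 1; ext1 α; rw [map_smul] } 1 (fun f => ?_), fun f => rfl⟩
    rw [one_mul]
    exact norm_harm_le k fun α => (LinearIsometry.norm_map _ f).le
  have hadj : ∀ f g, ⟪S.Ep δ f, g⟫_ℂ = - ⟪f, S.Em δ g⟫_ℂ := by
    intro f g
    unfold Ep Em
    rw [inner_harm_left _ _ (hc f), inner_harm_right _ _ (hc g)]
    have h1 : (fun α : ℝ => ⟪S.U (δ * Complex.exp (α * Complex.I)) f, g⟫_ℂ)
        = fun α : ℝ => (fun β : ℝ => ⟪f, S.U (δ * Complex.exp (β * Complex.I)) g⟫_ℂ)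
          (α + Real.pi) := by
      ext1 α
      show _ = ⟪f, S.U (δ * Complex.exp (((α + Real.pi : ℝ) : ℂ) * Complex.I)) g⟫_ℂ
      rw [S.inner_U_left]
      congr 3
      push_cast
      rw [add_mul, Complex.exp_add, Complex.exp_pi_mul_I]; ring
    have hp : Function.Periodic (fun β : ℝ => ⟪f, S.U (δ * Complex.exp (β * Complex.I)) g⟫_ℂ)
        (2 * Real.pi) := by
      intro β
      show ⟪f, S.U (δ * Complex.exp (((β + 2 * Real.pi : ℝ) : ℂ) * Complex.I)) g⟫_ℂ = _
      have := S.U_circle_periodic δ g β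
      simp only at this
      rw [this]
    rw [h1, neg_neg, harm_shift 1 Real.pi hp]
    have : Complex.exp (-(((1 : ℤ) : ℂ) * Real.pi * Complex.I)) = -1 := by
      rw [Int.cast_one, one_mul, Complex.exp_neg, Complex.exp_pi_mul_I]; norm_num
    rw [this]
    simp
  obtain ⟨Ep', hEp⟩ := hlin (-1)
  obtain ⟨Em', hEm⟩ := hlin 1
  refine ⟨Ep', Em', hEp, hEm, ?_, ?_, ?_, ?_, hadj, ?_⟩
  · intro f
    exact norm_harm_le _ fun α => (LinearIsometry.norm_map _ f).le
  · intro f
    exact norm_harm_le _ fun α => (LinearIsometry.norm_map _ f).le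
  · intro a f
    have := S.rot_harm_U δ hc (-1) a f
    simpa [Ep] using this
  · intro a f
    have := S.rot_harm_U δ hc 1 a f
    simpa [Em] using this
  · intro f g
    have h := hadj g f
    have h2 := congrArg (starRingEnd ℂ) h
    rw [map_neg, inner_conj_symm, inner_conj_symm] at h2
    rw [h2, neg_neg]

end PlaneSys

end Crest.Agent.R103
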