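import Crest.Agent.R103.Iface

/-!
# R103, A6: the cutoff function
-/

open MeasureTheory Filter Topology

noncomputable section

namespace Crest.Agent.R103

namespace Eta

/-- the one-dimensional cutoff -/
def chi (ρ x : ℝ) : ℝ := max 0 (min 1 (x / ρ - 1))

lemma chi_nonneg (ρ x : ℝ) : 0 ≤ chi ρ x := le_max_left _ _

lemma chi_le_one (ρ x : ℝ) : chi ρ x ≤ 1 := max_le zero_le_one (min_le_left _ _)

lemma chi_zero {ρ x : ℝ} (hρ : 0 < ρ) (h : x ≤ ρ) : chi ρ x = 0 := by
  have : x / ρ ≤ 1 := (div_le_one hρ).2 h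
  unfold chi
  exact max_eq_left (min_le_iff.2 (Or.inr (by linarith)))

lemma chi_one {ρ x : ℝ} (hρ : 0 < ρ) (h : 2 * ρ ≤ x) : chi ρ x = 1 := by
  have : 2 ≤ x / ρ := (le_div_iff₀ hρ).2 h
  unfold chi
  rw [min_eq_left (by linarith)]
  exact max_eq_right zero_le_one

lemma chi_lip {ρ : ℝ} (hρ : 0 < ρ) (x y : ℝ) : |chi ρ x - chi ρ y| ≤ |x - y| / ρ := by
  unfold chi
  have h1 : |max 0 (min 1 (x / ρ - 1)) - max 0 (min 1 (y / ρ - 1))|
      ≤ |min 1 (x / ρ - 1) - min 1 (y / ρ - 1)| := by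
    have := abs_max_sub_max_le_max 0 (min 1 (x / ρ - 1)) 0 (min 1 (y / ρ - 1))
    simpa using this
  have h2 : |min 1 (x / ρ - 1) - min 1 (y / ρ - 1)| ≤ |(x / ρ - 1) - (y / ρ - 1)| := by
    have := abs_min_sub_min_le_max 1 (x / ρ - 1) 1 (y / ρ - 1)
    simpa using this
  have h3 : (x / ρ - 1) - (y / ρ - 1) = (x - y) / ρ := by ring
  rw [h3, abs_div, abs_of_pos hρ] at h2
  exact h1.trans h2

lemma rad_pos {ρ₀ : ℝ} (h : 0 < ρ₀) (k : ℕ) : 0 < PlaneSys.rad ρ₀ k := by
  unfold PlaneSys.rad; positivity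

lemma rad_succ (ρ₀ : ℝ) (k : ℕ) : PlaneSys.rad ρ₀ (k + 1) = PlaneSys.rad ρ₀ k / 8 := by
  unfold PlaneSys.rad; rw [pow_succ]; field_simp

lemma rad_anti {ρ₀ : ℝ} (h : 0 < ρ₀) {j k : ℕ} (hjk : j < k) :
    PlaneSys.rad ρ₀ k ≤ PlaneSys.rad ρ₀ j / 8 := by
  induction k, hjk using Nat.le_induction with
  | base => rw [rad_succ]
  | succ k _ ih =>
    rw [rad_succ]
    have := rad_pos h j
    linarith

lemma rad_anti' {ρ₀ : ℝ} (h : 0 < ρ₀) {j k : ℕ} (hjk : j ≤ k) :
    PlaneSys.rad ρ₀ k ≤ PlaneSys.rad ρ₀ j := by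
  rcases hjk.eq_or_lt with rfl | hlt
  · exact le_rfl
  · have := rad_anti h hlt
    have := rad_pos h j
    linarith

/-- outside of the `k`-th shell nothing changes -/
lemma chi_eq_of_not_shell {ρ a x y : ℝ} (hρ : 0 < ρ) (ha : a ≤ ρ / 16) (hxy : |y - x| ≤ a)
    (h : x < ρ / 2 ∨ 3 * ρ ≤ x) : chi ρ y - chi ρ x = 0 := by
  have h1 := abs_le.1 hxy
  rcases h with h | h
  · rw [chi_zero hρ (by linarith), chi_zero hρ (by linarith), sub_zero]
  · rw [chi_one hρ (by linarith), chi_one hρ (by linarith), sub_self]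

/-- the pointwise energy estimate -/
lemma pointwise {ρ₀ : ℝ} (h0 : 0 < ρ₀) {K : ℕ} (hK : 0 < K) {a x y : ℝ} (ha0 : 0 ≤ a)
    (ha : a ≤ PlaneSys.rad ρ₀ K / 2) (hxy : |y - x| ≤ a) :
    ((K : ℝ)⁻¹ * ∑ k ∈ Finset.range K, chi (PlaneSys.rad ρ₀ k) y
      - (K : ℝ)⁻¹ * ∑ k ∈ Finset.range K, chi (PlaneSys.rad ρ₀ k) x) ^ 2
      ≤ ((K : ℝ)⁻¹) ^ 2 * ∑ k ∈ Finset.range K,
          (if x < 3 * PlaneSys.rad ρ₀ k then a ^ 2 / (PlaneSys.rad ρ₀ k) ^ 2 else 0) := by
  have hka : ∀ k ∈ Finset.range K, a ≤ PlaneSys.rad ρ₀ k / 16 := by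
    intro k hk
    have := rad_anti h0 (Finset.mem_range.1 hk)
    linarith
  set D : ℕ → ℝ := fun k => chi (PlaneSys.rad ρ₀ k) y - chi (PlaneSys.rad ρ₀ k) x with hD
  have e1 : (K : ℝ)⁻¹ * ∑ k ∈ Finset.range K, chi (PlaneSys.rad ρ₀ k) y
      - (K : ℝ)⁻¹ * ∑ k ∈ Finset.range K, chi (PlaneSys.rad ρ₀ k) x
      = (K : ℝ)⁻¹ * ∑ k ∈ Finset.range K, D k := by
    rw [← mul_sub, ← Finset.sum_sub_distrib]
  rw [e1, mul_pow]
  refine mul_le_mul_of_nonneg_left ?_ (by positivity)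
  -- the shells are disjoint
  have hzero : ∀ k ∈ Finset.range K, (x < PlaneSys.rad ρ₀ k / 2 ∨ 3 * PlaneSys.rad ρ₀ k ≤ x) →
      D k = 0 := fun k hk h => chi_eq_of_not_shell (rad_pos h0 k) (hka k hk) hxy h
  have hprod : ∀ j ∈ Finset.range K, ∀ k ∈ Finset.range K, j ≠ k → D j * D k = 0 := by
    have key : ∀ j ∈ Finset.range K, ∀ k ∈ Finset.range K, j < k → D j * D k = 0 := by
      intro j hj k hk hjk
      by_contra hne
      have hj0 : D j ≠ 0 := fun h => hne (by rw [h, zero_mul])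
      have hk0 : D k ≠ 0 := fun h => hne (by rw [h, mul_zero])
      have h1 : PlaneSys.rad ρ₀ j / 2 ≤ x := by
        by_contra h; push Not at h; exact hj0 (hzero j hj (Or.inl h))
      have h2 : x < 3 * PlaneSys.rad ρ₀ k := by
        by_contra h; push Not at h; exact hk0 (hzero k hk (Or.inr h))
      have h3 := rad_anti h0 hjk
      have h4 := rad_pos h0 j
      linarith
    intro j hj k hk hjk
    rcases lt_or_gt_of_ne hjk with h | h
    · exact key j hj k hk h
    · rw [mul_comm]; exact key k hk j hj h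
  have hsq : (∑ k ∈ Finset.range K, D k) ^ 2 = ∑ k ∈ Finset.range K, D k ^ 2 := by
    rw [sq, Finset.sum_mul_sum]
    refine Finset.sum_congr rfl fun j hj => ?_
    rw [Finset.sum_eq_single j]
    · rw [sq]
    · intro k hk hkj; exact hprod j hj k hk hkj.symm
    · intro h; exact absurd hj h
  rw [hsq]
  refine Finset.sum_le_sum fun k hk => ?_
  split_ifs with h
  · have h1 : |D k| ≤ a / PlaneSys.rad ρ₀ k := by
      refine (chi_lip (rad_pos h0 k) y x).trans ?_
      exact div_le_div_of_nonneg_right hxy (rad_pos h0 k).le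
    have h2 : D k ^ 2 ≤ (a / PlaneSys.rad ρ₀ k) ^ 2 := by
      rw [← sq_abs (D k)]
      exact pow_le_pow_left₀ (abs_nonneg _) h1 2
    rwa [div_pow] at h2
  · rw [hzero k hk (Or.inr (not_lt.1 h))]; simp

end Eta

open Eta in
theorem etafacts : PlaneSys.StRt → PlaneSys.StEta := by
  intro hRt Ω _ _ _ _ _ μ _ S L hL ρ₀ K h0 hK
  obtain ⟨hm, hnn, hle, -, -, hvol⟩ := hRt Ω μ S L hL
  have hL0 : (0 : ℝ) < L := lt_of_lt_of_le one_pos hL
  have hK0 : (0 : ℝ) < K := by exact_mod_cast hK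
  have heta : ∀ z, S.eta ρ₀ K L z
      = (K : ℝ)⁻¹ * ∑ k ∈ Finset.range K, chi (PlaneSys.rad ρ₀ k) (S.rt L z) := fun z => rfl
  have hmeas : Measurable (S.eta ρ₀ K L) := by
    have : ∀ k, Measurable fun z => chi (PlaneSys.rad ρ₀ k) (S.rt L z) := by
      intro k
      unfold chi
      exact measurable_const.max (measurable_const.min ((hm.div_const _).sub_const _))
    exact (Finset.measurable_fun_sum _ fun k _ => this k).const_mul _
  have hnn' : ∀ z, 0 ≤ S.eta ρ₀ K L z := by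
    intro z
    rw [heta]
    exact mul_nonneg (by positivity) (Finset.sum_nonneg fun k _ => chi_nonneg _ _)
  have hle1 : ∀ z, S.eta ρ₀ K L z ≤ 1 := by
    intro z
    rw [heta]
    have : ∑ k ∈ Finset.range K, chi (PlaneSys.rad ρ₀ k) (S.rt L z) ≤ K := by
      refine (Finset.sum_le_sum fun k _ => chi_le_one (PlaneSys.rad ρ₀ k) (S.rt L z)).trans ?_
      simp
    calc (K : ℝ)⁻¹ * ∑ k ∈ Finset.range K, chi (PlaneSys.rad ρ₀ k) (S.rt L z)
        ≤ (K : ℝ)⁻¹ * K := mul_le_mul_of_nonneg_left this (by positivity)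
      _ = 1 := inv_mul_cancel₀ hK0.ne'
  refine ⟨hmeas, hnn', hle1, ?_, ?_, ?_⟩
  · intro z hz
    rw [heta]
    have hx : S.rt L z ≤ PlaneSys.rad ρ₀ K := by
      refine (hle z).trans ?_
      rw [lt_div_iff₀ hL0] at hz
      linarith [mul_comm L (S.ρ z)]
    rw [Finset.sum_eq_zero, mul_zero]
    intro k hk
    exact chi_zero (rad_pos h0 k) (hx.trans (rad_anti' h0 (Finset.mem_range.1 hk).le))
  · -- the volume estimate
    have hpt : ∀ z, (1 - S.eta ρ₀ K L z) ^ 2
        ≤ ({z | S.rt L z < 2 * ρ₀}).indicator (fun _ => (1 : ℝ)) z := by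
      intro z
      by_cases hz : S.rt L z < 2 * ρ₀
      · rw [Set.indicator_of_mem (by exact hz)]
        have := hnn' z; have := hle1 z
        nlinarith
      · rw [Set.indicator_of_notMem (by exact hz)]
        have : S.eta ρ₀ K L z = 1 := by
          rw [heta]
          have : ∀ k ∈ Finset.range K, chi (PlaneSys.rad ρ₀ k) (S.rt L z) = 1 := by
            intro k hk
            refine chi_one (rad_pos h0 k) ?_
            have h1 : PlaneSys.rad ρ₀ k ≤ PlaneSys.rad ρ₀ 0 := rad_anti' h0 (Nat.zero_le k)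
            have h2 : PlaneSys.rad ρ₀ 0 = ρ₀ := by unfold PlaneSys.rad; simp
            push Not at hz
            linarith
          rw [Finset.sum_congr rfl this]
          simp [hK0.ne']
        rw [this]; norm_num
    have hms : MeasurableSet {z | S.rt L z < 2 * ρ₀} := measurableSet_lt hm measurable_const
    calc ∫ z, (1 - S.eta ρ₀ K L z) ^ 2 ∂μ
        ≤ ∫ z, ({z | S.rt L z < 2 * ρ₀}).indicator (fun _ => (1 : ℝ)) z ∂μ := by
          refine integral_mono_of_nonneg (Eventually.of_forall fun z => sq_nonneg _) ?_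
            (Eventually.of_forall hpt)
          exact (integrable_const (1 : ℝ)).indicator hms
      _ = μ.real {z | S.rt L z < 2 * ρ₀} := by
          rw [integral_indicator hms]; simp
      _ ≤ 20 * S.Cv * (2 * ρ₀) ^ 2 := by
          have h := hvol (2 * ρ₀) (by linarith)
          have hc : 0 ≤ 20 * S.Cv * (2 * ρ₀) ^ 2 := by
            have := S.Cv_nonneg; positivity
          exact ENNReal.toReal_le_of_le_ofReal hc h
      _ = 80 * S.Cv * ρ₀ ^ 2 := by ring
  · intro g a hg ha0 ha hga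
    have hpt : ∀ᵐ z ∂μ, (S.eta ρ₀ K L (g z) - S.eta ρ₀ K L z) ^ 2
        ≤ ((K : ℝ)⁻¹) ^ 2 * ∑ k ∈ Finset.range K,
          ({z | S.rt L z < 3 * PlaneSys.rad ρ₀ k}).indicator
            (fun _ => a ^ 2 / (PlaneSys.rad ρ₀ k) ^ 2) z := by
      filter_upwards [hga] with z hz
      have h := pointwise h0 hK ha0 ha hz
      rw [heta, heta]
      refine h.trans (le_of_eq ?_)
      congr 1
    have hms : ∀ k, MeasurableSet {z | S.rt L z < 3 * PlaneSys.rad ρ₀ k} :=
      fun k => measurableSet_lt hm measurable_const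
    have hint : ∀ k, Integrable (({z | S.rt L z < 3 * PlaneSys.rad ρ₀ k}).indicator
            (fun _ => a ^ 2 / (PlaneSys.rad ρ₀ k) ^ 2)) μ :=
      fun k => (integrable_const _).indicator (hms k)
    calc ∫ z, (S.eta ρ₀ K L (g z) - S.eta ρ₀ K L z) ^ 2 ∂μ
        ≤ ∫ z, ((K : ℝ)⁻¹) ^ 2 * ∑ k ∈ Finset.range K,
          ({z | S.rt L z < 3 * PlaneSys.rad ρ₀ k}).indicator
            (fun _ => a ^ 2 / (PlaneSys.rad ρ₀ k) ^ 2) z ∂μ := by
          refine integral_mono_of_nonneg (Eventually.of_forall fun z => sq_nonneg _) ?_ hpt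
          exact (integrable_finset_sum _ fun k _ => hint k).const_mul _
      _ = ((K : ℝ)⁻¹) ^ 2 * ∑ k ∈ Finset.range K,
            (a ^ 2 / (PlaneSys.rad ρ₀ k) ^ 2) * μ.real {z | S.rt L z < 3 * PlaneSys.rad ρ₀ k} := by
          rw [integral_const_mul, integral_finset_sum _ fun k _ => hint k]
          congr 1
          refine Finset.sum_congr rfl fun k _ => ?_
          rw [integral_indicator (hms k)]
          simp [mul_comm]
      _ ≤ ((K : ℝ)⁻¹) ^ 2 * ∑ k ∈ Finset.range K, a ^ 2 * (180 * S.Cv) := by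
          refine mul_le_mul_of_nonneg_left (Finset.sum_le_sum fun k _ => ?_) (by positivity)
          have hr := rad_pos h0 k
          have h := hvol (3 * PlaneSys.rad ρ₀ k) (by linarith)
          have hc : 0 ≤ 20 * S.Cv * (3 * PlaneSys.rad ρ₀ k) ^ 2 := by
            have := S.Cv_nonneg; positivity
          have h2 : μ.real {z | S.rt L z < 3 * PlaneSys.rad ρ₀ k}
              ≤ 20 * S.Cv * (3 * PlaneSys.rad ρ₀ k) ^ 2 := ENNReal.toReal_le_of_le_ofReal hc h
          calc (a ^ 2 / (PlaneSys.rad ρ₀ k) ^ 2) * μ.real {z | S.rt L z < 3 * PlaneSys.rad ρ₀ k}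
              ≤ (a ^ 2 / (PlaneSys.rad ρ₀ k) ^ 2) * (20 * S.Cv * (3 * PlaneSys.rad ρ₀ k) ^ 2) :=
                mul_le_mul_of_nonneg_left h2 (by positivity)
            _ = a ^ 2 * (180 * S.Cv) := by field_simp; ring
      _ = a ^ 2 * (180 * S.Cv) / K := by
          rw [Finset.sum_const, Finset.card_range, nsmul_eq_mul]
          field_simp

end Crest.Agent.R103
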