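import Crest.Agent.R103.Iface

/-! Row 103, B2 (helper428): finite dimensional invariant subspaces consist of fixed vectors. -/

set_option autoImplicit false

open MeasureTheory Filter Topology
open scoped InnerProductSpace

noncomputable section

namespace Crest.Agent.R103.FinB2

/-- a commuting family of operators on a nonzero finite dimensional invariant subspace has a common
eigenvector -/
theorem common_eigen {H : Type*} [AddCommGroup H] [Module ℂ H] {ι : Type*}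
    (A : ι → (H →ₗ[ℂ] H)) :
    ∀ (n : ℕ) (W : Submodule ℂ H), FiniteDimensional ℂ W → Module.finrank ℂ W = n → W ≠ ⊥ →
      (∀ i, ∀ w ∈ W, A i w ∈ W) → (∀ i j, ∀ w ∈ W, A i (A j w) = A j (A i w)) →
      ∃ w ∈ W, w ≠ 0 ∧ ∀ i, ∃ c : ℂ, A i w = c • w := by
  intro n
  induction n using Nat.strong_induction_on with
  | _ n ih =>
    intro W hfd hn hW hinv hcomm
    by_cases hsc : ∀ i, ∃ c : ℂ, ∀ w ∈ W, A i w = c • w
    · obtain ⟨w, hw, hw0⟩ := Submodule.exists_mem_ne_zero_of_ne_bot hW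
      exact ⟨w, hw, hw0, fun i => (hsc i).imp fun c hc => hc w hw⟩
    · push Not at hsc
      obtain ⟨i, hi⟩ := hsc
      have : Nontrivial W := (Submodule.nontrivial_iff_ne_bot).2 hW
      obtain ⟨c, hc⟩ := Module.End.exists_eigenvalue ((A i).restrict (hinv i))
      obtain ⟨v, hv⟩ := hc.exists_hasEigenvector
      have hv1 : A i (v : H) = c • (v : H) := by
        have := hv.apply_eq_smul
        have h2 := congrArg (Subtype.val) this
        simpa using h2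
      have hv0 : (v : H) ≠ 0 := by
        intro h0
        exact hv.2 (Subtype.ext h0)
      let E : Submodule ℂ H := W ⊓ LinearMap.ker (A i - c • LinearMap.id)
      have hE : ∀ w, w ∈ E ↔ w ∈ W ∧ A i w = c • w := by
        intro w; simp [E, sub_eq_zero]
      have hvE : (v : H) ∈ E := (hE _).2 ⟨v.2, hv1⟩
      have hEle : E ≤ W := inf_le_left
      have hElt : E < W := by
        refine lt_of_le_of_ne hEle ?_
        intro heq
        obtain ⟨w, hw, hwc⟩ := hi c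
        rw [← heq] at hw
        exact hwc ((hE w).1 hw).2
      have hfin : Module.finrank ℂ E < n := by
        rw [← hn]; exact Submodule.finrank_lt_finrank_of_lt hElt
      have hEfd : FiniteDimensional ℂ E := Submodule.finiteDimensional_of_le hEle
      have hEne : E ≠ ⊥ := by
        intro h0
        rw [h0, Submodule.mem_bot] at hvE
        exact hv0 hvE
      obtain ⟨w, hw, hw0, hwe⟩ := ih _ hfin E hEfd rfl hEne
        (fun j w hw => by
          obtain ⟨hw1, hw2⟩ := (hE w).1 hw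
          refine (hE _).2 ⟨hinv j w hw1, ?_⟩
          rw [hcomm i j w hw1, hw2, map_smul])
        (fun j k w hw => hcomm j k w (hEle hw))
      exact ⟨w, hEle hw, hw0, hwe⟩

variable {Ω : Type} [TopologicalSpace Ω] [MeasurableSpace Ω] {μ : Measure Ω}
  (S : PlaneSys Ω μ)

/-- the singular set is null -/
theorem ρ_pos_ae : ∀ᵐ z ∂μ, 0 < S.ρ z := by
  have h0 : μ {z | ¬ 0 < S.ρ z} = 0 := by
    refine le_antisymm ?_ bot_le
    refine ge_of_tendsto' (x := atTop) (f := fun n : ℕ =>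
      ENNReal.ofReal (S.Cv * ((1 : ℝ) / ((n : ℝ) + 1)) ^ 2)) ?_ ?_
    · have h1 : Tendsto (fun n : ℕ => S.Cv * ((1 : ℝ) / ((n : ℝ) + 1)) ^ 2) atTop (𝓝 0) := by
        have := ((tendsto_one_div_add_atTop_nhds_zero_nat (𝕜 := ℝ)).pow 2).const_mul S.Cv
        simpa using this
      have h2 := (ENNReal.continuous_ofReal.tendsto 0).comp h1
      rw [ENNReal.ofReal_zero] at h2
      exact h2
    · intro n
      refine le_trans (measure_mono ?_) (S.vol _ (by positivity))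
      intro z hz
      simp only [Set.mem_ofPred_eq, not_lt] at hz ⊢
      exact lt_of_le_of_lt hz (by positivity)
  exact h0

/-- functions in `V` supported in `{ρ < b}` -/
def suppSub (V : Submodule ℂ (Lp ℂ 2 μ)) (b : ℝ) : Submodule ℂ (Lp ℂ 2 μ) where
  carrier := {f | f ∈ V ∧ ∀ᵐ z ∂μ, b ≤ S.ρ z → f z = 0}
  zero_mem' := by
    refine ⟨V.zero_mem, ?_⟩
    filter_upwards [Lp.coeFn_zero ℂ 2 μ] with z hz _
    simpa using hz
  add_mem' := by
    rintro f g ⟨hf, hf'⟩ ⟨hg, hg'⟩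
    refine ⟨V.add_mem hf hg, ?_⟩
    filter_upwards [Lp.coeFn_add f g, hf', hg'] with z hz h1 h2 hb
    rw [hz, Pi.add_apply, h1 hb, h2 hb, add_zero]
  smul_mem' := by
    rintro c f ⟨hf, hf'⟩
    refine ⟨V.smul_mem c hf, ?_⟩
    filter_upwards [Lp.coeFn_smul c f, hf'] with z hz h1 hb
    rw [hz, Pi.smul_apply, h1 hb, smul_zero]

theorem mem_suppSub (V : Submodule ℂ (Lp ℂ 2 μ)) (b : ℝ) (f : Lp ℂ 2 μ) :
    f ∈ suppSub S V b ↔ f ∈ V ∧ ∀ᵐ z ∂μ, b ≤ S.ρ z → f z = 0 := Iff.rfl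

/-- in a finite dimensional space, a function supported near the singular set is zero -/
theorem small_zero (V : Submodule ℂ (Lp ℂ 2 μ)) [FiniteDimensional ℂ V] :
    ∃ b : ℝ, 0 < b ∧ ∀ f ∈ V, (∀ᵐ z ∂μ, b ≤ S.ρ z → f z = 0) → f = 0 := by
  let W : ℕ → Submodule ℂ (Lp ℂ 2 μ) := fun n => suppSub S V (1 / ((n : ℝ) + 1))
  have hle : ∀ n, W n ≤ V := fun n f hf => ((mem_suppSub S V _ f).1 hf).1
  have hanti : ∀ n m, n ≤ m → W m ≤ W n := by
    intro n m hnm f hf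
    obtain ⟨h1, h2⟩ := (mem_suppSub S V _ f).1 hf
    refine (mem_suppSub S V _ f).2 ⟨h1, ?_⟩
    filter_upwards [h2] with z hz hb
    refine hz (le_trans ?_ hb)
    have : (n : ℝ) ≤ m := by exact_mod_cast hnm
    exact one_div_le_one_div_of_le (by positivity) (by linarith)
  obtain ⟨n, hn⟩ : ∃ n, ∀ m, Module.finrank ℂ (W n) ≤ Module.finrank ℂ (W m) := by
    obtain ⟨n, hn⟩ := WellFounded.has_min (InvImage.wf (fun n => Module.finrank ℂ (W n))
      Nat.lt_wfRel.wf) Set.univ ⟨0, trivial⟩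
    exact ⟨n, fun m => not_lt.1 (hn.2 m trivial)⟩
  refine ⟨1 / ((n : ℝ) + 1), by positivity, fun f hf hfz => ?_⟩
  have hfn : f ∈ W n := (mem_suppSub S V _ f).2 ⟨hf, hfz⟩
  have hall : ∀ m, n ≤ m → f ∈ W m := by
    intro m hm
    have : FiniteDimensional ℂ (W n) := Submodule.finiteDimensional_of_le (hle n)
    have : W m = W n := Submodule.eq_of_le_of_finrank_le (hanti n m hm) (hn m)
    rw [this]; exact hfn
  have hae : ∀ᵐ z ∂μ, ∀ m : ℕ, n ≤ m → 1 / ((m : ℝ) + 1) ≤ S.ρ z → f z = 0 := by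
    rw [ae_all_iff]
    intro m
    by_cases hm : n ≤ m
    · filter_upwards [((mem_suppSub S V _ f).1 (hall m hm)).2] with z hz _ using hz
    · exact Eventually.of_forall fun z h => absurd h hm
  rw [Lp.eq_zero_iff_ae_eq_zero]
  filter_upwards [hae, ρ_pos_ae S] with z hz hpos
  obtain ⟨m, hm⟩ := exists_nat_one_div_lt hpos
  refine hz (max n m) (le_max_left _ _) (le_trans ?_ hm.le)
  have : (m : ℝ) ≤ (max n m : ℕ) := by exact_mod_cast le_max_right n m
  exact one_div_le_one_div_of_le (by positivity) (by linarith)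

/-- the operators `U ζ` form a local group on a finite dimensional invariant subspace -/
theorem local_group (V : Submodule ℂ (Lp ℂ 2 μ)) [FiniteDimensional ℂ V]
    (hV : ∀ ζ, ∀ f ∈ V, S.U ζ f ∈ V) :
    ∃ e : ℝ, 0 < e ∧ ∀ ζ ζ' : ℂ, ‖ζ‖ ≤ e → ‖ζ'‖ ≤ e → ∀ f ∈ V,
      S.U ζ (S.U ζ' f) = S.U (ζ + ζ') f := by
  obtain ⟨b, hb, hbz⟩ := small_zero S V
  have hC : 0 < S.C₀ := lt_of_lt_of_le one_pos S.one_le_C₀
  refine ⟨b / S.C₀, by positivity, fun ζ ζ' hζ hζ' f hf => ?_⟩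
  rw [← sub_eq_zero]
  refine hbz _ (V.sub_mem (hV _ _ (hV _ _ hf)) (hV _ _ hf)) ?_
  have h1 := S.LC (b / S.C₀) (by positivity) ζ ζ' hζ hζ'
  have h2 := S.U_coe ζ (S.U ζ' f)
  have h3 := (S.T_mp ζ).quasiMeasurePreserving.ae (S.U_coe ζ' f)
  have h4 := S.U_coe (ζ + ζ') f
  filter_upwards [h1, h2, h3, h4, Lp.coeFn_sub (S.U ζ (S.U ζ' f)) (S.U (ζ + ζ') f)]
    with z e1 e2 e3 e4 e5 hz
  have hz' : S.C₀ * (b / S.C₀) ≤ S.ρ z := by
    rw [mul_div_cancel₀ _ hC.ne']; exact hz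
  rw [e5, Pi.sub_apply, e2, e3, e4, sub_eq_zero]
  exact congrArg f (e1 hz')

theorem U_zero (f : Lp ℂ 2 μ) : S.U 0 f = f := by
  refine Lp.ext ?_
  filter_upwards [S.U_coe 0 f] with z hz
  rw [hz, S.T_zero]

theorem rot_zero (f : Lp ℂ 2 μ) : S.rot 0 f = f := by
  refine Lp.ext ?_
  filter_upwards [S.rot_coe 0 f] with z hz
  rw [hz, S.R_zero]

/-- `U ζ (rot a f) = rot a (U (e^{-ia} ζ) f)` -/
theorem U_rot (ζ : ℂ) (a : ℝ) (f : Lp ℂ 2 μ) :
    S.U ζ (S.rot a f) = S.rot a (S.U (Complex.exp (-(a * Complex.I)) * ζ) f) := by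
  refine Lp.ext ?_
  have h1 := S.U_coe ζ (S.rot a f)
  have h2 := (S.T_mp ζ).quasiMeasurePreserving.ae (S.rot_coe a f)
  have h3 := S.rot_coe a (S.U (Complex.exp (-(a * Complex.I)) * ζ) f)
  have h4 := (S.R_mp a).quasiMeasurePreserving.ae
    (S.U_coe (Complex.exp (-(a * Complex.I)) * ζ) f)
  filter_upwards [h1, h2, h3, h4] with z e1 e2 e3 e4
  rw [e1, e2, e3, e4]
  congr 1
  rw [S.T_R]
  congr 2
  rw [← mul_assoc, ← Complex.exp_add]
  simp

/-- powers along a ray -/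
theorem U_ray {s t : ℝ} (hs : 0 ≤ s) (ht : 0 ≤ t) (α : ℝ) (f : Lp ℂ 2 μ) :
    S.U (((s + t : ℝ) : ℂ) * Complex.exp (α * Complex.I)) f
      = S.U (t * Complex.exp (α * Complex.I)) (S.U (s * Complex.exp (α * Complex.I)) f) := by
  refine Lp.ext ?_
  have h1 := S.U_coe (((s + t : ℝ) : ℂ) * Complex.exp (α * Complex.I)) f
  have h2 := S.U_coe (t * Complex.exp (α * Complex.I)) (S.U (s * Complex.exp (α * Complex.I)) f)
  have h3 := (S.T_mp (t * Complex.exp (α * Complex.I))).quasiMeasurePreserving.ae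
    (S.U_coe (s * Complex.exp (α * Complex.I)) f)
  filter_upwards [h1, h2, h3] with z e1 e2 e3
  rw [e1, e2, e3, S.T_ray hs ht]

/-- a vector fixed by all small translations is fixed by all of them -/
theorem fixed_of_small {e : ℝ} (he : 0 < e) (w : Lp ℂ 2 μ)
    (h : ∀ ζ : ℂ, ‖ζ‖ ≤ e → S.U ζ w = w) (ζ : ℂ) : S.U ζ w = w := by
  obtain ⟨t, α, ht, -, rfl⟩ := PlaneSys.exists_polar ζ
  obtain ⟨N, hN⟩ := exists_nat_gt (t / e)
  have hN0 : (0 : ℝ) < N := lt_of_le_of_lt (by positivity) hN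
  have hs : 0 ≤ t / N := by positivity
  have hsmall : S.U (((t / N : ℝ) : ℂ) * Complex.exp (α * Complex.I)) w = w := by
    refine h _ ?_
    rw [norm_mul, Complex.norm_exp_ofReal_mul_I, mul_one, Complex.norm_real,
      Real.norm_of_nonneg hs]
    rw [div_le_iff₀ hN0]
    rw [div_lt_iff₀ he] at hN
    linarith
  have hind : ∀ k : ℕ, S.U (((k * (t / N) : ℝ) : ℂ) * Complex.exp (α * Complex.I)) w = w := by
    intro k
    induction k with
    | zero => simp [U_zero S w]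
    | succ k ih =>
      have e1 : (((k + 1 : ℕ) : ℝ) * (t / N)) = k * (t / N) + t / N := by push_cast; ring
      rw [e1, U_ray S (by positivity) hs, ih, hsmall]
  have := hind N
  rwa [mul_div_cancel₀ _ hN0.ne'] at this

/-- a common eigenvector of the small translations is a fixed vector -/
theorem eigen_fixed {e : ℝ} (he : 0 < e) (w : Lp ℂ 2 μ) (hw0 : w ≠ 0)
    (hrot : Continuous fun α : ℝ => S.rot α w)
    (hgrp : ∀ ζ ζ' : ℂ, ‖ζ‖ ≤ e → ‖ζ'‖ ≤ e → S.U ζ (S.U ζ' w) = S.U (ζ + ζ') w)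
    (heig : ∀ ζ : ℂ, ‖ζ‖ ≤ e → ∃ c : ℂ, S.U ζ w = c • w) (ζ : ℂ) : S.U ζ w = w := by
  refine fixed_of_small S he w ?_ ζ
  clear ζ
  -- the character
  have hch : ∃ χ : ℂ → ℂ, ∀ ζ : ℂ, ‖ζ‖ ≤ e → S.U ζ w = χ ζ • w := by
    choose! χ hχ using heig
    exact ⟨χ, hχ⟩
  obtain ⟨χ, hχ⟩ := hch
  have hwn : ‖w‖ ≠ 0 := norm_ne_zero_iff.2 hw0
  have hnorm : ∀ ζ : ℂ, ‖ζ‖ ≤ e → ‖χ ζ‖ = 1 := by
    intro ζ hζ
    have h1 := congrArg norm (hχ ζ hζ)
    rw [LinearIsometry.norm_map, norm_smul] at h1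
    have h2 : ‖χ ζ‖ * ‖w‖ = 1 * ‖w‖ := by rw [one_mul]; exact h1.symm
    exact mul_right_cancel₀ hwn h2
  have hsmul : ∀ c d : ℂ, c • w = d • w → c = d := by
    intro c d h
    exact smul_left_injective ℂ hw0 h
  -- rotation invariance for small angles
  have hne : ∀ᶠ a : ℝ in 𝓝 0, ⟪S.rot a w, w⟫_ℂ ≠ 0 := by
    have hc : Continuous fun a : ℝ => ⟪S.rot a w, w⟫_ℂ := hrot.inner continuous_const
    have h0 : (fun a : ℝ => ⟪S.rot a w, w⟫_ℂ) 0 ≠ 0 := by
      simp only [rot_zero S w]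
      rw [Ne, inner_self_eq_zero]
      exact hw0
    exact hc.continuousAt.eventually_ne h0
  obtain ⟨a₀, ha₀, hball⟩ := Metric.eventually_nhds_iff.1 hne
  have hrotinv : ∀ a : ℝ, |a| < a₀ → ∀ ζ : ℂ, ‖ζ‖ ≤ e →
      χ (Complex.exp (-(a * Complex.I)) * ζ) = χ ζ := by
    intro a ha ζ hζ
    have hnz : ⟪S.rot a w, w⟫_ℂ ≠ 0 := hball (by simpa using ha)
    have hn' : ‖Complex.exp (-(a * Complex.I)) * ζ‖ ≤ e := by
      rw [norm_mul]
      have : ‖Complex.exp (-(a * Complex.I))‖ = 1 := by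
        have := Complex.norm_exp_ofReal_mul_I (-a)
        simpa using this
      rw [this, one_mul]; exact hζ
    have h1 : ⟪S.U ζ (S.rot a w), S.U ζ w⟫_ℂ = ⟪S.rot a w, w⟫_ℂ :=
      LinearIsometry.inner_map_map _ _ _
    rw [U_rot S ζ a w, hχ _ hn', hχ ζ hζ, map_smul, inner_smul_left, inner_smul_right] at h1
    have h2 : (starRingEnd ℂ) (χ (Complex.exp (-(a * Complex.I)) * ζ)) * χ ζ = 1 := by
      refine mul_right_cancel₀ hnz ?_
      rw [one_mul]
      rw [mul_assoc]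
      exact h1
    have h3 : χ (Complex.exp (-(a * Complex.I)) * ζ) *
        (starRingEnd ℂ) (χ (Complex.exp (-(a * Complex.I)) * ζ)) = 1 := by
      rw [Complex.mul_conj, Complex.normSq_eq_norm_sq, hnorm _ hn']; simp
    calc χ (Complex.exp (-(a * Complex.I)) * ζ)
        = χ (Complex.exp (-(a * Complex.I)) * ζ) *
          ((starRingEnd ℂ) (χ (Complex.exp (-(a * Complex.I)) * ζ)) * χ ζ) := by rw [h2, mul_one]
      _ = χ ζ := by rw [← mul_assoc, h3, one_mul]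
  -- the character is even
  have heven : ∀ ζ : ℂ, ‖ζ‖ ≤ e → χ (-ζ) = χ ζ := by
    intro ζ hζ
    obtain ⟨N, hN⟩ := exists_nat_gt (Real.pi / a₀)
    have hN0 : (0 : ℝ) < N := lt_of_le_of_lt (by positivity) hN
    have ha : |Real.pi / N| < a₀ := by
      rw [abs_of_pos (by positivity), div_lt_iff₀ hN0]
      rw [div_lt_iff₀ ha₀] at hN
      linarith
    have hind : ∀ k : ℕ,
        χ (Complex.exp (-(((k * (Real.pi / N) : ℝ) : ℂ) * Complex.I)) * ζ) = χ ζ := by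
      intro k
      induction k with
      | zero => simp
      | succ k ih =>
        have hn' : ‖Complex.exp (-(((k * (Real.pi / N) : ℝ) : ℂ) * Complex.I)) * ζ‖ ≤ e := by
          rw [norm_mul]
          have : ‖Complex.exp (-(((k * (Real.pi / N) : ℝ) : ℂ) * Complex.I))‖ = 1 := by
            have := Complex.norm_exp_ofReal_mul_I (-(k * (Real.pi / N)))
            rw [← this]; congr 2; push_cast; ring
          rw [this, one_mul]; exact hζ
        have h1 := hrotinv (Real.pi / N) ha _ hn'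
        rw [← mul_assoc, ← Complex.exp_add, ih] at h1
        rw [← h1]
        congr 3
        push_cast; ring
    have h1 := hind N
    rw [mul_div_cancel₀ _ hN0.ne'] at h1
    rw [← h1]
    congr 1
    rw [Complex.exp_neg, Complex.exp_pi_mul_I]
    ring
  have hmul : ∀ ζ ζ' : ℂ, ‖ζ‖ ≤ e → ‖ζ'‖ ≤ e → ‖ζ + ζ'‖ ≤ e → χ ζ * χ ζ' = χ (ζ + ζ') := by
    intro ζ ζ' h1 h2 h3
    have h4 := hgrp ζ ζ' h1 h2
    rw [hχ _ h2, map_smul, hχ _ h1, hχ _ h3, smul_smul] at h4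
    have := hsmul _ _ h4
    rw [mul_comm]; exact this
  have h0 : χ 0 = 1 := by
    have h1 := hχ 0 (by simpa using he.le)
    rw [U_zero S w] at h1
    exact (hsmul _ _ (by rw [one_smul]; exact h1)).symm
  have hsq : ∀ ζ : ℂ, ‖ζ‖ ≤ e → χ ζ * χ ζ = 1 := by
    intro ζ hζ
    have h1 := hmul ζ (-ζ) hζ (by simpa using hζ) (by simpa using he.le)
    rw [heven ζ hζ, add_neg_cancel, h0] at h1
    exact h1
  intro ζ hζ
  have hhalf : ‖ζ / 2‖ ≤ e := by
    rw [norm_div]; simp only [Complex.norm_ofNat]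
    have : 0 ≤ ‖ζ‖ := norm_nonneg _
    linarith
  have h1 := hmul (ζ / 2) (ζ / 2) hhalf hhalf (by rw [add_halves]; exact hζ)
  rw [hsq _ hhalf, add_halves] at h1
  rw [hχ ζ hζ, ← h1, one_smul]

end Crest.Agent.R103.FinB2

namespace Crest.Agent.R103.PlaneSys

open FinB2

/-- B2 -/
theorem fin (hcont : StCont) : StFin := by
  intro Ω _ _ _ _ _ μ _ S V hfd hV f hf ζ
  have := hfd
  obtain ⟨e, he, hgrp⟩ := local_group S V hV
  -- the fixed vectors
  let F : Submodule ℂ (Lp ℂ 2 μ) :=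
    { carrier := {g | g ∈ V ∧ ∀ ζ, S.U ζ g = g}
      zero_mem' := ⟨V.zero_mem, fun ζ => map_zero _⟩
      add_mem' := by
        rintro g h ⟨hg, hg'⟩ ⟨hh, hh'⟩
        exact ⟨V.add_mem hg hh, fun ζ => by rw [map_add, hg', hh']⟩
      smul_mem' := by
        rintro c g ⟨hg, hg'⟩
        exact ⟨V.smul_mem c hg, fun ζ => by rw [map_smul, hg']⟩ }
  have hF : ∀ g, g ∈ F ↔ g ∈ V ∧ ∀ ζ, S.U ζ g = g := fun g => Iff.rfl
  have hFV : F ≤ V := fun g hg => hg.1
  have : FiniteDimensional ℂ F := Submodule.finiteDimensional_of_le hFV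
  have hW : Fᗮ ⊓ V = ⊥ := by
    by_contra hne
    have : FiniteDimensional ℂ (Fᗮ ⊓ V : Submodule ℂ (Lp ℂ 2 μ)) :=
      Submodule.finiteDimensional_of_le inf_le_right
    obtain ⟨w, hw, hw0, heig⟩ := common_eigen
      (fun ζ : {ζ : ℂ // ‖ζ‖ ≤ e} => (S.U ζ.1).toLinearMap) _ (Fᗮ ⊓ V) inferInstance rfl hne
      (by
        rintro ⟨ζ, hζ⟩ w ⟨hw1, hw2⟩
        refine ⟨?_, hV ζ w hw2⟩
        refine (Submodule.mem_orthogonal F _).2 fun g hg => ?_
        have h1 : ⟪S.U ζ g, S.U ζ w⟫_ℂ = ⟪g, w⟫_ℂ := LinearIsometry.inner_map_map _ _ _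
        rw [((hF g).1 hg).2 ζ] at h1
        exact h1.trans ((Submodule.mem_orthogonal F w).1 hw1 g hg))
      (by
        rintro ⟨ζ, hζ⟩ ⟨ζ', hζ'⟩ w ⟨hw1, hw2⟩
        show S.U ζ (S.U ζ' w) = S.U ζ' (S.U ζ w)
        rw [hgrp ζ ζ' hζ hζ' w hw2, hgrp ζ' ζ hζ' hζ w hw2, add_comm])
    have hfix : ∀ ζ, S.U ζ w = w :=
      eigen_fixed S he w hw0 ((hcont Ω μ S).2.1 w)
        (fun ζ ζ' h1 h2 => hgrp ζ ζ' h1 h2 w hw.2) (fun ζ hζ => heig ⟨ζ, hζ⟩)
    have hwF : w ∈ F := ⟨hw.2, hfix⟩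
    have := (Submodule.mem_orthogonal F w).1 hw.1 w hwF
    exact hw0 (inner_self_eq_zero.1 this)
  have hsup := Submodule.sup_orthogonal_inf_of_hasOrthogonalProjection hFV
  rw [hW, sup_bot_eq] at hsup
  rw [← hsup] at hf
  exact hf.2 ζ

end Crest.Agent.R103.PlaneSys
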