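import Crest.Agent.R103.IfaceG

/-!
# R103, H6: the billiard flow on oriented frames is an action of `ℝ`
-/

open MeasureTheory Filter Topology
open Crest.AnalysisR.Billiard

noncomputable section

namespace Crest.Agent.R103

namespace FlowH6

variable {A : Fin 3 → Plane}

lemma reflW_append (w w' : List (Fin 3)) (x : Plane) :
    reflW A (w ++ w') x = reflW A w' (reflW A w x) := by
  induction w generalizing x with
  | nil => rfl
  | cons i w ih => exact ih _

lemma chainOf_through (p : Phase) (h : Good A p) : (chainOf A p h).Through p := h.choose_spec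

lemma stateAt_chainOf_zero (p : Phase) (h : Good A p) : stateAt (chainOf A p h) 0 = p :=
  ((through_iff _ _).1 (chainOf_through p h)).symm

lemma flowP_good {p : Phase} (h : OK A p) (h' : Good A p) (t : ℝ) :
    flowP A t p = stateAt (chainOf A p h') t := by
  unfold flowP
  rw [dif_pos ⟨h, h'⟩]

lemma par_good {p : Phase} (h : OK A p) (h' : Good A p) (t : ℝ) :
    par A t p = decide (Odd (idx (chainOf A p h') t)) := by
  unfold par
  rw [dif_pos ⟨h, h'⟩]

lemma flowP_bad {p : Phase} (h : ¬ (OK A p ∧ Good A p)) (t : ℝ) : flowP A t p = p := by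
  unfold flowP
  rw [dif_neg h]

lemma par_bad {p : Phase} (h : ¬ (OK A p ∧ Good A p)) (t : ℝ) : par A t p = false := by
  unfold par
  rw [dif_neg h]

lemma flowM_bad {z : Phase × Bool} (h : ¬ (OK A z.1 ∧ Good A z.1)) (t : ℝ) : flowM A t z = z := by
  unfold flowM
  rw [flowP_bad h, par_bad h, Bool.xor_false]

lemma good_stateAt (hS : StShift) {p : Phase} (c : Chain A) (t : ℝ) (hp : p = stateAt c t) :
    Good A p := by
  obtain ⟨c', -, -, -, -, h⟩ := hS A c t
  refine ⟨c', (through_iff _ _).2 ?_⟩
  rw [h, zero_add, hp]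

lemma ok_stateAt (hSt : StState) (hA : AffineIndependent ℝ A) (c : Chain A)
    (h : OK A (stateAt c 0)) (t : ℝ) : OK A (stateAt c t) := by
  obtain ⟨hadm, -, hunf⟩ := hSt A hA c
  refine ⟨hadm t, fun w s j => ?_⟩
  obtain ⟨w0, h0, -, -⟩ := hunf 0 t
  rw [h0 s, ← reflW_append]
  exact h.2 _ _ _

lemma vd_le (x y : Plane) : vd A y ≤ vd A x + dist y x := by
  unfold vd
  have h : ∀ i, dist y (A i) ≤ dist x (A i) + dist y x := fun i => by
    have := dist_triangle y x (A i)
    linarith
  have h0 := h 0
  have h1 := h 1
  have h2 := h 2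
  rcases min_choice (dist x (A 0)) (min (dist x (A 1)) (dist x (A 2))) with e | e
  · rw [e]
    exact (min_le_left _ _).trans h0
  · rw [e]
    rcases min_choice (dist x (A 1)) (dist x (A 2)) with e' | e'
    · rw [e']
      exact (min_le_right _ _).trans ((min_le_left _ _).trans h1)
    · rw [e']
      exact (min_le_right _ _).trans ((min_le_right _ _).trans h2)

lemma xor_par (b : Bool) (m n : ℤ) :
    xor (xor b (decide (Odd m))) (decide (Odd (n - m))) = xor b (decide (Odd n)) := by
  have h : Odd (n - m) ↔ ¬ (Odd n ↔ Odd m) := by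
    rw [Int.odd_sub, ← Int.not_odd_iff_even]
    tauto
  by_cases h1 : Odd m <;> by_cases h2 : Odd n <;> cases b <;> simp [h1, h2, h]

end FlowH6

open FlowH6 in
theorem flow : StG1 → StG2 → StUniq → StShift → StState → StExist → StFlow := by
  intro _ _ hU hS hSt hE A hA
  refine ⟨?_, ?_, ?_, ?_⟩
  · intro z
    by_cases h : OK A z.1 ∧ Good A z.1
    · unfold flowM
      rw [flowP_good h.1 h.2, par_good h.1 h.2, stateAt_chainOf_zero, idx_zero]
      simp
    · exact flowM_bad h 0
  · intro s t z
    by_cases h : OK A z.1 ∧ Good A z.1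
    · set c := chainOf A z.1 h.2 with hc
      have hc0 : stateAt c 0 = z.1 := stateAt_chainOf_zero z.1 h.2
      have hok : OK A (stateAt c t) := ok_stateAt hSt hA c (by rw [hc0]; exact h.1) t
      obtain ⟨c', -, -, -, h4, h5⟩ := hS A c t
      have hgood : Good A (stateAt c t) := good_stateAt hS c t rfl
      have hcc : chainOf A (stateAt c t) hgood = c' := by
        refine hU A hA _ _ (stateAt c t) (chainOf_through _ hgood) ((through_iff _ _).2 ?_)
        rw [h5, zero_add]
      have e1 : flowM A t z = (stateAt c t, xor z.2 (decide (Odd (idx c t)))) := by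
        unfold flowM
        rw [flowP_good h.1 h.2, par_good h.1 h.2]
      have e2 : flowM A (s + t) z = (stateAt c (s + t), xor z.2 (decide (Odd (idx c (s + t))))) := by
        unfold flowM
        rw [flowP_good h.1 h.2, par_good h.1 h.2]
      rw [e1, e2]
      unfold flowM
      simp only
      rw [flowP_good hok hgood, par_good hok hgood, hcc, h4, h5, xor_par]
    · rw [flowM_bad h, flowM_bad h, flowM_bad h]
  · intro t p h
    have hg := hE A hA p h
    rw [flowP_good h hg]
    exact ok_stateAt hSt hA _ (by rw [stateAt_chainOf_zero]; exact h) t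
  · intro t z
    by_cases h : OK A z.1 ∧ Good A z.1
    · unfold flowM
      simp only
      rw [flowP_good h.1 h.2]
      set c := chainOf A z.1 h.2 with hc
      have hc0 : stateAt c 0 = z.1 := stateAt_chainOf_zero z.1 h.2
      have h1 := (hSt A hA c).2.1 t 0
      rw [hc0, sub_zero] at h1
      have h2 := vd_le (A := A) z.1.1 (stateAt c t).1
      linarith
    · rw [flowM_bad h]
      linarith [abs_nonneg t]

end Crest.Agent.R103
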