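import Crest.Agent.R103.FlowBase

/-!
# R103, H8: the flow preserves the measure
-/

open MeasureTheory Filter Topology
open Crest.AnalysisR.Billiard

noncomputable section

namespace Crest.Agent.R103

namespace FMP

open FB

variable {A : Fin 3 → Plane}

/-- the flow is given by unfolding along a word -/
lemma flow_word (hS : StState) (hA : AffineIndependent ℝ A) {z : Phase × Bool}
    (hz : OK A z.1 ∧ Good A z.1) (t : ℝ) :
    ∃ w : List (Fin 3), flowM A t z = RW A w (Str t z) := by
  set c := chainOf A z.1 hz.2 with hc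
  have hthr : z.1 = stateAt c 0 := (through_iff c z.1).1 hz.2.choose_spec
  obtain ⟨w, h1, h2, h3⟩ := (hS A hA c).2.2 0 t
  refine ⟨w, ?_⟩
  have hF : flowP A t z.1 = stateAt c t := by rw [flowP, dif_pos hz]
  have hP : par A t z.1 = decide (Odd (idx c t)) := by rw [par, dif_pos hz]
  rw [flowM, hF, hP]
  have h1' := h1 0
  rw [zero_smul, add_zero, sub_zero, add_zero, ← hthr] at h1'
  rw [← hthr] at h2
  rw [idx_zero, sub_zero] at h3
  refine Prod.ext (Prod.ext ?_ (Subtype.ext ?_)) ?_
  · rw [RW_pos, h1']; rfl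
  · rw [RW_vel, h2]; rfl
  · rw [RW_par]
    show xor z.2 (decide (Odd (idx c t))) = xor z.2 (decide (Odd (w.length : ℤ)))
    rw [decide_eq_decide.2 h3]

lemma line_null (h1 : StG1) (hA : AffineIndependent ℝ A) (i : Fin 3) :
    volume {x : Plane | cd A i x = 0} = 0 := by
  obtain ⟨-, -, -, g4, g5, -, -, -, -, -, -⟩ := h1 A hA
  have hld : ∀ x y, ld A i (x - y) = cd A i x - cd A i y := by
    intro x y
    have := g4 i y 1 (x - y)
    rw [one_smul, one_mul] at this
    have e : y + (x - y) = x := by abel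
    rw [e] at this
    linarith
  let S : AffineSubspace ℝ Plane :=
    { carrier := {x : Plane | cd A i x = 0}
      smul_vsub_vadd_mem' := by
        intro c p1 p2 p3 hp1 hp2 hp3
        show cd A i (c • (p1 - p2) + p3) = 0
        rw [add_comm, g4, hld]
        have a : cd A i p1 = 0 := hp1
        have b : cd A i p2 = 0 := hp2
        have d : cd A i p3 = 0 := hp3
        rw [a, b, d]; ring }
  have hS : S ≠ ⊤ := by
    intro h
    have h2 : A i ∈ S := by rw [h]; exact AffineSubspace.mem_top _ _ _
    have h3 : cd A i (A i) = 0 := h2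
    rw [g5] at h3
    simp at h3
  exact Measure.addHaar_affineSubspace volume S hS

/-- frames over a null set of positions -/
lemma lam_pos_null {N : Set Plane} (hN : volume N = 0) : lam {z | z.1.1 ∈ N} = 0 := by
  have h1 : Measure.QuasiMeasurePreserving (fun z : Phase × Bool => z.1)
      lam ((volume : Measure Plane).prod (volume : Measure Plane).toSphere) :=
    Measure.quasiMeasurePreserving_fst
  have h2 : Measure.QuasiMeasurePreserving (fun p : Phase => p.1)
      ((volume : Measure Plane).prod (volume : Measure Plane).toSphere)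
      (volume : Measure Plane) :=
    Measure.quasiMeasurePreserving_fst
  exact (h2.comp h1).preimage_null hN

/-- countable patchwork of measure preserving injections -/
lemma patch {X : Type*} [MeasurableSpace X] [StandardBorelSpace X] (ν : Measure X)
    {g : X → X} (hg : Function.Injective g) (Ψ : ℕ → X → X)
    (hΨ : ∀ n, MeasurePreserving (Ψ n) ν ν) (hΨi : ∀ n, Function.Injective (Ψ n))
    {S : Set X} (hS : MeasurableSet S) (hE : ∀ n, MeasurableSet {z | g z = Ψ n z})
    (hcov : ∀ z ∈ S, ∃ n, g z = Ψ n z) : ν S = ν (g '' S) := by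
  let E : ℕ → Set X := fun n => S ∩ {z | g z = Ψ n z}
  have hEm : ∀ n, MeasurableSet (E n) := fun n => hS.inter (hE n)
  have hSE : S = ⋃ n, E n := by
    ext z
    constructor
    · intro hz
      obtain ⟨n, hn⟩ := hcov z hz
      exact Set.mem_iUnion.2 ⟨n, hz, hn⟩
    · intro hz
      obtain ⟨n, hn⟩ := Set.mem_iUnion.1 hz
      exact hn.1
  have hFm : ∀ n, MeasurableSet (disjointed E n) := fun n => MeasurableSet.disjointed hEm n
  have himg : ∀ n, Ψ n '' disjointed E n = g '' disjointed E n := by
    intro n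
    apply Set.image_congr
    intro z hz
    exact ((disjointed_subset E n hz).2).symm
  have himm : ∀ n, MeasurableSet (Ψ n '' disjointed E n) := fun n =>
    ((hΨ n).measurable.measurableEmbedding (hΨi n)).measurableSet_image.2 (hFm n)
  have hmeq : ∀ n, ν (disjointed E n) = ν (g '' disjointed E n) := by
    intro n
    rw [← himg n]
    have h := (hΨ n).measure_preimage (himm n).nullMeasurableSet
    rw [Set.preimage_image_eq _ (hΨi n)] at h
    exact h
  have hdisj : Pairwise (Function.onFun Disjoint fun n => g '' disjointed E n) := by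
    intro m n hmn
    exact (Set.disjoint_image_iff hg).2 (disjoint_disjointed E hmn)
  have e1 : ν S = ∑' n, ν (disjointed E n) := by
    rw [← measure_iUnion (disjoint_disjointed E) hFm, iUnion_disjointed, ← hSE]
  have e2 : g '' S = ⋃ n, g '' disjointed E n := by
    rw [← Set.image_iUnion, iUnion_disjointed, ← hSE]
  rw [e1, e2, measure_iUnion hdisj (fun n => by rw [← himg n]; exact himm n)]
  exact tsum_congr hmeq

instance sbs : StandardBorelSpace (Phase × Bool) := by
  have : PolishSpace ↥(Metric.sphere (0 : Plane) 1) := Metric.isClosed_sphere.polishSpace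
  infer_instance

lemma gen {X Y : Type*} [MeasurableSpace X] [MeasurableSpace Y] (f : ℝ → X → Y)
    (h : Measurable (fun p : ℝ × X => f p.1 p.2)) (t : ℝ) : Measurable (f t) :=
  h.comp (measurable_const.prodMk measurable_id)

lemma flowM_meas (hM : StMeas) (hA : AffineIndependent ℝ A) (t : ℝ) :
    Measurable (flowM A t) := gen (flowM A) (hM A hA) t

lemma flow_inj (hF : StFlow) (hA : AffineIndependent ℝ A) (t : ℝ) :
    Function.Injective (flowM A t) := by
  obtain ⟨f0, fadd, -, -⟩ := hF A hA
  intro z z' h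
  have := congrArg (flowM A (-t)) h
  rwa [← fadd, ← fadd, neg_add_cancel, f0, f0] at this

lemma image_le (h1 : StG1) (h2 : StG2) (hS : StState) (hE : StExist) (hF : StFlow)
    (hM : StMeas) (hA : AffineIndependent ℝ A) (t : ℝ) {S : Set (Phase × Bool)}
    (hSm : MeasurableSet S) (hSO : ∀ z ∈ S, OK A z.1) : lam S = lam (flowM A t '' S) := by
  have hft : Measurable (flowM A t) := flowM_meas hM hA t
  obtain ⟨f, hf⟩ := exists_surjective_nat (List (Fin 3))
  have hΨ : ∀ n, MeasurePreserving (fun z => RW A (f n) (Str t z)) lam lam :=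
    fun n => (RW_mp h2 hA (f n)).comp (Str_mp t)
  refine patch lam (flow_inj hF hA t) (fun n z => RW A (f n) (Str t z)) hΨ
    (fun n => (RW_inj h2 hA (f n)).comp (Str_inj t)) hSm ?_ ?_
  · intro n
    exact measurableSet_eq_fun hft (hΨ n).measurable
  · intro z hz
    obtain ⟨w, hw⟩ := flow_word hS hA ⟨hSO z hz, hE A hA _ (hSO z hz)⟩ t
    obtain ⟨n, hn⟩ := hf w
    exact ⟨n, by rw [hn]; exact hw⟩

lemma step1 (hAe : StAe) (hA : AffineIndependent ℝ A)
    {X D : Set (Phase × Bool)} (hmu : μM A = lam.restrict D)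
    (hX : MeasurableSet X) : μM A X = lam (({z | OK A z.1} ∩ X) ∩ D) := by
  obtain ⟨hae, hOK⟩ := hAe A hA
  have hOKm : MeasurableSet {z : Phase × Bool | OK A z.1} := measurable_fst hOK
  have hOKae : ∀ᵐ z ∂(μM A), OK A z.1 := by
    have hq : Measure.QuasiMeasurePreserving (fun z : Phase × Bool => z.1) (μM A)
        (phaseMeasure A) := Measure.quasiMeasurePreserving_fst
    exact hq.ae (hae.mono fun p hp => hp.1)
  have e1 : μM A X = μM A ({z | OK A z.1} ∩ X) := by
    apply measure_congr
    filter_upwards [hOKae] with z hz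
    have : (z ∈ X) = (z ∈ {z : Phase × Bool | OK A z.1} ∩ X) := by
      simp only [Set.mem_inter_iff, Set.mem_setOf_eq, hz, true_and]
    exact this
  rw [e1, hmu, Measure.restrict_apply (hOKm.inter hX)]

lemma le_of (h1 : StG1) (h2 : StG2) (hS : StState) (hE : StExist) (hAe : StAe) (hF : StFlow)
    (hM : StMeas) (hA : AffineIndependent ℝ A) (t : ℝ) {B : Set (Phase × Bool)}
    (hB : MeasurableSet B) : μM A (flowM A t ⁻¹' B) ≤ μM A B := by
  obtain ⟨-, -, -, -, -, -, -, hc, hl, hint, -⟩ := h1 A hA
  have hft : Measurable (flowM A t) := flowM_meas hM hA t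
  have hmu : μM A = lam.restrict {z : Phase × Bool | ∀ i, 0 < cd A i z.1.1} := by
    rw [muM_eq, hint]; rfl
  have hcdm : ∀ i, Measurable fun z : Phase × Bool => cd A i z.1.1 := fun i =>
    (hc i).measurable.comp (measurable_fst.comp measurable_fst)
  have hDm : MeasurableSet {z : Phase × Bool | ∀ i, 0 < cd A i z.1.1} := by
    have : {z : Phase × Bool | ∀ i, 0 < cd A i z.1.1}
        = ⋂ i, {z : Phase × Bool | 0 < cd A i z.1.1} := by ext z; simp
    rw [this]
    exact MeasurableSet.iInter fun i => measurableSet_lt measurable_const (hcdm i)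
  have hOKm : MeasurableSet {z : Phase × Bool | OK A z.1} := measurable_fst (hAe A hA).2
  rw [step1 hAe hA hmu (hft hB)]
  rw [image_le h1 h2 hS hE hF hM hA t ((hOKm.inter (hft hB)).inter hDm)
    (fun z hz => hz.1.1)]
  rw [hmu, Measure.restrict_apply hB]
  have hsub : flowM A t '' (({z | OK A z.1} ∩ flowM A t ⁻¹' B) ∩
      {z : Phase × Bool | ∀ i, 0 < cd A i z.1.1}) ⊆
      (B ∩ {z : Phase × Bool | ∀ i, 0 < cd A i z.1.1}) ∪
        ⋃ i, {z : Phase × Bool | z.1.1 ∈ {x | cd A i x = 0}} := by
    rintro _ ⟨z, hz, rfl⟩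
    have hB' : flowM A t z ∈ B := hz.1.2
    have hadm : Adm A (flowP A t z.1) := ((hF A hA).2.2.1 t z.1 hz.1.1).1
    by_cases h : ∃ i, cd A i (flowM A t z).1.1 = 0
    · obtain ⟨i, hi⟩ := h
      exact Or.inr (Set.mem_iUnion.2 ⟨i, hi⟩)
    · push Not at h
      left
      refine ⟨hB', fun i => ?_⟩
      rcases hadm i with h' | ⟨h', -⟩
      · exact h'
      · exact absurd h' (h i)
  refine (measure_mono hsub).trans ((measure_union_le _ _).trans ?_)
  rw [measure_iUnion_null fun i => lam_pos_null (line_null h1 hA i), add_zero]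

end FMP

/-- H8 -/
theorem mp (h1 : StG1) (h2 : StG2) (hS : StState) (hE : StExist) (hAe : StAe) (hF : StFlow)
    (hM : StMeas) : StMP := by
  intro A hA t
  obtain ⟨f0, fadd, -, -⟩ := hF A hA
  have hft : ∀ t, Measurable (flowM A t) := fun t => FMP.flowM_meas hM hA t
  refine ⟨hft t, ?_⟩
  ext B hB
  rw [Measure.map_apply (hft t) hB]
  refine le_antisymm (FMP.le_of h1 h2 hS hE hAe hF hM hA t hB) ?_
  have h := FMP.le_of h1 h2 hS hE hAe hF hM hA (-t) (hft t hB)
  have e : flowM A (-t) ⁻¹' (flowM A t ⁻¹' B) = B := by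
    ext z
    simp only [Set.mem_preimage]
    rw [← fadd, add_neg_cancel, f0]
  rwa [e] at h

end Crest.Agent.R103
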