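import Crest.Agent.R103.FlowBase

/-!
# R103, H7: joint measurability of the flow
-/

open MeasureTheory Filter Topology
open Crest.AnalysisR.Billiard

noncomputable section

namespace Crest.Agent.R103

namespace FM

open FB

variable (A : Fin 3 → Plane)

/-- time at which the line of `p` meets the line of side `i` -/
def tm (i : Fin 3) (p : Phase) : ℝ := cd A i p.1 / (-ld A i p.2)

/-- `i` is the exit side of `p` (strict argmin) -/
def Ex (i : Fin 3) (p : Phase) : Prop :=
  ld A i p.2 < 0 ∧ ∀ j, j ≠ i → ld A j p.2 < 0 → tm A i p < tm A j p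

lemma Ex_unique {i j : Fin 3} {p : Phase} (hi : Ex A i p) (hj : Ex A j p) : i = j := by
  by_contra h
  have h1 := hi.2 j (Ne.symm h) hj.1
  have h2 := hj.2 i h hi.1
  exact lt_asymm h1 h2

/-- move to side `i` and reflect -/
def Hit (i : Fin 3) (p : Phase) : Phase :=
  (p.1 + tm A i p • (p.2 : Plane), mirS (sideVec A i) p.2)

open Classical in
/-- exit time -/
def ET (p : Phase) : ℝ :=
  if Ex A 0 p then tm A 0 p else if Ex A 1 p then tm A 1 p else if Ex A 2 p then tm A 2 p else 0

open Classical in
/-- collision map -/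
def CF (p : Phase) : Phase :=
  if Ex A 0 p then Hit A 0 p else if Ex A 1 p then Hit A 1 p else if Ex A 2 p then Hit A 2 p
    else p

variable {A}

lemma ET_eq {i : Fin 3} {p : Phase} (h : Ex A i p) : ET A p = tm A i p := by
  unfold ET
  by_cases h0 : Ex A 0 p
  · rw [if_pos h0, Ex_unique A h h0]
  rw [if_neg h0]
  by_cases h1 : Ex A 1 p
  · rw [if_pos h1, Ex_unique A h h1]
  rw [if_neg h1]
  by_cases h2 : Ex A 2 p
  · rw [if_pos h2, Ex_unique A h h2]
  exfalso
  fin_cases i
  · exact h0 h
  · exact h1 h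
  · exact h2 h

lemma CF_eq {i : Fin 3} {p : Phase} (h : Ex A i p) : CF A p = Hit A i p := by
  unfold CF
  by_cases h0 : Ex A 0 p
  · rw [if_pos h0, Ex_unique A h h0]
  rw [if_neg h0]
  by_cases h1 : Ex A 1 p
  · rw [if_pos h1, Ex_unique A h h1]
  rw [if_neg h1]
  by_cases h2 : Ex A 2 p
  · rw [if_pos h2, Ex_unique A h h2]
  exfalso
  fin_cases i
  · exact h0 h
  · exact h1 h
  · exact h2 h

section measurability

variable (hc : ∀ i, Continuous (cd A i)) (hl : ∀ i, Continuous (ld A i))
include hc hl

lemma tm_meas (i : Fin 3) : Measurable (tm A i) := by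
  have h1 : Measurable fun p : Phase => cd A i p.1 := (hc i).measurable.comp measurable_fst
  have h2 : Measurable fun p : Phase => ld A i (p.2 : Plane) :=
    (hl i).measurable.comp (measurable_subtype_coe.comp measurable_snd)
  exact h1.div h2.neg

omit hc in
lemma ld_meas (i : Fin 3) : Measurable fun p : Phase => ld A i (p.2 : Plane) :=
  (hl i).measurable.comp (measurable_subtype_coe.comp measurable_snd)

lemma Ex_meas (i : Fin 3) : MeasurableSet {p | Ex A i p} := by
  have h1 : MeasurableSet {p : Phase | ld A i (p.2 : Plane) < 0} :=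
    measurableSet_lt (ld_meas hl i) measurable_const
  have h2 : ∀ j, MeasurableSet {p : Phase | j ≠ i → ld A j (p.2 : Plane) < 0 →
      tm A i p < tm A j p} := by
    intro j
    by_cases hj : j ≠ i
    · have e : {p : Phase | j ≠ i → ld A j (p.2 : Plane) < 0 → tm A i p < tm A j p}
          = {p : Phase | ld A j (p.2 : Plane) < 0}ᶜ ∪ {p | tm A i p < tm A j p} := by
        ext p
        simp only [Set.mem_setOf_eq, Set.mem_union, Set.mem_compl_iff]
        tauto
      rw [e]
      exact (measurableSet_lt (ld_meas hl j) measurable_const).compl.union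
        (measurableSet_lt (tm_meas hc hl i) (tm_meas hc hl j))
    · have e : {p : Phase | j ≠ i → ld A j (p.2 : Plane) < 0 → tm A i p < tm A j p}
          = Set.univ := by
        ext p; simp only [Set.mem_setOf_eq, Set.mem_univ, iff_true]
        intro h; exact absurd h hj
      rw [e]; exact MeasurableSet.univ
  have e : {p | Ex A i p} = {p : Phase | ld A i (p.2 : Plane) < 0} ∩
      ⋂ j, {p : Phase | j ≠ i → ld A j (p.2 : Plane) < 0 → tm A i p < tm A j p} := by
    ext p; simp [Ex]
  rw [e]
  exact h1.inter (MeasurableSet.iInter h2)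

lemma ET_meas : Measurable (ET A) := by
  classical
  unfold ET
  refine Measurable.ite (Ex_meas hc hl 0) (tm_meas hc hl 0) ?_
  refine Measurable.ite (Ex_meas hc hl 1) (tm_meas hc hl 1) ?_
  exact Measurable.ite (Ex_meas hc hl 2) (tm_meas hc hl 2) measurable_const

lemma Hit_meas (i : Fin 3) : Measurable (Hit A i) := by
  unfold Hit
  refine Measurable.prodMk ?_ ?_
  · exact measurable_fst.add ((tm_meas hc hl i).smul
      (measurable_subtype_coe.comp measurable_snd))
  · exact (mirS_continuous _).measurable.comp measurable_snd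

lemma CF_meas : Measurable (CF A) := by
  classical
  unfold CF
  refine Measurable.ite (Ex_meas hc hl 0) (Hit_meas hc hl 0) ?_
  refine Measurable.ite (Ex_meas hc hl 1) (Hit_meas hc hl 1) ?_
  exact Measurable.ite (Ex_meas hc hl 2) (Hit_meas hc hl 2) measurable_id

end measurability

/-! ### chains -/

lemma stateAt_of {c : Chain A} {s : ℝ} {k : ℤ} (h1 : c.t k ≤ s) (h2 : s < c.t (k + 1)) :
    (stateAt c s).1 = c.q k + (s - c.t k) • c.vel k ∧
      ((stateAt c s).2 : Plane) = c.vel k := by
  have h := idx_unique c h1 h2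
  refine ⟨?_, ?_⟩
  · simp only [stateAt, h]
  · simp only [stateAt, h]

lemma t_lt (c : Chain A) (k : ℤ) : c.t k < c.t (k + 1) := c.strictMono_t (by omega)

lemma vel_smul (c : Chain A) (k : ℤ) :
    (c.t (k + 1) - c.t k) • c.vel k = c.q (k + 1) - c.q k := by
  have h : c.t (k + 1) - c.t k ≠ 0 := (sub_pos.2 (t_lt c k)).ne'
  rw [Chain.vel, smul_smul, mul_inv_cancel₀ h, one_smul]

lemma vel_succ (c : Chain A) (k : ℤ) :
    c.vel (k + 1) = mirror (sideVec A (c.side (k + 1))) (c.vel k) := by
  have h := c.reflect k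
  rw [Chain.vel, Chain.vel]
  have e : k + 1 + 1 = k + 2 := by ring
  rw [e]; exact h

/-- the exit side, time and collision state of a state of a chain -/
lemma chain_exit (h1 : StG1) (hS : StState) (hA : AffineIndependent ℝ A) (c : Chain A)
    {s : ℝ} {k : ℤ} (hk : c.t k ≤ s) (hk' : s < c.t (k + 1)) :
    ET A (stateAt c s) = c.t (k + 1) - s ∧
      CF A (stateAt c s) = stateAt c (c.t (k + 1)) := by
  obtain ⟨-, -, -, g4, -, -, -, -, -, -, g11⟩ := h1 A hA
  have hadm := (hS A hA c).1 s
  obtain ⟨e1, e2⟩ := stateAt_of hk hk'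
  set p := stateAt c s with hp
  set i := c.side (k + 1) with hi
  set T := c.t (k + 1) - s with hT
  have hTpos : 0 < T := sub_pos.2 hk'
  -- position of the next collision
  have hq : p.1 + T • (p.2 : Plane) = c.q (k + 1) := by
    rw [e1, e2, add_assoc, ← add_smul]
    have : s - c.t k + T = c.t (k + 1) - c.t k := by rw [hT]; ring
    rw [this, vel_smul]; abel
  have hmem := c.mem_side (k + 1)
  rw [g11, ← hq, ← hi] at hmem
  obtain ⟨m1, m2⟩ := hmem
  rw [g4] at m1
  have hpos : 0 < cd A i p.1 := by
    rcases hadm i with h | ⟨h, h'⟩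
    · exact h
    · exfalso
      rw [h, zero_add] at m1
      have := mul_pos hTpos h'
      linarith
  have hneg : ld A i (p.2 : Plane) < 0 := by
    by_contra h
    push Not at h
    have := mul_nonneg hTpos.le h
    linarith
  have htm : tm A i p = T := by
    unfold tm
    rw [div_eq_iff (by linarith)]
    linarith
  have hex : Ex A i p := by
    refine ⟨hneg, fun j hj hj' => ?_⟩
    have h := m2 j hj
    rw [g4] at h
    rw [htm]
    unfold tm
    rw [lt_div_iff₀ (by linarith)]
    linarith
  refine ⟨by rw [ET_eq hex, htm], ?_⟩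
  rw [CF_eq hex]
  obtain ⟨f1, f2⟩ := stateAt_of (c := c) (s := c.t (k + 1)) (k := k + 1) le_rfl (t_lt c (k + 1))
  refine Prod.ext ?_ (Subtype.ext ?_)
  · rw [f1, sub_self, zero_smul, add_zero, Hit, htm]; exact hq
  · rw [f2, vel_succ]
    show mirror (sideVec A i) (p.2 : Plane) = _
    rw [e2]

/-- `n`-th collision time -/
def Sn (A : Fin 3 → Plane) (n : ℕ) (p : Phase) : ℝ :=
  ∑ m ∈ Finset.range n, ET A ((CF A)^[m] p)

lemma Sn_meas (hc : ∀ i, Continuous (cd A i)) (hl : ∀ i, Continuous (ld A i)) (n : ℕ) :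
    Measurable (Sn A n) := by
  unfold Sn
  refine Finset.measurable_sum _ fun m _ => ?_
  exact (ET_meas hc hl).comp ((CF_meas hc hl).iterate m)

/-- iterates of the collision map along a chain -/
lemma chain_iter (h1 : StG1) (hS : StState) (hA : AffineIndependent ℝ A) (c : Chain A) (n : ℕ) :
    Sn A (n + 1) (stateAt c 0) = c.t (n + 1) ∧
      (CF A)^[n + 1] (stateAt c 0) = stateAt c (c.t (n + 1)) := by
  induction n with
  | zero =>
    have h := chain_exit h1 hS hA c (s := 0) (k := 0) c.t_zero_le (by simpa using c.t_one_pos)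
    simp only [Sn, zero_add, Finset.sum_range_one, Function.iterate_zero, id_eq,
      Function.iterate_one, Nat.cast_zero]
    simpa using h
  | succ n ih =>
    have h := chain_exit h1 hS hA c (s := c.t ((n : ℤ) + 1)) (k := (n : ℤ) + 1) le_rfl
      (t_lt c _)
    obtain ⟨ih1, ih2⟩ := ih
    have e : ((n + 1 : ℕ) : ℤ) + 1 = (n : ℤ) + 1 + 1 := by push_cast; ring
    refine ⟨?_, ?_⟩
    · have : Sn A (n + 1 + 1) (stateAt c 0)
          = Sn A (n + 1) (stateAt c 0) + ET A ((CF A)^[n + 1] (stateAt c 0)) := by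
        simp only [Sn]; rw [Finset.sum_range_succ]
      rw [this, ih1, ih2, h.1, e]; ring
    · rw [Function.iterate_succ_apply', ih2, h.2, e]

/-- the position formula after `n` collisions -/
def fml (A : Fin 3 → Plane) (n : ℕ) (x : ℝ × (Phase × Bool)) : Phase × Bool :=
  ((((CF A)^[n] x.2.1).1 + (x.1 - Sn A n x.2.1) • (((CF A)^[n] x.2.1).2 : Plane),
    ((CF A)^[n] x.2.1).2), xor x.2.2 (decide (Odd (n : ℤ))))

lemma fml_meas (hc : ∀ i, Continuous (cd A i)) (hl : ∀ i, Continuous (ld A i)) (n : ℕ) :
    Measurable (fml A n) := by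
  have h1 : Measurable fun x : ℝ × (Phase × Bool) => (CF A)^[n] x.2.1 :=
    ((CF_meas hc hl).iterate n).comp (measurable_fst.comp measurable_snd)
  have h2 : Measurable fun x : ℝ × (Phase × Bool) => Sn A n x.2.1 :=
    (Sn_meas hc hl n).comp (measurable_fst.comp measurable_snd)
  have h3 : Measurable fun x : ℝ × (Phase × Bool) => x.2.2 := measurable_snd.comp measurable_snd
  unfold fml
  refine Measurable.prodMk (Measurable.prodMk ?_ ?_) ?_
  · exact (measurable_fst.comp h1).add ((measurable_fst.sub h2).smul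
      (measurable_subtype_coe.comp (measurable_snd.comp h1)))
  · exact measurable_snd.comp h1
  · exact (measurable_of_countable fun b : Bool => xor b (decide (Odd (n : ℤ)))).comp h3

lemma flow_formula (h1 : StG1) (hS : StState) (hE : StExist) (hA : AffineIndependent ℝ A)
    {z : Phase × Bool} (hz : OK A z.1) {t : ℝ} (ht : 0 ≤ t) {n : ℕ}
    (hn : Sn A n z.1 ≤ t) (hn' : t < Sn A (n + 1) z.1) :
    flowM A t z = fml A n (t, z) := by
  have hg : OK A z.1 ∧ Good A z.1 := ⟨hz, hE A hA _ hz⟩
  set c := chainOf A z.1 hg.2 with hc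
  have hthr : z.1 = stateAt c 0 := (through_iff c z.1).1 hg.2.choose_spec
  have hF : flowP A t z.1 = stateAt c t := by rw [flowP, dif_pos hg]
  have hP : par A t z.1 = decide (Odd (idx c t)) := by rw [par, dif_pos hg]
  rw [flowM, hF, hP]
  -- the index is `n`
  have hidx : idx c t = n := by
    rcases n with _ | n
    · apply idx_unique c (by simpa using c.t_zero_le.trans ht)
      have := (chain_iter h1 hS hA c 0).1
      rw [← hthr] at this
      rw [this] at hn'
      simpa using hn'
    · have a := (chain_iter h1 hS hA c n).1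
      have b := (chain_iter h1 hS hA c (n + 1)).1
      rw [← hthr] at a b
      rw [a] at hn
      rw [b] at hn'
      apply idx_unique c
      · push_cast; exact hn
      · push_cast at hn' ⊢; exact hn'
  have hstate : stateAt c t = (fml A n (t, z)).1 := by
    rcases n with _ | n
    · have hk : c.t 0 ≤ t := c.t_zero_le.trans ht
      have hk' : t < c.t (0 + 1) := by
        have := lt_idx c t
        rw [hidx] at this; simpa using this
      obtain ⟨e1, e2⟩ := stateAt_of hk hk'
      obtain ⟨f1, f2⟩ := stateAt_of (c := c) (s := 0) (k := 0) c.t_zero_le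
        (by simpa using c.t_one_pos)
      rw [← hthr] at f1 f2
      refine Prod.ext ?_ (Subtype.ext ?_)
      · simp only [fml, Function.iterate_zero, id_eq, Sn, Finset.range_zero, Finset.sum_empty]
        rw [e1, f2, f1, add_assoc, ← add_smul]
        congr 2; ring
      · simp only [fml, Function.iterate_zero, id_eq]
        rw [e2, f2]
    · obtain ⟨a, b⟩ := chain_iter h1 hS hA c n
      rw [← hthr] at a b
      have hk : c.t ((n : ℤ) + 1) ≤ t := by
        have := idx_le c t
        rw [hidx] at this; push_cast at this; exact this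
      have hk' : t < c.t ((n : ℤ) + 1 + 1) := by
        have := lt_idx c t
        rw [hidx] at this; push_cast at this; exact this
      obtain ⟨e1, e2⟩ := stateAt_of hk hk'
      obtain ⟨f1, f2⟩ := stateAt_of (c := c) (s := c.t ((n : ℤ) + 1)) (k := (n : ℤ) + 1) le_rfl
        (t_lt c _)
      refine Prod.ext ?_ (Subtype.ext ?_)
      · simp only [fml]
        rw [a, b, e1, f2, f1, sub_self, zero_smul, add_zero]
      · simp only [fml]
        rw [b, e2, f2]
  refine Prod.ext hstate ?_
  rw [hidx]; rfl

lemma exists_n (h1 : StG1) (hS : StState) (hE : StExist) (hA : AffineIndependent ℝ A)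
    {p : Phase} (hz : OK A p) {t : ℝ} (ht : 0 ≤ t) :
    ∃ n : ℕ, Sn A n p ≤ t ∧ t < Sn A (n + 1) p := by
  obtain ⟨c, hc⟩ := hE A hA _ hz
  have hthr : p = stateAt c 0 := (through_iff c p).1 hc
  have hi0 : 0 ≤ idx c t := by
    by_contra h
    push Not at h
    have h2 := lt_idx c t
    have h3 : c.t (idx c t + 1) ≤ c.t 0 := c.strictMono_t.monotone (by omega)
    have := c.t_zero_le
    linarith
  obtain ⟨n, hn⟩ := Int.eq_ofNat_of_zero_le hi0
  refine ⟨n, ?_, ?_⟩
  · rcases n with _ | n
    · simpa [Sn] using ht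
    · rw [hthr, (chain_iter h1 hS hA c n).1]
      have := idx_le c t
      rw [hn] at this; push_cast at this; exact this
  · rw [hthr, (chain_iter h1 hS hA c n).1]
    have := lt_idx c t
    rw [hn] at this; exact this

/-- measurability for non-negative times -/
lemma meas_pos (h1 : StG1) (hS : StState) (hE : StExist) (hAe : StAe)
    (hA : AffineIndependent ℝ A) :
    Measurable (fun x : ℝ × (Phase × Bool) => flowM A |x.1| x.2) := by
  obtain ⟨-, -, -, -, -, -, -, hc, hl, -, -⟩ := h1 A hA
  have hOK : MeasurableSet {p | OK A p} := (hAe A hA).2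
  intro B hB
  have hOK' : MeasurableSet {x : ℝ × (Phase × Bool) | OK A x.2.1} :=
    (measurable_fst.comp measurable_snd) hOK
  let ab : ℝ × (Phase × Bool) → ℝ × (Phase × Bool) := fun x => (|x.1|, x.2)
  have hab : Measurable ab := (measurable_fst.abs).prodMk measurable_snd
  have e : (fun x : ℝ × (Phase × Bool) => flowM A |x.1| x.2) ⁻¹' B
      = ({x : ℝ × (Phase × Bool) | OK A x.2.1}ᶜ ∩ Prod.snd ⁻¹' B) ∪
        ⋃ n : ℕ, ({x : ℝ × (Phase × Bool) | OK A x.2.1} ∩
          ({x | Sn A n x.2.1 ≤ |x.1|} ∩ {x | |x.1| < Sn A (n + 1) x.2.1}) ∩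
          (ab ⁻¹' (fml A n ⁻¹' B))) := by
    ext x
    simp only [Set.mem_preimage, Set.mem_union, Set.mem_inter_iff, Set.mem_compl_iff,
      Set.mem_setOf_eq, Set.mem_iUnion]
    by_cases hx : OK A x.2.1
    · constructor
      · intro hB'
        right
        obtain ⟨n, hn, hn'⟩ := exists_n h1 hS hE hA hx (abs_nonneg x.1)
        refine ⟨n, ⟨hx, hn, hn'⟩, ?_⟩
        rw [flow_formula h1 hS hE hA hx (abs_nonneg x.1) hn hn'] at hB'
        exact hB'
      · rintro (⟨h, -⟩ | ⟨n, ⟨-, hn, hn'⟩, hB'⟩)
        · exact absurd hx h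
        · rw [flow_formula h1 hS hE hA hx (abs_nonneg x.1) hn hn']
          exact hB'
    · have hfl : flowM A |x.1| x.2 = x.2 := by
        have hn : ¬ (OK A x.2.1 ∧ Good A x.2.1) := fun h => hx h.1
        unfold flowM flowP par
        rw [dif_neg hn, dif_neg hn]
        simp
      rw [hfl]
      constructor
      · intro h; exact Or.inl ⟨hx, h⟩
      · rintro (⟨-, h⟩ | ⟨n, ⟨h, -⟩, -⟩)
        · exact h
        · exact absurd h hx
  rw [e]
  refine (hOK'.compl.inter (measurable_snd hB)).union (MeasurableSet.iUnion fun n => ?_)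
  refine (hOK'.inter (MeasurableSet.inter ?_ ?_)).inter (hab (fml_meas hc hl n hB))
  · exact measurableSet_le ((Sn_meas hc hl n).comp (measurable_fst.comp measurable_snd))
      measurable_fst.abs
  · exact measurableSet_lt measurable_fst.abs
      ((Sn_meas hc hl (n + 1)).comp (measurable_fst.comp measurable_snd))

end FM

/-- H7 -/
theorem meas (h1 : StG1) (hS : StState) (hE : StExist) (hAe : StAe) (hF : StFlow) : StMeas := by
  intro A hA
  obtain ⟨f0, fadd, -, -⟩ := hF A hA
  have hpos := FM.meas_pos h1 hS hE hAe hA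
  haveI : PolishSpace ↥(Metric.sphere (0 : Plane) 1) :=
    Metric.isClosed_sphere.polishSpace
  haveI : StandardBorelSpace (ℝ × (Phase × Bool)) := inferInstance
  let Θ : ℝ × (Phase × Bool) → ℝ × (Phase × Bool) := fun x => (x.1, flowM A |x.1| x.2)
  let Θ' : ℝ × (Phase × Bool) → ℝ × (Phase × Bool) := fun x => (x.1, flowM A (-|x.1|) x.2)
  have hΘ : Measurable Θ := measurable_fst.prodMk hpos
  have hl : ∀ x, Θ' (Θ x) = x := by
    intro x
    show (x.1, flowM A (-|x.1|) (flowM A |x.1| x.2)) = x
    rw [← fadd, neg_add_cancel, f0]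
  have hr : ∀ x, Θ (Θ' x) = x := by
    intro x
    show (x.1, flowM A |x.1| (flowM A (-|x.1|) x.2)) = x
    rw [← fadd, add_neg_cancel, f0]
  have hemb : MeasurableEmbedding Θ :=
    hΘ.measurableEmbedding (Function.LeftInverse.injective hl)
  have hΘ' : Measurable Θ' := by
    intro B hB
    have : Θ' ⁻¹' B = Θ '' B := by
      ext x
      constructor
      · intro hx; exact ⟨Θ' x, hx, hr x⟩
      · rintro ⟨y, hy, rfl⟩
        show Θ' (Θ y) ∈ B
        rw [hl]; exact hy
    rw [this]
    exact hemb.measurableSet_image.2 hB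
  have hneg : Measurable (fun x : ℝ × (Phase × Bool) => flowM A (-|x.1|) x.2) :=
    measurable_snd.comp hΘ'
  have e : (fun p : ℝ × (Phase × Bool) => flowM A p.1 p.2)
      = fun p => if 0 ≤ p.1 then flowM A |p.1| p.2 else flowM A (-|p.1|) p.2 := by
    funext p
    by_cases h : 0 ≤ p.1
    · rw [if_pos h, abs_of_nonneg h]
    · rw [if_neg h, abs_of_neg (not_le.1 h), neg_neg]
  rw [e]
  exact Measurable.ite (measurableSet_le measurable_const measurable_fst) hpos hneg

end Crest.Agent.R103
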