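import Mathlib
import Crest.Prelude.Def_Billiard

/-!
# R103: base geometry of the triangle

Barycentric coordinates `d i`, their linear parts `bt i`, the reflection in side `i` (`sg i`),
the quarter turn `J` and rotations `rt a` of the plane.
-/

open MeasureTheory Filter Topology Crest.AnalysisR.Billiard

noncomputable section

namespace Crest.Agent.R103.Geo

variable {A : Fin 3 → Plane} (hA : AffineIndependent ℝ A)

/-- the affine basis of the plane given by the vertices -/
def basis : AffineBasis (Fin 3) ℝ Plane :=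
  ⟨A, hA, by
    refine hA.affineSpan_eq_top_iff_card_eq_finrank_add_one.2 ?_
    simp⟩

/-- barycentric coordinate `i` -/
def d (i : Fin 3) (x : Plane) : ℝ := (basis hA).coord i x

/-- linear part of the barycentric coordinate `i` -/
def bt (i : Fin 3) : Plane →ₗ[ℝ] ℝ := ((basis hA).coord i).linear

lemma d_add (i : Fin 3) (x v : Plane) : d hA i (x + v) = d hA i x + bt hA i v := by
  have := ((basis hA).coord i).map_vadd x v
  simp only [vadd_eq_add] at this
  rw [add_comm x v, d, this, add_comm]; rfl

lemma d_sub (i : Fin 3) (x y : Plane) : d hA i x - d hA i y = bt hA i (x - y) := by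
  have := d_add hA i y (x - y)
  rw [add_sub_cancel] at this
  linarith

lemma d_vertex (i j : Fin 3) : d hA i (A j) = if i = j then 1 else 0 := by
  have := (basis hA).coord_apply i j
  exact this

lemma d_vertex_self (i : Fin 3) : d hA i (A i) = 1 := by simp [d_vertex]

lemma d_vertex_ne {i j : Fin 3} (h : i ≠ j) : d hA i (A j) = 0 := by simp [d_vertex, h]

lemma sum_d (x : Plane) : ∑ i, d hA i x = 1 := (basis hA).sum_coord_apply_eq_one x

lemma sum_d' (i : Fin 3) (x : Plane) : d hA i x + d hA (i + 1) x + d hA (i + 2) x = 1 := by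
  have := sum_d hA x
  rw [Fin.sum_univ_three] at this
  fin_cases i
  · exact this
  · have : d hA 1 x + d hA 2 x + d hA 0 x = 1 := by linarith
    exact this
  · have : d hA 2 x + d hA 0 x + d hA 1 x = 1 := by linarith
    exact this

lemma sum_bt (i : Fin 3) (v : Plane) : bt hA i v + bt hA (i + 1) v + bt hA (i + 2) v = 0 := by
  have h1 := sum_d' hA i 0
  have h2 := sum_d' hA i (0 + v)
  rw [d_add, d_add, d_add] at h2
  linarith

lemma ext_d {x y : Plane} (h : ∀ i, d hA i x = d hA i y) : x = y :=
  (basis hA).ext_elem h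

lemma ext_bt {v w : Plane} (h : ∀ i, bt hA i v = bt hA i w) : v = w := by
  have : (0 : Plane) + v = 0 + w := ext_d hA fun i => by rw [d_add, d_add, h i]
  simpa using this

lemma fin3_cases (i j : Fin 3) : j = i ∨ j = i + 1 ∨ j = i + 2 := by
  fin_cases i <;> fin_cases j <;> decide

lemma ext_bt' (i : Fin 3) {v w : Plane} (h1 : bt hA i v = bt hA i w)
    (h2 : bt hA (i + 1) v = bt hA (i + 1) w) : v = w := by
  refine ext_bt hA fun j => ?_
  rcases fin3_cases i j with rfl | rfl | rfl
  · exact h1
  · exact h2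
  · have a := sum_bt hA i v
    have b := sum_bt hA i w
    linarith

lemma fin3_ne1 (i : Fin 3) : i ≠ i + 1 := by fin_cases i <;> decide
lemma fin3_ne2 (i : Fin 3) : i ≠ i + 2 := by fin_cases i <;> decide
lemma fin3_ne12 (i : Fin 3) : i + 1 ≠ i + 2 := by fin_cases i <;> decide

lemma bt_sideVec (i : Fin 3) : bt hA i (sideVec A i) = 0 := by
  rw [sideVec, ← d_sub, d_vertex_ne hA (fin3_ne2 i), d_vertex_ne hA (fin3_ne1 i)]; simp

lemma bt_sideVec1 (i : Fin 3) : bt hA (i + 1) (sideVec A i) = -1 := by
  rw [sideVec, ← d_sub, d_vertex_ne hA (fin3_ne12 i), d_vertex_self]; simp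

lemma bt_sideVec2 (i : Fin 3) : bt hA (i + 2) (sideVec A i) = 1 := by
  rw [sideVec, ← d_sub, d_vertex_self, d_vertex_ne hA (fin3_ne12 i).symm]; simp

include hA in
lemma sideVec_ne_zero (i : Fin 3) : sideVec A i ≠ 0 := by
  intro h
  have := bt_sideVec2 hA i
  rw [h, map_zero] at this
  exact zero_ne_one this

lemma eq_smul_sideVec (i : Fin 3) {v : Plane} (h : bt hA i v = 0) :
    v = bt hA (i + 2) v • sideVec A i := by
  refine ext_bt' hA i ?_ ?_
  · rw [map_smul, bt_sideVec, h]; simp
  · rw [map_smul, bt_sideVec1]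
    have := sum_bt hA i v
    simp only [smul_eq_mul]
    linarith

/-- the open triangle -/
def tri : Set Plane := {x | ∀ i, 0 < d hA i x}

lemma interior_eq : interior (convexHull ℝ (Set.range A)) = tri hA :=
  (basis hA).interior_convexHull

lemma continuous_d (i : Fin 3) : Continuous (d hA i) :=
  ((basis hA).coord i).continuous_of_finiteDimensional

lemma continuous_bt (i : Fin 3) : Continuous (bt hA i) :=
  (bt hA i).continuous_of_finiteDimensional

lemma mem_openSide (i : Fin 3) (x : Plane) :
    x ∈ openSide A i ↔ d hA i x = 0 ∧ 0 < d hA (i + 1) x ∧ 0 < d hA (i + 2) x := by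
  have key : ∀ s : ℝ, (AffineMap.lineMap (A (i + 1)) (A (i + 2)) s : Plane)
      = A (i + 1) + s • sideVec A i := by
    intro s
    simp [AffineMap.lineMap_apply, sideVec, add_comm]
  constructor
  · rintro ⟨s, hs, rfl⟩
    simp only [key]
    rw [d_add, d_add, d_add, map_smul, map_smul, map_smul, bt_sideVec, bt_sideVec1, bt_sideVec2,
      d_vertex_ne hA (fin3_ne1 i), d_vertex_self, d_vertex_ne hA (fin3_ne12 i).symm]
    simp only [smul_eq_mul]
    refine ⟨by ring, ?_, ?_⟩
    · linarith [hs.2]
    · linarith [hs.1]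
  · rintro ⟨h0, h1, h2⟩
    refine ⟨d hA (i + 2) x, ⟨h2, ?_⟩, ?_⟩
    · have := sum_d' hA i x; linarith
    · simp only [key]
      have hb : bt hA i (x - A (i + 1)) = 0 := by
        rw [← d_sub, h0, d_vertex_ne hA (fin3_ne1 i)]; simp
      have := eq_smul_sideVec hA i hb
      have h3 : bt hA (i + 2) (x - A (i + 1)) = d hA (i + 2) x := by
        rw [← d_sub, d_vertex_ne hA (fin3_ne12 i).symm]; simp
      rw [h3] at this
      rw [← this]; abel

/-! ## mirror images -/

lemma mirror_add (e v w : Plane) : mirror e (v + w) = mirror e v + mirror e w := by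
  simp only [mirror, inner_add_left, mul_add, add_div, add_smul]; abel

lemma mirror_smul (e v : Plane) (c : ℝ) : mirror e (c • v) = c • mirror e v := by
  simp only [mirror, inner_smul_left, smul_sub, smul_smul]
  congr 2
  simp; ring

lemma mirror_neg (e v : Plane) : mirror e (-v) = -mirror e v := by
  have := mirror_smul e v (-1)
  simpa using this

lemma mirror_sub (e v w : Plane) : mirror e (v - w) = mirror e v - mirror e w := by
  rw [sub_eq_add_neg, mirror_add, mirror_neg, ← sub_eq_add_neg]

lemma mirror_zero (e : Plane) : mirror e 0 = 0 := by simp [mirror]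

lemma mirror_self {e : Plane} (he : e ≠ 0) : mirror e e = e := by
  have h : inner ℝ e e ≠ 0 := by simpa using he
  rw [mirror, mul_div_assoc, div_self h, mul_one, two_smul]; abel

lemma mirror_mirror {e : Plane} (he : e ≠ 0) (v : Plane) : mirror e (mirror e v) = v := by
  have : mirror e v = (2 * inner ℝ v e / inner ℝ e e) • e - v := rfl
  rw [this, mirror_sub, mirror_smul, mirror_self he]
  simp [mirror]

lemma inner_mirror {e : Plane} (he : e ≠ 0) (v w : Plane) :
    inner ℝ (mirror e v) (mirror e w) = inner ℝ v w := by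
  have h : inner ℝ e e ≠ 0 := by simpa using he
  simp only [mirror, inner_sub_left, inner_sub_right, inner_smul_left, inner_smul_right]
  rw [real_inner_comm w e]
  simp
  field_simp
  ring

lemma norm_mirror {e : Plane} (he : e ≠ 0) (v : Plane) : ‖mirror e v‖ = ‖v‖ := by
  have := inner_mirror he v v
  rw [real_inner_self_eq_norm_sq, real_inner_self_eq_norm_sq] at this
  exact (sq_eq_sq₀ (norm_nonneg _) (norm_nonneg _)).1 this

lemma continuous_mirror (e : Plane) : Continuous (mirror e) := by
  unfold mirror; fun_prop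

lemma bt_mirror (i : Fin 3) (v : Plane) :
    bt hA i (mirror (sideVec A i) v) = -bt hA i v := by
  rw [mirror, map_sub, map_smul, bt_sideVec]; simp

/-! ## quarter turn and rotations -/

/-- quarter turn -/
def J (v : Plane) : Plane := !₂[-v 1, v 0]

@[simp] lemma J_zero' (v : Plane) : J v 0 = -v 1 := by simp [J]
@[simp] lemma J_one' (v : Plane) : J v 1 = v 0 := by simp [J]

lemma J_J (v : Plane) : J (J v) = -v := by
  ext i; fin_cases i <;> simp [J]

lemma J_add (v w : Plane) : J (v + w) = J v + J w := by
  ext i; fin_cases i <;> simp [J]; ring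

lemma J_smul (c : ℝ) (v : Plane) : J (c • v) = c • J v := by
  ext i; fin_cases i <;> simp [J]

lemma J_neg (v : Plane) : J (-v) = -J v := by
  ext i; fin_cases i <;> simp [J]

lemma J_sub (v w : Plane) : J (v - w) = J v - J w := by
  ext i; fin_cases i <;> simp [J]; ring

lemma inner_eq (v w : Plane) : inner ℝ v w = v 0 * w 0 + v 1 * w 1 := by
  rw [PiLp.inner_apply, Fin.sum_univ_two]; simp [mul_comm]

lemma inner_J (v w : Plane) : inner ℝ (J v) (J w) = inner ℝ v w := by
  rw [inner_eq, inner_eq]; simp; ring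

lemma inner_J_self (v : Plane) : inner ℝ v (J v) = (0 : ℝ) := by
  rw [inner_eq]; simp; ring

lemma norm_J (v : Plane) : ‖J v‖ = ‖v‖ := by
  have := inner_J v v
  rw [real_inner_self_eq_norm_sq, real_inner_self_eq_norm_sq] at this
  exact (sq_eq_sq₀ (norm_nonneg _) (norm_nonneg _)).1 this

lemma continuous_J : Continuous J := by
  unfold J
  refine (PiLp.continuous_toLp 2 _).comp ?_
  refine continuous_pi fun i => ?_
  fin_cases i <;> simp <;> fun_prop

/-- the mirror anticommutes with the quarter turn -/
lemma mirror_J {e : Plane} (he : e ≠ 0) (v : Plane) : mirror e (J v) = -J (mirror e v) := by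
  have h : e 0 * e 0 + e 1 * e 1 ≠ 0 := by
    rw [← inner_eq]; simpa using he
  have key : mirror e = fun v => (2 * (v 0 * e 0 + v 1 * e 1) / (e 0 * e 0 + e 1 * e 1)) • e - v := by
    funext v; rw [mirror, inner_eq, inner_eq]
  have h2 : e 0 ^ 2 + e 1 ^ 2 ≠ 0 := by rwa [pow_two, pow_two]
  have h3 : e 1 ^ 2 + e 0 ^ 2 ≠ 0 := by rwa [add_comm]
  rw [key]
  ext i
  fin_cases i <;> simp [J] <;> field_simp <;> ring

/-- rotation by the angle `a` -/
def rt (a : ℝ) (v : Plane) : Plane := Real.cos a • v + Real.sin a • J v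

lemma rt_zero (v : Plane) : rt 0 v = v := by simp [rt]

lemma rt_add (a b : ℝ) (v : Plane) : rt (a + b) v = rt a (rt b v) := by
  simp only [rt, J_add, J_smul, J_J, Real.cos_add, Real.sin_add]
  module

lemma rt_two_pi (v : Plane) : rt (2 * Real.pi) v = v := by simp [rt]

lemma rt_pi (v : Plane) : rt Real.pi v = -v := by simp [rt]

lemma rt_vadd (a : ℝ) (v w : Plane) : rt a (v + w) = rt a v + rt a w := by
  simp only [rt, J_add]; module

lemma rt_smul (a c : ℝ) (v : Plane) : rt a (c • v) = c • rt a v := by
  simp only [rt, J_smul]; module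

lemma inner_rt (a : ℝ) (v w : Plane) : inner ℝ (rt a v) (rt a w) = inner ℝ v w := by
  have h := Real.sin_sq_add_cos_sq a
  rw [inner_eq, inner_eq]
  simp [rt]
  linear_combination (v 0 * w 0 + v 1 * w 1) * h

lemma norm_rt (a : ℝ) (v : Plane) : ‖rt a v‖ = ‖v‖ := by
  have := inner_rt a v v
  rw [real_inner_self_eq_norm_sq, real_inner_self_eq_norm_sq] at this
  exact (sq_eq_sq₀ (norm_nonneg _) (norm_nonneg _)).1 this

lemma mirror_rt {e : Plane} (he : e ≠ 0) (a : ℝ) (v : Plane) :
    mirror e (rt a v) = rt (-a) (mirror e v) := by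
  rw [rt, rt, mirror_add, mirror_smul, mirror_smul, mirror_J he, Real.cos_neg, Real.sin_neg]
  module

lemma continuous_rt : Continuous fun p : ℝ × Plane => rt p.1 p.2 := by
  unfold rt
  have := continuous_J
  fun_prop

/-! ## reflection in a side -/

/-- reflection in the line of side `i` -/
def sg (A : Fin 3 → Plane) (i : Fin 3) (x : Plane) : Plane :=
  A (i + 1) + mirror (sideVec A i) (x - A (i + 1))

lemma sg_add (i : Fin 3) (x v : Plane) : sg A i (x + v) = sg A i x + mirror (sideVec A i) v := by
  rw [sg, sg, add_sub_right_comm, mirror_add]; abel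

lemma sg_sub (i : Fin 3) (x y : Plane) :
    sg A i x - sg A i y = mirror (sideVec A i) (x - y) := by
  have := sg_add (A := A) i y (x - y)
  rw [add_sub_cancel] at this
  rw [this]; abel

include hA in
lemma sg_sg (i : Fin 3) (x : Plane) : sg A i (sg A i x) = x := by
  rw [sg, sg, add_sub_cancel_left, mirror_mirror (sideVec_ne_zero hA i)]; abel

include hA in
lemma dist_sg (i : Fin 3) (x y : Plane) : dist (sg A i x) (sg A i y) = dist x y := by
  rw [dist_eq_norm, sg_sub, norm_mirror (sideVec_ne_zero hA i), dist_eq_norm]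

lemma d_sg (i : Fin 3) (x : Plane) : d hA i (sg A i x) = -d hA i x := by
  rw [sg, d_add, bt_mirror, d_vertex_ne hA (fin3_ne1 i), ← d_sub, d_vertex_ne hA (fin3_ne1 i)]
  ring

lemma sg_fix (i : Fin 3) {x : Plane} (h : d hA i x = 0) : sg A i x = x := by
  have hb : bt hA i (x - A (i + 1)) = 0 := by
    rw [← d_sub, h, d_vertex_ne hA (fin3_ne1 i)]; simp
  rw [sg, eq_smul_sideVec hA i hb, mirror_smul, mirror_self (sideVec_ne_zero hA i),
    ← eq_smul_sideVec hA i hb]
  abel

lemma continuous_sg (i : Fin 3) : Continuous (sg A i) := by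
  unfold sg
  exact continuous_const.add ((continuous_mirror _).comp (by fun_prop))

end Crest.Agent.R103.Geo
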