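import Crest.Agent.R103.IfaceG
import Crest.Agent.R103.Geo0

/-!
# R103, G1: barycentric coordinates by cross products
-/

open MeasureTheory Filter Topology
open Crest.AnalysisR.Billiard

noncomputable section

namespace Crest.Agent.R103.GeoBary

variable {A : Fin 3 → Plane} (hA : AffineIndependent ℝ A)

lemma cr_rot (A : Fin 3 → Plane) (i : Fin 3) :
    cr (A (i + 1) - A i) (A (i + 2) - A i) = Dt A := by
  fin_cases i <;> simp [cr, Dt] <;> ring

lemma comb (i : Fin 3) (x : Plane) :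
    Geo.d hA i x • A i + Geo.d hA (i + 1) x • A (i + 1) + Geo.d hA (i + 2) x • A (i + 2) = x := by
  have h := (Geo.basis hA).linear_combination_coord_eq_self x
  rw [Fin.sum_univ_three] at h
  have h' : Geo.d hA 0 x • A 0 + Geo.d hA 1 x • A 1 + Geo.d hA 2 x • A 2 = x := h
  fin_cases i
  · exact h'
  · have : Geo.d hA 1 x • A 1 + Geo.d hA 2 x • A 2 + Geo.d hA 0 x • A 0 = x := by
      rw [add_comm, ← add_assoc]; exact h'
    exact this
  · have : Geo.d hA 2 x • A 2 + Geo.d hA 0 x • A 0 + Geo.d hA 1 x • A 1 = x := by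
      rw [add_assoc, add_comm]; exact h'
    exact this

lemma cr_eq (i : Fin 3) (x : Plane) :
    cr (A (i + 1) - x) (A (i + 2) - x) = Geo.d hA i x * Dt A := by
  have hs := Geo.sum_d' hA i x
  have hc := comb hA i x
  have h0 := congrArg (fun y : Plane => y 0) hc
  have h1 := congrArg (fun y : Plane => y 1) hc
  simp only [PiLp.add_apply, PiLp.smul_apply, smul_eq_mul] at h0 h1
  rw [← cr_rot A i]
  simp only [cr, PiLp.sub_apply]
  rw [← h0, ← h1]
  have ha : Geo.d hA (i + 2) x = 1 - Geo.d hA i x - Geo.d hA (i + 1) x := by linarith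
  rw [ha]
  ring

include hA in
lemma Dt_ne : Dt A ≠ 0 := by
  intro h
  have hne : A 1 ≠ A 2 := fun e => by
    have := hA.injective e
    exact absurd this (by decide)
  have key := cr_eq hA 0 (A 1 + J (A 2 - A 1))
  rw [h, mul_zero] at key
  have e1 : (0 : Fin 3) + 1 = 1 := rfl
  have e2 : (0 : Fin 3) + 2 = 2 := rfl
  rw [e1, e2] at key
  simp only [cr, PiLp.sub_apply, PiLp.add_apply, J_zero, J_one] at key
  apply hne
  have h2 : (A 2 0 - A 1 0) ^ 2 + (A 2 1 - A 1 1) ^ 2 = 0 := by nlinarith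
  have h3 : A 2 0 - A 1 0 = 0 := by nlinarith [sq_nonneg (A 2 0 - A 1 0), sq_nonneg (A 2 1 - A 1 1)]
  have h4 : A 2 1 - A 1 1 = 0 := by nlinarith [sq_nonneg (A 2 0 - A 1 0), sq_nonneg (A 2 1 - A 1 1)]
  ext j
  fin_cases j
  · simp only [Fin.zero_eta, Fin.isValue]; linarith
  · simp only [Fin.mk_one, Fin.isValue]; linarith

lemma cd_eq (i : Fin 3) (x : Plane) : cd A i x = Geo.d hA i x := by
  rw [cd, cr_eq hA, mul_div_assoc, div_self (Dt_ne hA), mul_one]

lemma ld_eq (i : Fin 3) (v : Plane) : ld A i v = Geo.bt hA i v := by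
  have h := Geo.d_add hA i 0 v
  rw [zero_add] at h
  have h2 : Geo.bt hA i v = cd A i v - cd A i 0 := by rw [cd_eq hA, cd_eq hA]; linarith
  rw [h2, ld, cd, cd, ← sub_div]
  congr 1
  simp only [cr, sideVec, PiLp.sub_apply, PiLp.zero_apply]
  ring

theorem g1 : StG1 := by
  intro A hA
  have hc := cd_eq hA
  have hl := ld_eq hA
  refine ⟨Dt_ne hA, fun x => ?_, fun v => ?_, fun i x s v => ?_, fun i j => ?_, fun v h => ?_,
    fun x y h => ?_, fun i => ?_, fun i => ?_, ?_, fun i => ?_⟩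
  · rw [hc, hc, hc]; exact Geo.sum_d' hA 0 x
  · rw [hl, hl, hl]; exact Geo.sum_bt hA 0 v
  · rw [hc, hc, hl, Geo.d_add, map_smul, smul_eq_mul]
  · rw [hc]; exact Geo.d_vertex hA i j
  · refine Geo.ext_bt hA fun i => ?_
    rw [← hl, h i, map_zero]
  · refine Geo.ext_d hA fun i => ?_
    rw [← hc, ← hc, h i]
  · have : cd A i = Geo.d hA i := funext fun x => hc i x
    rw [this]; exact Geo.continuous_d hA i
  · have : ld A i = Geo.bt hA i := funext fun x => hl i x
    rw [this]; exact Geo.continuous_bt hA i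
  · rw [Geo.interior_eq hA]
    ext x
    simp only [Geo.tri, Set.mem_setOf_eq, hc]
  · ext x
    rw [Geo.mem_openSide hA]
    simp only [Set.mem_setOf_eq, hc]
    constructor
    · rintro ⟨h0, h1, h2⟩
      refine ⟨h0, fun j hj => ?_⟩
      rcases Geo.fin3_cases i j with rfl | rfl | rfl
      · exact absurd rfl hj
      · exact h1
      · exact h2
    · rintro ⟨h0, h⟩
      exact ⟨h0, h _ (Geo.fin3_ne1 i).symm, h _ (Geo.fin3_ne2 i).symm⟩

end Crest.Agent.R103.GeoBary
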