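import Crest.Agent.R103.IfaceG

/-!
# R103, G2: reflections in the sides of the triangle
-/

open MeasureTheory Filter Topology
open Crest.AnalysisR.Billiard

noncomputable section

namespace Crest.Agent.R103

namespace GeoRefl

lemma inner_eq (u v : Plane) : inner ℝ u v = u 0 * v 0 + u 1 * v 1 := by
  rw [PiLp.inner_apply]
  simp [Fin.sum_univ_two]
  ring

lemma mirror_eq (e v : Plane) :
    mirror e v = (Submodule.span ℝ {e}).reflection v := by
  rw [Submodule.reflection_singleton_apply, mirror, real_inner_comm, real_inner_self_eq_norm_sq,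
    ← Nat.cast_smul_eq_nsmul ℝ, smul_smul]
  simp [mul_div_assoc]

lemma mirror_apply (e v : Plane) (j : Fin 2) :
    mirror e v j = 2 * (v 0 * e 0 + v 1 * e 1) / (e 0 ^ 2 + e 1 ^ 2) * e j - v j := by
  rw [mirror, inner_eq, inner_eq, PiLp.sub_apply, PiLp.smul_apply, smul_eq_mul, pow_two, pow_two]

lemma sq_pos_of_ne {e : Plane} (he : e ≠ 0) : 0 < e 0 ^ 2 + e 1 ^ 2 := by
  have h : 0 < inner ℝ e e := by
    rw [real_inner_self_eq_norm_sq]; positivity
  rwa [inner_eq, ← pow_two, ← pow_two] at h

lemma cr_mirror {e : Plane} (he : e ≠ 0) (v : Plane) : cr e (mirror e v) = - cr e v := by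
  have h := (sq_pos_of_ne he).ne'
  simp only [cr, mirror_apply]
  field_simp
  ring

lemma J_mirror {e : Plane} (he : e ≠ 0) (v : Plane) : J (mirror e v) = - mirror e (J v) := by
  have h := (sq_pos_of_ne he).ne'
  ext j
  fin_cases j
  · show J (mirror e v) 0 = (- mirror e (J v)) 0
    simp only [J_zero, J_one, PiLp.neg_apply, mirror_apply]
    field_simp
    ring
  · show J (mirror e v) 1 = (- mirror e (J v)) 1
    simp only [J_zero, J_one, PiLp.neg_apply, mirror_apply]
    field_simp
    ring

lemma mirror_of_cr_eq_zero {e : Plane} (he : e ≠ 0) {v : Plane} (hv : cr e v = 0) :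
    mirror e v = v := by
  have h := (sq_pos_of_ne he).ne'
  simp only [cr] at hv
  ext j
  fin_cases j
  · show mirror e v 0 = v 0
    rw [mirror_apply]
    field_simp
    linear_combination (2 * e 1) * hv
  · show mirror e v 1 = v 1
    rw [mirror_apply]
    field_simp
    linear_combination (-2 * e 0) * hv

section

variable {A : Fin 3 → Plane}

lemma sideVec_ne_zero (hA : AffineIndependent ℝ A) (i : Fin 3) : sideVec A i ≠ 0 := by
  intro h
  rw [sideVec, sub_eq_zero] at h
  have := hA.injective h
  fin_cases i <;> simp at this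

lemma Dt_eq (i : Fin 3) : Dt A = cr (A (i + 1) - A i) (A (i + 2) - A i) := by
  fin_cases i
  · rfl
  · show cr (A 1 - A 0) (A 2 - A 0) = cr (A 2 - A 1) (A 0 - A 1)
    simp only [cr, PiLp.sub_apply]; ring
  · show cr (A 1 - A 0) (A 2 - A 0) = cr (A 0 - A 2) (A 1 - A 2)
    simp only [cr, PiLp.sub_apply]; ring

lemma Dt_ne_zero (hA : AffineIndependent ℝ A) : Dt A ≠ 0 := by
  intro h
  have hli := (affineIndependent_iff_linearIndependent_vsub ℝ A 0).1 hA
  -- the two vectors `A 1 - A 0`, `A 2 - A 0` are dependent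
  set u : Plane := A 1 - A 0 with hu
  set v : Plane := A 2 - A 0 with hv
  have hu0 : u ≠ 0 := by
    intro h0
    have := hA.injective (sub_eq_zero.1 h0)
    simp at this
  have hcr : u 0 * v 1 - u 1 * v 0 = 0 := h
  -- relation (⟨u,v⟩) u - ⟨u,u⟩ v = 0
  have hrel : (u 0 * v 0 + u 1 * v 1) • u - (u 0 * u 0 + u 1 * u 1) • v = 0 := by
    ext j
    fin_cases j
    · show ((u 0 * v 0 + u 1 * v 1) • u - (u 0 * u 0 + u 1 * u 1) • v) 0 = 0
      simp only [PiLp.sub_apply, PiLp.smul_apply, smul_eq_mul]
      linear_combination (u 1) * hcr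
    · show ((u 0 * v 0 + u 1 * v 1) • u - (u 0 * u 0 + u 1 * u 1) • v) 1 = 0
      simp only [PiLp.sub_apply, PiLp.smul_apply, smul_eq_mul]
      linear_combination (-(u 0)) * hcr
  have hpos := sq_pos_of_ne hu0
  let f : {x : Fin 3 // x ≠ 0} → ℝ := fun x =>
    if x.1 = 1 then (u 0 * v 0 + u 1 * v 1) else - (u 0 * u 0 + u 1 * u 1)
  have hli' := Fintype.linearIndependent_iff.1 hli f
  have hsum : ∑ x : {x : Fin 3 // x ≠ 0}, f x • (A x.1 -ᵥ A 0) = 0 := by
    have key : ∑ x : {x : Fin 3 // x ≠ 0}, f x • (A x.1 -ᵥ A 0)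
        = f ⟨1, by decide⟩ • (A 1 -ᵥ A 0) + f ⟨2, by decide⟩ • (A 2 -ᵥ A 0) := by
      have huniv : (Finset.univ : Finset {x : Fin 3 // x ≠ 0})
          = {⟨1, by decide⟩, ⟨2, by decide⟩} := by decide
      rw [huniv, Finset.sum_insert (by decide), Finset.sum_singleton]
    rw [key]
    simp only [f, vsub_eq_sub]
    rw [← hu, ← hv]
    simp only [if_true]
    rw [if_neg (by decide)]
    rw [neg_smul, ← sub_eq_add_neg]
    exact hrel
  have h2 := hli' hsum ⟨2, by decide⟩
  simp only [f] at h2
  rw [if_neg (by decide)] at h2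
  linarith

lemma cd_eq (i : Fin 3) (x : Plane) :
    cd A i x = cr (sideVec A i) (x - A (i + 1)) / Dt A := by
  rw [cd, sideVec]
  congr 1
  simp only [cr, PiLp.sub_apply]
  ring

lemma refl_sub (i : Fin 3) (x : Plane) :
    refl A i x - A (i + 1) = mirror (sideVec A i) (x - A (i + 1)) := by
  rw [refl]; abel

end

end GeoRefl

open GeoRefl

theorem g2 : StG2 := by
  intro A hA i
  have he := sideVec_ne_zero hA i
  set e := sideVec A i with hedef
  have hinv : ∀ v, mirror e (mirror e v) = v := by
    intro v; rw [mirror_eq, mirror_eq]; exact Submodule.reflection_reflection _ _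
  have hlin : ∀ (a b : ℝ) (u v : Plane), mirror e (a • u + b • v)
      = a • mirror e u + b • mirror e v := by
    intro a b u v; simp only [mirror_eq, map_add, map_smul]
  have hsub : ∀ (u v : Plane), mirror e (u - v) = mirror e u - mirror e v := by
    intro u v; simp only [mirror_eq, map_sub]
  have hnorm : ∀ v, ‖mirror e v‖ = ‖v‖ := by
    intro v; rw [mirror_eq]; exact LinearIsometryEquiv.norm_map _ _
  have hcont : Continuous (mirror e) := by
    have : mirror e = fun v => (Submodule.span ℝ {e}).reflection v := funext (mirror_eq e)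
    rw [this]; exact LinearIsometryEquiv.continuous _
  have hcr : Continuous (refl A i) := by
    unfold refl
    exact continuous_const.add (hcont.comp (continuous_id.sub continuous_const))
  refine ⟨?_, hinv, ?_, hnorm, hlin, ?_, ?_, ?_, ?_, J_mirror he, hcr, hcont, ?_⟩
  · intro x
    rw [refl, refl_sub, hinv]; abel
  · intro x y
    rw [dist_eq_norm, dist_eq_norm]
    have : refl A i x - refl A i y = mirror e (x - y) := by
      rw [refl, refl, add_sub_add_left_eq_sub, ← hsub]; congr 1; abel
    rw [this, hnorm]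
  · intro x s v
    have h1 : x + s • v - A (i + 1) = (1 : ℝ) • (x - A (i + 1)) + s • v := by
      rw [one_smul]; abel
    rw [refl, refl, h1, hlin, one_smul, add_assoc]
  · intro x
    rw [cd_eq, cd_eq, refl_sub, ← hedef, cr_mirror he, neg_div]
  · intro v
    rw [ld, ld, ← hedef, cr_mirror he, neg_div]
  · intro x hx
    rw [cd_eq, div_eq_zero_iff] at hx
    rcases hx with hx | hx
    · rw [refl, mirror_of_cr_eq_zero he hx]; abel
    · exact absurd hx (Dt_ne_zero hA)
  · have h1 : MeasurePreserving (fun x : Plane => x - A (i + 1)) volume volume :=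
      measurePreserving_sub_right volume _
    have h2 : MeasurePreserving (fun x : Plane => (Submodule.span ℝ {e}).reflection x)
        volume volume := LinearIsometryEquiv.measurePreserving _
    have h3 : MeasurePreserving (fun x : Plane => A (i + 1) + x) volume volume :=
      measurePreserving_add_left volume _
    have h4 := h3.comp (h2.comp h1)
    have : refl A i = (fun x : Plane => A (i + 1) + x) ∘
        ((fun x : Plane => (Submodule.span ℝ {e}).reflection x) ∘
          (fun x : Plane => x - A (i + 1))) := by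
      funext x
      simp only [Function.comp, refl]
      rw [mirror_eq]
    rw [this]; exact h4

end Crest.Agent.R103
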