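import Crest.Agent.R103.IfaceG

/-!
# R103, G3: near a point far from the vertices only one side is near; volume near the vertices
-/

open MeasureTheory Filter Topology
open Crest.AnalysisR.Billiard

noncomputable section

namespace Crest.Agent.R103

namespace GV

lemma abs_cr_le (u v : Plane) : |cr u v| ≤ ‖u‖ * ‖v‖ := by
  have hu : ‖u‖ ^ 2 = u 0 ^ 2 + u 1 ^ 2 := by
    rw [EuclideanSpace.norm_sq_eq]; simp [Fin.sum_univ_two]
  have hv : ‖v‖ ^ 2 = v 0 ^ 2 + v 1 ^ 2 := by
    rw [EuclideanSpace.norm_sq_eq]; simp [Fin.sum_univ_two]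
  apply abs_le_of_sq_le_sq _ (by positivity)
  unfold cr
  rw [mul_pow, hu, hv]
  nlinarith [sq_nonneg (u 0 * v 0 + u 1 * v 1)]

lemma abs_ld_le (A : Fin 3 → Plane) (i : Fin 3) (v : Plane) :
    |ld A i v| ≤ (‖sideVec A i‖ / |Dt A|) * ‖v‖ := by
  unfold ld
  rw [abs_div, div_mul_eq_mul_div]
  exact div_le_div_of_nonneg_right (abs_cr_le _ _) (abs_nonneg _)

lemma ld_add (A : Fin 3 → Plane) (i : Fin 3) (u v : Plane) :
    ld A i (u + v) = ld A i u + ld A i v := by
  simp only [ld, cr, PiLp.add_apply]; ring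

lemma ld_smul (A : Fin 3 → Plane) (i : Fin 3) (s : ℝ) (v : Plane) :
    ld A i (s • v) = s * ld A i v := by
  simp only [ld, cr, PiLp.smul_apply, smul_eq_mul]; ring

lemma f31 (i : Fin 3) : i + 1 ≠ i := by revert i; decide
lemma f32 (i : Fin 3) : i + 2 ≠ i := by revert i; decide
lemma f312 (i : Fin 3) : i + 1 ≠ i + 2 := by revert i; decide
lemma f322 (i : Fin 3) : i + 2 + 2 = i + 1 := by revert i; decide
lemma f321 (i : Fin 3) : i + 2 + 1 = i := by revert i; decide
lemma f312' (i : Fin 3) : i + 1 + 2 = i := by revert i; decide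
lemma f311 (i : Fin 3) : i + 1 + 1 = i + 2 := by revert i; decide
lemma f3third {i j : Fin 3} (h : j ≠ i) : ∃ k : Fin 3, i ≠ k ∧ j ≠ k := by
  revert h; revert i j; decide

lemma fin3_cases {i j : Fin 3} (h : j ≠ i) : j = i + 1 ∨ j = i + 2 := by
  revert h; revert i j; decide

section
variable {A : Fin 3 → Plane} (h1 : StG1) (h2 : StG2) (hA : AffineIndependent ℝ A)
include h1 hA

lemma cd_sub (i : Fin 3) (x y : Plane) : cd A i y - cd A i x = ld A i (y - x) := by
  have h := (h1 A hA).2.2.2.1 i x 1 (y - x)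
  rw [one_smul, add_sub_cancel, one_mul] at h
  rw [h]; ring

lemma ld_vert (i j k : Fin 3) :
    ld A i (A j - A k) = (if i = j then 1 else 0) - (if i = k then 1 else 0) := by
  rw [← cd_sub h1 hA, (h1 A hA).2.2.2.2.1, (h1 A hA).2.2.2.2.1]

/-- barycentric expansion -/
lemma bary (x : Plane) (k : Fin 3) :
    x - A k = cd A 0 x • (A 0 - A k) + cd A 1 x • (A 1 - A k) + cd A 2 x • (A 2 - A k) := by
  have hz := (h1 A hA).2.2.2.2.2.1
    ((x - A k) + (-1 : ℝ) • (cd A 0 x • (A 0 - A k) + cd A 1 x • (A 1 - A k)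
      + cd A 2 x • (A 2 - A k))) (by
    intro j
    have hs := (h1 A hA).2.1 x
    have hv := fun a b => ld_vert h1 hA j a b
    rw [ld_add, ld_smul, ld_add, ld_add, ld_smul, ld_smul, ld_smul, hv, hv, hv,
      ← cd_sub h1 hA, (h1 A hA).2.2.2.2.1]
    fin_cases j <;> fin_cases k <;> simp <;> linarith)
  rw [neg_one_smul] at hz
  exact sub_eq_zero.1 (by rw [sub_eq_add_neg]; exact hz)

lemma dist_le (x : Plane) (hx : ∀ i, 0 ≤ cd A i x) (i j k : Fin 3) (hij : i ≠ j) (hik : i ≠ k)
    (hjk : j ≠ k) (D : ℝ) (hD : ∀ a b, ‖A a - A b‖ ≤ D) :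
    dist x (A k) ≤ (cd A i x + cd A j x) * D := by
  have key : ∀ a b : Fin 3, cd A a x • (A a - A k) + cd A b x • (A b - A k) = x - A k →
      dist x (A k) ≤ (cd A a x + cd A b x) * D := by
    intro a b hab
    rw [dist_eq_norm, ← hab]
    calc ‖cd A a x • (A a - A k) + cd A b x • (A b - A k)‖
        ≤ ‖cd A a x • (A a - A k)‖ + ‖cd A b x • (A b - A k)‖ := norm_add_le _ _
      _ = cd A a x * ‖A a - A k‖ + cd A b x * ‖A b - A k‖ := by
          rw [norm_smul, norm_smul, Real.norm_eq_abs, Real.norm_eq_abs, abs_of_nonneg (hx a),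
            abs_of_nonneg (hx b)]
      _ ≤ cd A a x * D + cd A b x * D :=
          add_le_add (mul_le_mul_of_nonneg_left (hD _ _) (hx a))
            (mul_le_mul_of_nonneg_left (hD _ _) (hx b))
      _ = _ := by ring
  apply key
  have hb := bary h1 hA x k
  rw [hb]
  clear hb key
  fin_cases i <;> fin_cases j <;> fin_cases k <;> simp_all <;> exact add_comm _ _

include h2

/-- reflection in barycentric coordinates -/
lemma cd_refl (i j : Fin 3) (x : Plane) :
    cd A j (refl A i x) = cd A j x + cd A i x * (cd A j (refl A i (A i)) - cd A j (A i)) := by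
  -- the affine function `F y = cd j (refl i y) - cd j y`
  have hF : ∀ y z : Plane, (cd A j (refl A i y) - cd A j y) - (cd A j (refl A i z) - cd A j z)
      = ld A j (mirror (sideVec A i) (y - z)) - ld A j (y - z) := by
    intro y z
    have e1 := (h2 A hA i).2.2.2.2.2.1 z 1 (y - z)
    rw [one_smul, add_sub_cancel, one_smul] at e1
    have e2 := (h1 A hA).2.2.2.1 j (refl A i z) 1 (mirror (sideVec A i) (y - z))
    rw [one_smul, ← e1, one_mul] at e2
    have e3 := cd_sub h1 hA j z y
    rw [e2, ← e3]; ring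
  have hm0 : ∀ (a b : ℝ) (u v : Plane), ld A j (mirror (sideVec A i) (a • u + b • v))
      = a * ld A j (mirror (sideVec A i) u) + b * ld A j (mirror (sideVec A i) v) := by
    intro a b u v
    rw [(h2 A hA i).2.2.2.2.1, ld_add, ld_smul, ld_smul]
  have hfix : ∀ k, k ≠ i → refl A i (A k) = A k := by
    intro k hk
    apply (h2 A hA i).2.2.2.2.2.2.2.2.1
    rw [(h1 A hA).2.2.2.2.1, if_neg (Ne.symm hk)]
  -- expansion around the vertex `A (i+1)`
  have hb := bary h1 hA x (i + 1)
  have hne1 : i + 1 ≠ i := f31 i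
  have hne2 : i + 2 ≠ i := f32 i
  have hx' : x - A (i + 1) = cd A i x • (A i - A (i + 1)) + cd A (i + 2) x • (A (i + 2) - A (i + 1)) := by
    rw [hb]
    clear hb hF hm0 hfix
    fin_cases i
    · simp
    · simp
      exact add_comm _ _
    · simp [add_comm]
  have H1 := hF x (A (i + 1))
  have H2 := hF (A i) (A (i + 1))
  have H3 := hF (A (i + 2)) (A (i + 1))
  rw [hfix _ hne1, sub_self, sub_zero] at H1 H2 H3
  rw [hfix _ hne2, sub_self] at H3
  rw [hx', hm0, ld_add, ld_smul, ld_smul] at H1
  have : cd A j (refl A i x) - cd A j x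
      = cd A i x * (ld A j (mirror (sideVec A i) (A i - A (i + 1))) - ld A j (A i - A (i + 1)))
        + cd A (i + 2) x * (ld A j (mirror (sideVec A i) (A (i + 2) - A (i + 1)))
          - ld A j (A (i + 2) - A (i + 1))) := by rw [H1]; ring
  rw [← H3, ← H2] at this
  linarith

/-- Lipschitz bound for the coordinates of the reflected point -/
lemma cd_refl_lip (i j : Fin 3) (x y : Plane) :
    cd A j (refl A i y) = cd A j (refl A i x) + ld A j (mirror (sideVec A i) (y - x)) := by
  have e1 := (h2 A hA i).2.2.2.2.2.1 x 1 (y - x)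
  rw [one_smul, add_sub_cancel, one_smul] at e1
  have e2 := (h1 A hA).2.2.2.1 j (refl A i x) 1 (mirror (sideVec A i) (y - x))
  rw [one_smul, ← e1, one_mul] at e2
  exact e2

/-- for the longest side the foot of the altitude lies in the side. -/
lemma foot_nonneg (i : Fin 3) (hmax1 : ‖A i - A (i + 1)‖ ≤ ‖sideVec A i‖)
    (hmax2 : ‖A i - A (i + 2)‖ ≤ ‖sideVec A i‖) (j : Fin 3) (hj : j ≠ i) :
    0 ≤ cd A j (refl A i (A i)) := by
  set e := sideVec A i with he
  set u := A i - A (i + 1) with hu
  set lam := inner ℝ u e / inner ℝ e e with hlam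
  have hue : A i - A (i + 2) = u - e := by rw [hu, he, sideVec]; abel
  have hee : inner ℝ e e = ‖e‖ ^ 2 := real_inner_self_eq_norm_sq e
  have hl0 : 0 ≤ lam := by
    apply div_nonneg _ (by rw [hee]; positivity)
    have h3 := norm_sub_sq_real u e
    rw [hue] at hmax2
    nlinarith [norm_nonneg (u - e), norm_nonneg e, sq_nonneg ‖u‖]
  have hl1 : lam ≤ 1 := by
    apply div_le_one_of_le₀ _ (by rw [hee]; positivity)
    rw [hee]
    calc inner ℝ u e ≤ ‖u‖ * ‖e‖ := real_inner_le_norm u e
      _ ≤ ‖e‖ * ‖e‖ := mul_le_mul_of_nonneg_right hmax1 (norm_nonneg _)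
      _ = ‖e‖ ^ 2 := by ring
  have hr : refl A i (A i) = A (i + 1) + (2 * lam) • e + (-1 : ℝ) • u := by
    rw [refl, mirror, ← he, ← hu, hlam, ← mul_div_assoc, neg_one_smul]; abel
  have hcd : cd A j (refl A i (A i))
      = cd A j (A (i + 1)) + 2 * lam * ld A j e + (-1) * ld A j u := by
    rw [hr, (h1 A hA).2.2.2.1, (h1 A hA).2.2.2.1]
  rw [hcd, he, sideVec, hu, ld_vert h1 hA, ld_vert h1 hA, (h1 A hA).2.2.2.2.1]
  rcases fin3_cases hj with rfl | rfl
  · have e1 : ¬ (i + 1 = i + 2) := f312 i
    have e2 : ¬ (i + 1 = i) := f31 i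
    simp only [e1, e2, if_false, if_true]
    linarith
  · have e1 : ¬ (i + 2 = i + 1) := (f312 i).symm
    have e2 : ¬ (i + 2 = i) := f32 i
    simp only [e1, e2, if_false, if_true]
    linarith

end

end GV

theorem g3 : StG1 → StG2 → StG3 := by
  intro h1 h2 A hA
  refine ⟨?_, ?_⟩
  · -- constants
    obtain ⟨Lam, hLam0, hLam⟩ : ∃ L : ℝ, 0 ≤ L ∧ ∀ i v, |ld A i v| ≤ L * ‖v‖ := by
      refine ⟨∑ i, ‖sideVec A i‖ / |Dt A|, by positivity, fun i v => ?_⟩
      refine (GV.abs_ld_le A i v).trans (mul_le_mul_of_nonneg_right ?_ (norm_nonneg _))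
      exact Finset.single_le_sum (f := fun i => ‖sideVec A i‖ / |Dt A|)
        (fun i _ => by positivity) (Finset.mem_univ i)
    obtain ⟨M, hM0, hM⟩ : ∃ M : ℝ, 0 ≤ M ∧ ∀ i j : Fin 3,
        |cd A j (refl A i (A i)) - cd A j (A i)| ≤ M := by
      refine ⟨∑ i : Fin 3, ∑ j : Fin 3, |cd A j (refl A i (A i)) - cd A j (A i)|, by positivity,
        fun i j => ?_⟩
      refine le_trans ?_ (Finset.single_le_sum
        (f := fun i => ∑ j : Fin 3, |cd A j (refl A i (A i)) - cd A j (A i)|)
        (fun i _ => by positivity) (Finset.mem_univ i))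
      exact Finset.single_le_sum (f := fun j => |cd A j (refl A i (A i)) - cd A j (A i)|)
        (fun i _ => by positivity) (Finset.mem_univ j)
    obtain ⟨D, hD0, hD⟩ : ∃ D : ℝ, 0 ≤ D ∧ ∀ a b, ‖A a - A b‖ ≤ D := by
      refine ⟨∑ i : Fin 3, ∑ j : Fin 3, ‖A i - A j‖, by positivity, fun i j => ?_⟩
      refine le_trans ?_ (Finset.single_le_sum (f := fun i => ∑ j : Fin 3, ‖A i - A j‖)
        (fun i _ => by positivity) (Finset.mem_univ i))
      exact Finset.single_le_sum (f := fun j => ‖A i - A j‖)
        (fun i _ => by positivity) (Finset.mem_univ j)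
    set c1 : ℝ := 2 * Lam + 1 with hc1
    set c2 : ℝ := c1 * M + 2 * Lam + 1 with hc2
    have hc1p : 0 < c1 := by positivity
    have hc2p : 0 < c2 := by positivity
    refine ⟨(c1 + c2) * D + 1, by nlinarith [mul_nonneg (add_nonneg hc1p.le hc2p.le) hD0], ?_⟩
    intro x ε hε hvd hx
    have hlip : ∀ j y, dist x y ≤ 2 * ε → cd A j x - 2 * Lam * ε ≤ cd A j y := by
      intro j y hy
      have e1 := GV.cd_sub h1 hA j x y
      have e2 := hLam j (y - x)
      rw [← dist_eq_norm, dist_comm] at e2
      have e3 : Lam * dist x y ≤ Lam * (2 * ε) := mul_le_mul_of_nonneg_left hy hLam0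
      have e4 := (abs_le.1 e2).1
      linarith
    have hlip2 : ∀ i j y, dist x y ≤ 2 * ε →
        cd A j x + cd A i x * (cd A j (refl A i (A i)) - cd A j (A i)) - 2 * Lam * ε
          ≤ cd A j (refl A i y) := by
      intro i j y hy
      have e1 := GV.cd_refl_lip h1 h2 hA i j x y
      have e2 := hLam j (mirror (sideVec A i) (y - x))
      rw [(h2 A hA i).2.2.2.1, ← dist_eq_norm, dist_comm] at e2
      have e3 : Lam * dist x y ≤ Lam * (2 * ε) := mul_le_mul_of_nonneg_left hy hLam0
      have e4 := (abs_le.1 e2).1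
      have e5 := GV.cd_refl h1 h2 hA i j x
      linarith
    by_cases hs : ∃ i, cd A i x < c1 * ε
    · obtain ⟨i, hi⟩ := hs
      refine ⟨i, fun j hj => ?_⟩
      have hj2 : c2 * ε ≤ cd A j x := by
        by_contra hcon
        push Not at hcon
        obtain ⟨k, hki, hkj⟩ := GV.f3third hj
        have e1 := GV.dist_le h1 hA x hx i j k (Ne.symm hj) hki hkj D hD
        have e2 : vd A x ≤ dist x (A k) := by
          unfold vd
          fin_cases k
          · exact min_le_left _ _
          · exact (min_le_right _ _).trans (min_le_left _ _)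
          · exact (min_le_right _ _).trans (min_le_right _ _)
        have e3 : (cd A i x + cd A j x) * D ≤ (c1 * ε + c2 * ε) * D :=
          mul_le_mul_of_nonneg_right (by linarith) hD0
        nlinarith
      intro y hy
      constructor
      · have := hlip j y hy
        have h3 : 0 ≤ c1 * M * ε := by positivity
        nlinarith
      · have := hlip2 i j y hy
        have h3 : -(c1 * ε * M) ≤ cd A i x * (cd A j (refl A i (A i)) - cd A j (A i)) := by
          have h4 := hM i j
          have h5 : |cd A i x * (cd A j (refl A i (A i)) - cd A j (A i))| ≤ c1 * ε * M := by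
            rw [abs_mul, abs_of_nonneg (hx i)]
            exact mul_le_mul hi.le h4 (abs_nonneg _) (by positivity)
          exact (abs_le.1 h5).1
        nlinarith
    · push Not at hs
      -- longest side
      obtain ⟨i, -, hi⟩ := Finset.exists_max_image (Finset.univ : Finset (Fin 3))
        (fun i => ‖sideVec A i‖) ⟨0, Finset.mem_univ _⟩
      have hm1 : ‖A i - A (i + 1)‖ ≤ ‖sideVec A i‖ := by
        have := hi (i + 2) (Finset.mem_univ _)
        have e : sideVec A (i + 2) = -(A i - A (i + 1)) := by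
          unfold sideVec
          rw [GV.f322, GV.f321]; abel
        rw [e, norm_neg] at this
        exact this
      have hm2 : ‖A i - A (i + 2)‖ ≤ ‖sideVec A i‖ := by
        have := hi (i + 1) (Finset.mem_univ _)
        have e : sideVec A (i + 1) = (A i - A (i + 2)) := by
          unfold sideVec
          rw [GV.f312', GV.f311]
        rw [e] at this
        exact this
      refine ⟨i, fun j hj y hy => ⟨?_, ?_⟩⟩
      · have := hlip j y hy
        have := hs j
        nlinarith
      · have e1 := hlip2 i j y hy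
        have e2 := hs j
        have e3 := GV.foot_nonneg h1 h2 hA i hm1 hm2 j hj
        have e4 : cd A j (A i) = 0 := by
          rw [(h1 A hA).2.2.2.2.1, if_neg hj]
        rw [e4, sub_zero] at e1
        have e5 := mul_nonneg (hx i) e3
        nlinarith
  · -- volume
    have hvol : ∀ b : ℝ, 0 < b → (volume : Measure Plane) {x | vd A x < b}
        ≤ ENNReal.ofReal (3 * Real.pi * b ^ 2) := by
      intro b hb
      have hsub : {x : Plane | vd A x < b} ⊆ ⋃ k ∈ (Finset.univ : Finset (Fin 3)),
          Metric.ball (A k) b := by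
        intro x hx
        simp only [vd, Set.mem_ofPred_eq, min_lt_iff] at hx
        simp only [Set.mem_iUnion, Metric.mem_ball, Finset.mem_univ, exists_prop, true_and]
        rcases hx with h | h | h
        exacts [⟨0, h⟩, ⟨1, h⟩, ⟨2, h⟩]
      refine (measure_mono hsub).trans ((measure_biUnion_finset_le _ _).trans ?_)
      have hball : ∀ k : Fin 3, (volume : Measure Plane) (Metric.ball (A k) b)
          = ENNReal.ofReal (Real.pi * b ^ 2) := by
        intro k
        rw [EuclideanSpace.volume_ball_fin_two, ← ENNReal.ofReal_pow hb.le,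
          mul_comm Real.pi, ENNReal.ofReal_mul (by positivity)]
      simp only [hball, Finset.sum_const, Finset.card_univ, Fintype.card_fin]
      rw [nsmul_eq_mul, ← ENNReal.ofReal_natCast, ← ENNReal.ofReal_mul (by positivity)]
      exact ENNReal.ofReal_le_ofReal (by push_cast; linarith)
    set S : ENNReal := (volume : Measure Plane).toSphere Set.univ with hS
    have hSfin : S ≠ ⊤ := measure_ne_top _ _
    refine ⟨3 * Real.pi * (S.toReal * 2), by positivity, fun b hb => ?_⟩
    have hset : {z : Phase × Bool | vd A z.1.1 < b}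
        = ({x : Plane | vd A x < b} ×ˢ Set.univ) ×ˢ Set.univ := by
      ext z; simp
    rw [hset, μM, phaseMeasure, Measure.prod_prod, Measure.prod_prod]
    have h4 : ((volume : Measure Plane).restrict (interior (convexHull ℝ (Set.range A))))
        {x | vd A x < b} ≤ ENNReal.ofReal (3 * Real.pi * b ^ 2) :=
      (Measure.restrict_apply_le _ _).trans (hvol b hb)
    have h5 : (Measure.count : Measure Bool) Set.univ = 2 := by
      rw [Measure.count_apply_finite _ (Set.toFinite _)]; simp
    rw [h5]
    calc _ ≤ ENNReal.ofReal (3 * Real.pi * b ^ 2) * S * 2 := by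
          gcongr
      _ = ENNReal.ofReal (3 * Real.pi * (S.toReal * 2) * b ^ 2) := by
          have e1 : S = ENNReal.ofReal S.toReal := (ENNReal.ofReal_toReal hSfin).symm
          have e2 : (2 : ENNReal) = ENNReal.ofReal 2 := by simp
          rw [e1, e2, ENNReal.toReal_ofReal (by positivity), ← ENNReal.ofReal_mul (by positivity),
            ← ENNReal.ofReal_mul (by positivity)]
          congr 1; ring

end Crest.Agent.R103
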