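import Crest.Agent.R103.IfaceG

/-!
# R103, task H14: the plane system of a triangle (assembly of the interface statements)
-/

open MeasureTheory Filter Topology
open Crest.AnalysisR.Billiard

noncomputable section

namespace Crest.Agent.R103

private lemma continuous_vd_aux (A : Fin 3 → Plane) : Continuous (vd A) := by
  unfold vd
  fun_prop

private lemma vd_nonneg_aux (A : Fin 3 → Plane) (x : Plane) : 0 ≤ vd A x :=
  le_min dist_nonneg (le_min dist_nonneg dist_nonneg)

/-- H14 -/
theorem inst (h3 : StG3) (hRot : StRot) (hFlow : StFlow) (hMeas : StMeas) (hMP : StMP)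
    (hRev : StRev) (hLC : StLC) : StInst := by
  intro A hA
  obtain ⟨-, Cv, hCv, hvol⟩ := h3 A hA
  obtain ⟨hRm, hR0, hRadd, hR2, hRmp, hRc, -, -⟩ := hRot
  obtain ⟨⟨C₀, hC₀, hlc⟩, hcont⟩ := hLC A hA
  obtain ⟨hF0, hFadd, -, hFvd⟩ := hFlow A hA
  exact ⟨{
    φ := flowM A
    R := rotF
    ρ := fun z => vd A z.1.1
    C₀ := C₀
    Cv := Cv
    one_le_C₀ := hC₀
    Cv_nonneg := hCv
    φ_meas := hMeas A hA
    φ_zero := hF0
    φ_add := hFadd
    φ_mp := hMP A hA
    R_meas := hRm
    R_zero := hR0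
    R_add := hRadd
    R_two_pi := hR2
    R_mp := hRmp A
    R_cont := hRc
    ρ_meas := (continuous_vd_aux A).measurable.comp (measurable_fst.comp measurable_fst)
    ρ_nonneg := fun z => vd_nonneg_aux A z.1.1
    ρ_R := fun _ _ => rfl
    ρ_φ := fun t z => hFvd t z
    vol := hvol
    rev := hRev A hA
    LC := hlc
    cont := hcont }, fun _ _ => rfl, fun _ _ => rfl⟩

end Crest.Agent.R103
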