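import Mathlib

set_option autoImplicit false
open MeasureTheory Filter Topology Set
open scoped ENNReal InnerProductSpace ComplexConjugate

namespace Crest.Agent.R103.ThmB

variable {M : Type*} [MeasurableSpace M] (μ : Measure M) [IsFiniteMeasure μ]

local notation "H" => Lp ℂ 2 μ

lemma intg (f : H) : Integrable f μ := (Lp.memLp f).integrable (by norm_num)

lemma intg_prod (g f : H) :
    Integrable (fun z : M × M => conj (g z.1) * f z.2) (μ.prod μ) := by
  have h1 : Integrable (fun x => conj (g x)) μ := by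
    have := (intg μ g)
    exact (LinearIsometryEquiv.integrable_comp_iff (Complex.conjLIE) (φ := g)).2 this
  exact h1.mul_prod (intg μ f)

lemma norm_sq_eq (f : H) : ‖f‖ ^ 2 = ∫ x, ‖f x‖ ^ 2 ∂μ := by
  have h := L2.inner_def (𝕜 := ℂ) f f
  have h2 : (⟪f, f⟫_ℂ) = ((‖f‖ ^ 2 : ℝ) : ℂ) := by
    rw [inner_self_eq_norm_sq_to_K]; norm_cast
  rw [h2] at h
  have h3 : (∫ x, ⟪f x, f x⟫_ℂ ∂μ) = ((∫ x, ‖f x‖ ^ 2 ∂μ : ℝ) : ℂ) := by
    rw [← integral_complex_ofReal]
    apply integral_congr_ae
    filter_upwards with x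
    rw [inner_self_eq_norm_sq_to_K]; norm_cast
  rw [h3] at h
  exact_mod_cast h

lemma memLp_prod (g f : H) :
    MemLp (fun z : M × M => conj (g z.1) * f z.2) 2 (μ.prod μ) := by
  have hg : Integrable (fun x => ‖g x‖ ^ 2) μ := (Lp.memLp g).integrable_norm_pow (by norm_num)
  have hf : Integrable (fun x => ‖f x‖ ^ 2) μ := (Lp.memLp f).integrable_norm_pow (by norm_num)
  have h := hg.mul_prod hf
  rw [memLp_two_iff_integrable_sq_norm (intg_prod μ g f).1]
  refine h.congr ?_
  filter_upwards with z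
  simp [mul_pow]

/-- bound of the bilinear form -/
lemma form_bound (s : Set (M × M)) (g f : H) :
    ‖∫ z in s, conj (g z.1) * f z.2 ∂(μ.prod μ)‖ ≤
      Real.sqrt (((μ.prod μ) s).toReal) * ‖g‖ * ‖f‖ := by
  set F : M × M → ℂ := fun z => conj (g z.1) * f z.2 with hF
  have hm : MemLp F 2 ((μ.prod μ).restrict s) := (memLp_prod μ g f).restrict s
  have h1 : ‖∫ z in s, F z ∂(μ.prod μ)‖ ≤ ∫ z in s, ‖F z‖ * 1 ∂(μ.prod μ) := by
    simpa using norm_integral_le_integral_norm (μ := (μ.prod μ).restrict s) F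
  have h2 := integral_mul_le_Lp_mul_Lq_of_nonneg (μ := (μ.prod μ).restrict s)
    (p := 2) (q := 2) (by constructor <;> norm_num) (f := fun z => ‖F z‖) (g := fun _ => (1:ℝ))
    (by filter_upwards with z; positivity) (by filter_upwards with z; norm_num)
    (by simpa using hm.norm) (by simpa using memLp_const (1:ℝ))
  have h3 : (∫ z in s, ‖F z‖ ^ (2:ℝ) ∂(μ.prod μ)) ≤ (‖g‖ * ‖f‖) ^ 2 := by
    have e1 : (∫ z in s, ‖F z‖ ^ (2:ℝ) ∂(μ.prod μ)) ≤ ∫ z, ‖F z‖ ^ (2:ℝ) ∂(μ.prod μ) := by
      apply setIntegral_le_integral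
      · have := (memLp_prod μ g f).integrable_norm_pow (p := 2) (by norm_num)
        simpa [hF] using this
      · filter_upwards with z; positivity
    have e2 : (∫ z, ‖F z‖ ^ (2:ℝ) ∂(μ.prod μ)) = (∫ x, ‖g x‖ ^ 2 ∂μ) * ∫ x, ‖f x‖ ^ 2 ∂μ := by
      rw [← integral_prod_mul]
      apply integral_congr_ae
      filter_upwards with z
      simp [hF, mul_pow]
    rw [e2, ← norm_sq_eq, ← norm_sq_eq] at e1
    rw [mul_pow]; exact e1
  have h4 : (∫ z in s, (1:ℝ) ^ (2:ℝ) ∂(μ.prod μ)) = ((μ.prod μ) s).toReal := by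
    simp [measureReal_def]
  refine h1.trans (h2.trans ?_)
  rw [h4]
  have h5 : (∫ z in s, ‖F z‖ ^ (2:ℝ) ∂(μ.prod μ)) ^ (1 / (2:ℝ)) ≤ ‖g‖ * ‖f‖ := by
    rw [← Real.sqrt_eq_rpow]
    apply Real.sqrt_le_iff.2
    exact ⟨by positivity, h3⟩
  rw [← Real.sqrt_eq_rpow (((μ.prod μ) s).toReal)]
  calc _ ≤ (‖g‖ * ‖f‖) * Real.sqrt (((μ.prod μ) s).toReal) := by
        apply mul_le_mul_of_nonneg_right h5 (Real.sqrt_nonneg _)
    _ = _ := by ring

/-- the sesquilinear form with kernel the indicator of `s` -/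
noncomputable def Bl (s : Set (M × M)) : H →ₗ⋆[ℂ] H →ₗ[ℂ] ℂ :=
  LinearMap.mk₂'ₛₗ (starRingEnd ℂ) (RingHom.id ℂ)
    (fun g f => ∫ z in s, conj (g z.1) * f z.2 ∂(μ.prod μ))
    (by
      intro g g' f
      rw [← integral_add ((intg_prod μ g f).restrict) ((intg_prod μ g' f).restrict)]
      apply integral_congr_ae
      apply ae_restrict_of_ae
      have := (Measure.quasiMeasurePreserving_fst (μ := μ) (ν := μ)).ae (Lp.coeFn_add g g')
      filter_upwards [this] with z hz
      simp only [hz, Pi.add_apply, map_add]; ring)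
    (by
      intro c g f
      rw [← integral_smul]
      apply integral_congr_ae
      apply ae_restrict_of_ae
      have := (Measure.quasiMeasurePreserving_fst (μ := μ) (ν := μ)).ae (Lp.coeFn_smul c g)
      filter_upwards [this] with z hz
      simp only [hz, Pi.smul_apply, smul_eq_mul, map_mul]; ring)
    (by
      intro g f f'
      rw [← integral_add ((intg_prod μ g f).restrict) ((intg_prod μ g f').restrict)]
      apply integral_congr_ae
      apply ae_restrict_of_ae
      have := (Measure.quasiMeasurePreserving_snd (μ := μ) (ν := μ)).ae (Lp.coeFn_add f f')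
      filter_upwards [this] with z hz
      simp only [hz, Pi.add_apply]; ring)
    (by
      intro c g f
      rw [← integral_smul]
      apply integral_congr_ae
      apply ae_restrict_of_ae
      have := (Measure.quasiMeasurePreserving_snd (μ := μ) (ν := μ)).ae (Lp.coeFn_smul c f)
      filter_upwards [this] with z hz
      simp only [hz, Pi.smul_apply, smul_eq_mul, RingHom.id_apply]; ring)

lemma Bl_apply (s : Set (M × M)) (g f : H) :
    Bl μ s g f = ∫ z in s, conj (g z.1) * f z.2 ∂(μ.prod μ) := rfl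

noncomputable def Bc (s : Set (M × M)) : H →L⋆[ℂ] H →L[ℂ] ℂ :=
  LinearMap.mkContinuous₂ (Bl μ s) (Real.sqrt (((μ.prod μ) s).toReal))
    (fun g f => form_bound μ s g f)

lemma Bc_apply (s : Set (M × M)) (g f : H) :
    Bc μ s g f = ∫ z in s, conj (g z.1) * f z.2 ∂(μ.prod μ) := rfl

/-- the integral operator -/
noncomputable def K (s : Set (M × M)) : H →L[ℂ] H :=
  InnerProductSpace.continuousLinearMapOfBilin (Bc μ s)

lemma K_inner (s : Set (M × M)) (g f : H) :
    ⟪K μ s g, f⟫_ℂ = ∫ z in s, conj (g z.1) * f z.2 ∂(μ.prod μ) := by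
  rw [K, InnerProductSpace.continuousLinearMapOfBilin_apply, Bc_apply]

lemma K_ext {A B : H →L[ℂ] H} (h : ∀ g f : H, ⟪A g, f⟫_ℂ = ⟪B g, f⟫_ℂ) : A = B := by
  ext1 g
  exact ext_inner_right ℂ (h g)

lemma K_norm (s : Set (M × M)) : ‖K μ s‖ ≤ Real.sqrt (((μ.prod μ) s).toReal) := by
  apply ContinuousLinearMap.opNorm_le_bound _ (Real.sqrt_nonneg _)
  intro g
  by_cases h0 : ‖K μ s g‖ = 0
  · rw [h0]; positivity
  have h1 : ‖K μ s g‖ ^ 2 ≤ Real.sqrt (((μ.prod μ) s).toReal) * ‖g‖ * ‖K μ s g‖ := by
    have h2 : (‖K μ s g‖ ^ 2 : ℝ) = ‖⟪K μ s g, K μ s g⟫_ℂ‖ := by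
      rw [inner_self_eq_norm_sq_to_K]
      simp
    rw [h2, K_inner]
    exact form_bound μ s g _
  have h3 : 0 < ‖K μ s g‖ := lt_of_le_of_ne (norm_nonneg _) (Ne.symm h0)
  nlinarith

lemma K_union {s t : Set (M × M)} (hst : Disjoint s t) (ht : MeasurableSet t) :
    K μ (s ∪ t) = K μ s + K μ t := by
  apply K_ext μ
  intro g f
  rw [add_apply, inner_add_left, K_inner, K_inner, K_inner,
    setIntegral_union hst ht (intg_prod μ g f).integrableOn (intg_prod μ g f).integrableOn]

/-- indicator function in `L²` -/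
noncomputable def ind (A : Set M) (hA : MeasurableSet A) : H :=
  indicatorConstLp 2 hA (measure_ne_top μ A) (1:ℂ)

lemma ind_inner (A : Set M) (hA : MeasurableSet A) (f : H) :
    ⟪ind μ A hA, f⟫_ℂ = ∫ x in A, f x ∂μ :=
  L2.inner_indicatorConstLp_one hA (measure_ne_top μ A) f

lemma K_rect_eq (A B : Set M) (hA : MeasurableSet A) (hB : MeasurableSet B) :
    K μ (A ×ˢ B) = (ContinuousLinearMap.toSpanSingleton ℂ (ind μ B hB)).comp
      (innerSL ℂ (ind μ A hA)) := by
  apply K_ext μ
  intro g f
  rw [K_inner, ContinuousLinearMap.comp_apply, ContinuousLinearMap.toSpanSingleton_apply,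
    inner_smul_left, ind_inner, innerSL_apply_apply, ind_inner, ← integral_conj,
    ← setIntegral_prod_mul]

lemma K_rect (A B : Set M) (hA : MeasurableSet A) (hB : MeasurableSet B) :
    IsCompactOperator (K μ (A ×ˢ B)) := by
  rw [K_rect_eq μ A B hA hB]
  have h1 : IsCompactOperator (innerSL ℂ (ind μ A hA) : H →L[ℂ] ℂ) :=
    isCompactOperator_of_locallyCompactSpace_dom _
  exact h1.clm_comp (ContinuousLinearMap.toSpanSingleton ℂ (ind μ B hB))

lemma K_compl {s : Set (M × M)} (hs : MeasurableSet s) :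
    K μ sᶜ = K μ univ - K μ s := by
  have := K_union μ (disjoint_compl_right (a := s)) hs.compl
  rw [union_compl_self] at this
  rw [this]; abel

lemma K_compact (s : Set (M × M)) (hs : MeasurableSet s) : IsCompactOperator (K μ s) := by
  induction s, hs using MeasurableSpace.induction_on_inter generateFrom_prod.symm
    isPiSystem_prod with
  | empty =>
    have : K μ (∅ : Set (M × M)) = 0 := by
      apply K_ext μ
      intro g f
      rw [K_inner]; simp
    rw [this]
    exact isCompactOperator_zero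
  | basic t ht =>
    obtain ⟨A, hA, B, hB, rfl⟩ := ht
    exact K_rect μ A B hA hB
  | compl t ht ih =>
    rw [K_compl μ ht]
    have hu : IsCompactOperator (K μ univ) := by
      rw [← univ_prod_univ]
      exact K_rect μ univ univ MeasurableSet.univ MeasurableSet.univ
    exact hu.sub ih
  | iUnion f hd hf ih =>
    have hc : ∀ n : ℕ, IsCompactOperator (K μ (⋃ i < n, f i)) := by
      intro n
      induction n with
      | zero =>
        have : K μ (⋃ i < 0, f i) = 0 := by
          apply K_ext μ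
          intro g f
          rw [K_inner]; simp
        rw [this]
        exact isCompactOperator_zero
      | succ n ihn =>
        have : (⋃ i < n + 1, f i) = (⋃ i < n, f i) ∪ f n := by
          ext x
          simp only [mem_iUnion, mem_union, exists_prop]
          constructor
          · rintro ⟨i, hi, hx⟩
            rcases Nat.lt_succ_iff_lt_or_eq.1 hi with h | h
            · exact Or.inl ⟨i, h, hx⟩
            · exact Or.inr (h ▸ hx)
          · rintro (⟨i, hi, hx⟩ | hx)
            · exact ⟨i, by omega, hx⟩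
            · exact ⟨n, by omega, hx⟩
        rw [this, K_union μ _ (hf n)]
        · exact ihn.add (ih n)
        · rw [Set.disjoint_iUnion₂_left]
          intro i hi
          exact hd (ne_of_lt hi)
    have ht : Tendsto (fun n : ℕ => K μ (⋃ i < n, f i)) atTop (𝓝 (K μ (⋃ i, f i))) := by
      rw [tendsto_iff_norm_sub_tendsto_zero]
      have hsub : ∀ n : ℕ, K μ (⋃ i < n, f i) - K μ (⋃ i, f i) = - K μ (⋃ i ≥ n, f i) := by
        intro n
        have : (⋃ i, f i) = (⋃ i < n, f i) ∪ (⋃ i ≥ n, f i) := by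
          ext x; simp only [mem_iUnion, mem_union]
          constructor
          · rintro ⟨i, hi⟩
            rcases lt_or_ge i n with h | h
            · exact Or.inl ⟨i, h, hi⟩
            · exact Or.inr ⟨i, h, hi⟩
          · rintro (⟨i, -, hi⟩ | ⟨i, -, hi⟩) <;> exact ⟨i, hi⟩
        rw [this, K_union]
        · abel
        · rw [Set.disjoint_iUnion₂_left]
          intro i hi
          rw [Set.disjoint_iUnion₂_right]
          intro j hj
          exact hd (ne_of_lt (lt_of_lt_of_le hi hj))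
        · exact MeasurableSet.iUnion fun i => MeasurableSet.iUnion fun _ => hf i
      simp_rw [hsub, norm_neg]
      have h0 : Tendsto (fun n : ℕ => Real.sqrt (((μ.prod μ) (⋃ i ≥ n, f i)).toReal)) atTop
          (𝓝 0) := by
        have h1 : Tendsto (fun n : ℕ => (μ.prod μ) (⋃ i ≥ n, f i)) atTop (𝓝 0) := by
          exact tendsto_measure_biUnion_Ici_zero_of_pairwise_disjoint
            (fun i => (hf i).nullMeasurableSet) hd
        have h2 := (ENNReal.tendsto_toReal (ENNReal.zero_ne_top)).comp h1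
        have h3 := (Real.continuous_sqrt.tendsto 0).comp (by simpa using h2)
        simpa [Function.comp_def] using h3
      exact squeeze_zero (fun _ => norm_nonneg _) (fun n => K_norm μ _) h0
    exact isCompactOperator_of_tendsto ht (Eventually.of_forall hc)

end Crest.Agent.R103.ThmB
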