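import Crest.Agent.R103.Iface
import Crest.Agent.R103.ThmBop

set_option autoImplicit false
open MeasureTheory Filter Topology Set
open scoped ENNReal InnerProductSpace ComplexConjugate

noncomputable section

namespace Crest.Agent.R103.PlaneSys

open Crest.Agent.R103.ThmB in
/-- B1: the integral operator with kernel the indicator of a measurable set is compact. -/
theorem ker : StKer := by
  intro Ω _ μ _ s hs
  have hsw : MeasurableSet (Prod.swap ⁻¹' s) := measurable_swap hs
  refine ⟨ThmB.K μ (Prod.swap ⁻¹' s), ThmB.K_compact μ _ hsw, fun f g => ?_⟩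
  rw [← inner_conj_symm, ThmB.K_inner, ← integral_conj, ← integral_indicator hsw]
  have h := (Measure.measurePreserving_swap (μ := μ) (ν := μ)).integral_comp
    (MeasurableEquiv.prodComm.measurableEmbedding)
    (s.indicator (fun z : Ω × Ω => (starRingEnd ℂ) (g z.1) * f z.2))
  rw [← h]
  apply integral_congr_ae
  filter_upwards with z
  by_cases hz : z.swap ∈ s
  · rw [indicator_of_mem hz, indicator_of_mem (by exact hz)]
    simp [mul_comm]
  · rw [indicator_of_notMem hz, indicator_of_notMem (by exact hz)]

end Crest.Agent.R103.PlaneSys
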