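import Crest.Agent.R103.IfaceG

/-!
# R103 H13: local commutation and continuity at `0` of the translations of the triangle billiard
-/

open MeasureTheory Filter Topology
open Crest.AnalysisR.Billiard

noncomputable section

namespace Crest.Agent.R103.LCm

lemma J_smul' (c : ℝ) (v : Plane) : J (c • v) = c • J v := by
  ext i; fin_cases i <;> simp [J]

lemma J_add' (v w : Plane) : J (v + w) = J v + J w := by
  ext i; fin_cases i <;> simp [J]; ring

lemma sgn_not (b : Bool) : sgn (!b) = - sgn b := by cases b <;> simp [sgn]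

lemma norm_sphere (v : ↥(Metric.sphere (0 : Plane) 1)) : ‖(v : Plane)‖ = 1 := by simp

lemma norm_frm (z : Phase × Bool) (ζ : ℂ) : ‖frm z ζ‖ = ‖ζ‖ := by
  have h1 : ‖(z.1.2 : Plane)‖ ^ 2 = (z.1.2 : Plane) 0 ^ 2 + (z.1.2 : Plane) 1 ^ 2 := by
    rw [EuclideanSpace.norm_sq_eq]; simp [Fin.sum_univ_two]
  rw [norm_sphere] at h1
  have h2 : ‖frm z ζ‖ ^ 2 = ‖ζ‖ ^ 2 := by
    rw [EuclideanSpace.norm_sq_eq, ← Complex.normSq_eq_norm_sq, Complex.normSq_apply]
    simp only [frm, Fin.sum_univ_two, PiLp.add_apply, PiLp.smul_apply, smul_eq_mul, J_zero, J_one,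
      Real.norm_eq_abs, sq_abs]
    have h3 := sgn_sq z.2
    linear_combination (-(ζ.re ^ 2) - (ζ.im) ^ 2) * h1 +
      (ζ.im ^ 2 * ((z.1.2 : Plane) 0 ^ 2 + (z.1.2 : Plane) 1 ^ 2)) * h3
  exact (sq_eq_sq₀ (norm_nonneg _) (norm_nonneg _)).1 h2

lemma frm_add (z : Phase × Bool) (ζ ζ' : ℂ) : frm z (ζ + ζ') = frm z ζ + frm z ζ' := by
  simp only [frm, Complex.add_re, Complex.add_im]
  module

/-- the translations preserve the measure -/
lemma tr_mp (hrot : StRot) (hmp : StMP) {A : Fin 3 → Plane} (hA : AffineIndependent ℝ A) (ζ : ℂ) :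
    MeasurePreserving (fun z => tr (flowM A) rotF ζ z) (μM A) (μM A) := by
  have h1 := hrot.2.2.2.2.1 A (-ζ.arg)
  have h2 := hmp A hA ‖ζ‖
  have h3 := hrot.2.2.2.2.1 A ζ.arg
  exact h1.comp (h2.comp h3)

/-- almost every frame is based in the open triangle -/
lemma ae_interior (h1 : StG1) {A : Fin 3 → Plane} (hA : AffineIndependent ℝ A) :
    ∀ᵐ z ∂(μM A), ∀ j, 0 < cd A j z.1.1 := by
  obtain ⟨-, -, -, -, -, -, -, -, -, hint, -⟩ := h1 A hA
  have hp : ∀ᵐ p ∂(phaseMeasure A), ∀ j, 0 < cd A j p.1 := by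
    have h : ∀ᵐ x ∂((volume : Measure Plane).restrict (interior (convexHull ℝ (Set.range A)))),
        ∀ j, 0 < cd A j x := by
      have := ae_restrict_mem (μ := (volume : Measure Plane))
        (s := interior (convexHull ℝ (Set.range A))) isOpen_interior.measurableSet
      filter_upwards [this] with x hx
      rw [hint] at hx
      exact hx
    exact (Measure.quasiMeasurePreserving_fst (μ := (volume : Measure Plane).restrict
      (interior (convexHull ℝ (Set.range A)))) (ν := (volume : Measure Plane).toSphere)).ae h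
  exact (Measure.quasiMeasurePreserving_fst (μ := phaseMeasure A)
    (ν := (Measure.count : Measure Bool))).ae hp

/-- the local description of a translation, for one near side -/
def Desc (A : Fin 3 → Plane) (ζ : ℂ) (z : Phase × Bool) : Prop :=
  ((∀ j, 0 < cd A j z.1.1) → (∀ j, 0 < cd A j (z.1.1 + frm z ζ)) →
    tr (flowM A) rotF ζ z = ((z.1.1 + frm z ζ, z.1.2), z.2)) ∧
  (∀ i, (∀ j, 0 < cd A j z.1.1) → cd A i (z.1.1 + frm z ζ) < 0 →
    (∀ j, j ≠ i → ∀ y, dist z.1.1 y ≤ ‖ζ‖ → 0 < cd A j y ∧ 0 < cd A j (refl A i y)) →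
    (tr (flowM A) rotF ζ z).1.1 = refl A i (z.1.1 + frm z ζ) ∧
    ((tr (flowM A) rotF ζ z).1.2 : Plane) = mirror (sideVec A i) (z.1.2 : Plane) ∧
    (tr (flowM A) rotF ζ z).2 = !z.2)

lemma ae_desc (ht : StTr) {A : Fin 3 → Plane} (hA : AffineIndependent ℝ A) (ζ : ℂ) :
    ∀ᵐ z ∂(μM A), Desc A ζ z := by
  obtain ⟨h1, h2, -, -⟩ := ht A hA ζ
  have h2' := ae_all_iff.2 h2
  filter_upwards [h1, h2'] with z a b
  exact ⟨a, b⟩

lemma ext3 {z w : Phase × Bool} (h1 : z.1.1 = w.1.1) (h2 : (z.1.2 : Plane) = (w.1.2 : Plane))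
    (h3 : z.2 = w.2) : z = w :=
  Prod.ext (Prod.ext h1 (Subtype.ext h2)) h3

/-- the parallelogram law at one good frame -/
lemma comm_at (h2 : StG2) {A : Fin 3 → Plane} (hA : AffineIndependent ℝ A)
    {ε : ℝ} {ζ ζ' : ℂ} (hζ : ‖ζ‖ ≤ ε) (hζ' : ‖ζ'‖ ≤ ε) {z : Phase × Bool} {i : Fin 3}
    (hi : ∀ j, j ≠ i → ∀ y, dist z.1.1 y ≤ 2 * ε → 0 < cd A j y ∧ 0 < cd A j (refl A i y))
    (hz : ∀ j, 0 < cd A j z.1.1)
    (hd1 : Desc A ζ z) (hd2 : Desc A ζ' (tr (flowM A) rotF ζ z)) (hd3 : Desc A (ζ + ζ') z)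
    (hn1 : cd A i (z.1.1 + frm z ζ) ≠ 0) (hn2 : cd A i (z.1.1 + frm z (ζ + ζ')) ≠ 0) :
    tr (flowM A) rotF ζ' (tr (flowM A) rotF ζ z) = tr (flowM A) rotF (ζ + ζ') z := by
  obtain ⟨g1, g2, g3, -, g5, g6, g7, -, -, g10, -, -, -⟩ := h2 A hA i
  set x := z.1.1 with hx
  set y1 := x + frm z ζ with hy1
  set y2 := x + frm z (ζ + ζ') with hy2
  have hy12 : y2 = y1 + frm z ζ' := by rw [hy2, frm_add, hy1, add_assoc]
  have dx1 : dist x y1 ≤ ε := by
    rw [hy1, dist_self_add_right, norm_frm]; exact hζ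
  have d12 : dist y1 y2 ≤ ε := by
    rw [hy12, dist_self_add_right, norm_frm]; exact hζ'
  have dx2 : dist x y2 ≤ 2 * ε := by linarith [dist_triangle x y1 y2]
  have hε : 0 ≤ ε := (norm_nonneg ζ).trans hζ
  have dx1' : dist x y1 ≤ 2 * ε := by linarith
  have hsum : ‖ζ + ζ'‖ ≤ 2 * ε := (norm_add_le _ _).trans (by linarith)
  -- interior of `y1`, `y2` with respect to the other sides
  have o1 : ∀ j, j ≠ i → 0 < cd A j y1 ∧ 0 < cd A j (refl A i y1) := fun j hj => hi j hj y1 dx1'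
  have o2 : ∀ j, j ≠ i → 0 < cd A j y2 ∧ 0 < cd A j (refl A i y2) := fun j hj => hi j hj y2 dx2
  -- right-hand side
  have R1 : 0 < cd A i y2 → tr (flowM A) rotF (ζ + ζ') z = ((y2, z.1.2), z.2) := by
    intro h
    refine hd3.1 hz fun j => ?_
    rcases eq_or_ne j i with rfl | hj
    · exact h
    · exact (o2 j hj).1
  have R2 : cd A i y2 < 0 → (tr (flowM A) rotF (ζ + ζ') z).1.1 = refl A i y2 ∧
      ((tr (flowM A) rotF (ζ + ζ') z).1.2 : Plane) = mirror (sideVec A i) (z.1.2 : Plane) ∧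
      (tr (flowM A) rotF (ζ + ζ') z).2 = !z.2 := by
    intro h
    exact hd3.2 i hz h fun j hj y hy => hi j hj y (hy.trans hsum)
  rcases lt_or_gt_of_ne hn1 with h1 | h1
  · -- the first translation crosses the side
    obtain ⟨e1, e2, e3⟩ := hd1.2 i hz h1 fun j hj y hy => hi j hj y (hy.trans (by linarith))
    set z1 := tr (flowM A) rotF ζ z with hz1
    have hz1int : ∀ j, 0 < cd A j z1.1.1 := by
      intro j
      rw [e1]
      rcases eq_or_ne j i with rfl | hj
      · rw [g7]; linarith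
      · exact (o1 j hj).2
    have hfrm : frm z1 ζ' = mirror (sideVec A i) (frm z ζ') := by
      have hm := g5 ζ'.re (sgn z.2 * ζ'.im) (z.1.2 : Plane) (J (z.1.2 : Plane))
      rw [frm, e2, e3, sgn_not, g10, frm, hm]
      module
    have htgt : z1.1.1 + frm z1 ζ' = refl A i y2 := by
      rw [e1, hfrm, hy12]
      have := g6 y1 1 (frm z ζ')
      simpa using this.symm
    rcases lt_or_gt_of_ne hn2 with h2' | h2'
    · -- end point outside: target inside
      have hL := hd2.1 hz1int (by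
        intro j
        rw [htgt]
        rcases eq_or_ne j i with rfl | hj
        · rw [g7]; linarith
        · exact (o2 j hj).2)
      obtain ⟨r1, r2, r3⟩ := R2 h2'
      rw [hL]
      refine ext3 ?_ ?_ ?_
      · show z1.1.1 + frm z1 ζ' = _
        rw [htgt, r1]
      · show (z1.1.2 : Plane) = _
        rw [e2, r2]
      · show z1.2 = _
        rw [e3, r3]
    · -- end point inside: crosses back
      have hcond : ∀ j, j ≠ i → ∀ y, dist z1.1.1 y ≤ ‖ζ'‖ →
          0 < cd A j y ∧ 0 < cd A j (refl A i y) := by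
        intro j hj y hy
        have hd : dist y1 (refl A i y) ≤ ε := by
          rw [← g3 y1 (refl A i y), g1, ← e1]
          exact hy.trans hζ'
        have hd' : dist x (refl A i y) ≤ 2 * ε := by
          linarith [dist_triangle x y1 (refl A i y)]
        have := hi j hj _ hd'
        rw [g1] at this
        exact ⟨this.2, this.1⟩
      obtain ⟨s1, s2, s3⟩ := hd2.2 i hz1int (by rw [htgt, g7]; linarith) hcond
      rw [R1 h2']
      refine ext3 ?_ ?_ ?_
      · rw [s1, htgt, g1]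
      · rw [s2, e2, g2]
      · rw [s3, e3, Bool.not_not]
  · -- the first translation stays inside
    have e := hd1.1 hz (by
      intro j
      rcases eq_or_ne j i with rfl | hj
      · exact h1
      · exact (o1 j hj).1)
    have hz1int : ∀ j, 0 < cd A j (tr (flowM A) rotF ζ z).1.1 := by
      intro j
      rw [e]
      rcases eq_or_ne j i with rfl | hj
      · exact h1
      · exact (o1 j hj).1
    have hfrm : frm (tr (flowM A) rotF ζ z) ζ' = frm z ζ' := by
      rw [e]; rfl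
    have htgt : (tr (flowM A) rotF ζ z).1.1 + frm (tr (flowM A) rotF ζ z) ζ' = y2 := by
      rw [hfrm, e, hy12]
    rcases lt_or_gt_of_ne hn2 with h2' | h2'
    · have hcond : ∀ j, j ≠ i → ∀ y, dist (tr (flowM A) rotF ζ z).1.1 y ≤ ‖ζ'‖ →
          0 < cd A j y ∧ 0 < cd A j (refl A i y) := by
        intro j hj y hy
        rw [e] at hy
        have hy' : dist y1 y ≤ ‖ζ'‖ := hy
        exact hi j hj y (by linarith [dist_triangle x y1 y])
      obtain ⟨s1, s2, s3⟩ := hd2.2 i hz1int (by rw [htgt]; exact h2') hcond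
      obtain ⟨r1, r2, r3⟩ := R2 h2'
      refine ext3 ?_ ?_ ?_
      · rw [s1, htgt, r1]
      · rw [s2, r2, e]
      · rw [s3, r3, e]
    · have hL := hd2.1 hz1int (by
        intro j
        rw [htgt]
        rcases eq_or_ne j i with rfl | hj
        · exact h2'
        · exact (o2 j hj).1)
      rw [hL, R1 h2', htgt, e]

/-- H13 -/
theorem lc : StG1 → StG2 → StG3 → StRot → StLoc → StTr → StMP → StLC := by
  intro h1 h2 h3 hrot hloc ht hmp A hA
  have hint := ae_interior h1 hA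
  refine ⟨?_, ?_⟩
  · obtain ⟨⟨C₀, hC₀, hC⟩, -⟩ := h3 A hA
    refine ⟨C₀, hC₀, fun ε hε ζ ζ' hζ hζ' => ?_⟩
    have hd1 := ae_desc ht hA ζ
    have hd2 : ∀ᵐ z ∂(μM A), Desc A ζ' (tr (flowM A) rotF ζ z) :=
      (tr_mp hrot hmp hA ζ).quasiMeasurePreserving.ae (ae_desc ht hA ζ')
    have hd3 := ae_desc ht hA (ζ + ζ')
    have hn1 := (ht A hA ζ).2.2.2
    have hn2 := (ht A hA (ζ + ζ')).2.2.2
    filter_upwards [hint, hd1, hd2, hd3, hn1, hn2] with z hz a1 a2 a3 b1 b2 hv
    obtain ⟨i, hi⟩ := hC z.1.1 ε hε hv (fun i => (hz i).le)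
    exact comm_at h2 hA hζ hζ' hi hz a1 a2 a3 (b1 i) (b2 i)
  · obtain ⟨-, r0, radd, -, -, -, -, rfrm⟩ := hrot
    obtain ⟨-, -, -, -, -, -, -, hcont, -, -, -⟩ := h1 A hA
    filter_upwards [hint] with z hz
    -- a ball around the base point inside the triangle
    have hopen : IsOpen {x : Plane | ∀ j, 0 < cd A j x} := by
      have : {x : Plane | ∀ j, 0 < cd A j x} = ⋂ j, {x | 0 < cd A j x} := by ext; simp
      rw [this]
      exact isOpen_iInter_of_finite fun j => isOpen_lt continuous_const (hcont j)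
    obtain ⟨r, hr, hball⟩ := Metric.isOpen_iff.1 hopen z.1.1 hz
    have key : ∀ ζ : ℂ, ‖ζ‖ < r → ∃ w : Plane, ‖w‖ ≤ ‖ζ‖ ∧
        tr (flowM A) rotF ζ z = ((z.1.1 + w, z.1.2), z.2) := by
      intro ζ hζ
      set z' := rotF ζ.arg z with hz'
      have hz'1 : z'.1.1 = z.1.1 := rfl
      have hback : rotF (-ζ.arg) z' = z := by rw [hz', ← radd, neg_add_cancel, r0]
      have hnv : ‖(z'.1.2 : Plane)‖ = 1 := norm_sphere _
      by_cases hok : OK A z'.1
      · have hin : ∀ j, 0 < cd A j (z'.1.1 + ‖ζ‖ • (z'.1.2 : Plane)) := by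
          refine hball ?_
          rw [hz'1, Metric.mem_ball, dist_self_add_left, norm_smul, hnv]
          simpa using hζ
        obtain ⟨f1, f2⟩ := (hloc A hA).1 z'.1 ‖ζ‖ (norm_nonneg _) hok hz hin
        refine ⟨‖ζ‖ • (z'.1.2 : Plane), by rw [norm_smul, hnv]; simp, ?_⟩
        have hfl : flowM A ‖ζ‖ z' = ((z'.1.1 + ‖ζ‖ • (z'.1.2 : Plane), z'.1.2), z'.2) := by
          rw [flowM, f1, f2]; simp
        have hb2 : (rotF (-ζ.arg) z').1.2 = z.1.2 := by rw [hback]
        have hb3 : (rotF (-ζ.arg) z').2 = z.2 := by rw [hback]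
        rw [tr, ← hz', hfl]
        refine Prod.ext (Prod.ext rfl ?_) ?_
        · rw [← hb2]; rfl
        · rw [← hb3]; rfl
      · refine ⟨0, by simp, ?_⟩
        have hfl : flowM A ‖ζ‖ z' = z' := by
          rw [flowM, flowP, par, dif_neg (fun h => hok h.1), dif_neg (fun h => hok h.1)]
          simp
        rw [tr, ← hz', hfl, hback, add_zero]
    choose! w hw1 hw2 using key
    have hwt : Tendsto w (𝓝 0) (𝓝 0) := by
      rw [tendsto_zero_iff_norm_tendsto_zero]
      refine squeeze_zero' (Eventually.of_forall fun _ => norm_nonneg _) ?_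
        (tendsto_norm_zero : Tendsto (fun ζ : ℂ => ‖ζ‖) (𝓝 0) (𝓝 0))
      filter_upwards [Metric.ball_mem_nhds (0 : ℂ) hr] with ζ hζ
      exact hw1 ζ (by simpa using hζ)
    have hev : (fun ζ : ℂ => (((z.1.1 + w ζ, z.1.2), z.2) : Phase × Bool))
        =ᶠ[𝓝 0] fun ζ : ℂ => tr (flowM A) rotF ζ z := by
      filter_upwards [Metric.ball_mem_nhds (0 : ℂ) hr] with ζ hζ
      exact (hw2 ζ (by simpa using hζ)).symm
    refine Tendsto.congr' hev ?_
    have h4 : Tendsto (fun ζ : ℂ => z.1.1 + w ζ) (𝓝 0) (𝓝 z.1.1) := by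
      have := (tendsto_const_nhds (x := z.1.1)).add hwt
      simpa using this
    exact (h4.prodMk_nhds tendsto_const_nhds).prodMk_nhds tendsto_const_nhds

end Crest.Agent.R103.LCm
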