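import Crest.Agent.R103.IfaceG

/-!
# R103, H11: short time behaviour of the billiard flow (no collision / exactly one collision)
-/

open MeasureTheory Filter Topology
open Crest.AnalysisR.Billiard

noncomputable section

namespace Crest.Agent.R103

namespace Loc

variable {A : Fin 3 → Plane}

/-- the data of the zeroth flight of a chain through `p` -/
lemma flight_zero (c : Chain A) {p : Phase} (hp : c.Through p) :
    p.1 = c.q 0 - c.t 0 • c.vel 0 ∧ (p.2 : Plane) = c.vel 0 := by
  have h := (through_iff c p).1 hp
  have h1 : p.1 = (stateAt c 0).1 := by rw [h]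
  have h2 : (p.2 : Plane) = (stateAt c 0).2 := by rw [h]
  simp only [stateAt, idx_zero] at h1 h2
  refine ⟨?_, h2⟩
  rw [h1]; simp [sub_eq_add_neg]

/-- the next collision point on the straight line of the flight -/
lemma q_succ (c : Chain A) (k : ℤ) :
    c.q (k + 1) = c.q k + (c.t (k + 1) - c.t k) • c.vel k := by
  have h : c.t (k + 1) - c.t k ≠ 0 := (sub_pos.2 (c.strictMono_t (by omega))).ne'
  rw [Chain.vel, smul_smul, mul_inv_cancel₀ h, one_smul]
  abel

/-- the first collision point through `p` -/
lemma q_one (c : Chain A) {p : Phase} (hp : c.Through p) :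
    c.q 1 = p.1 + c.t 1 • (p.2 : Plane) := by
  obtain ⟨h1, h2⟩ := flight_zero c hp
  have h3 := q_succ c 0
  rw [zero_add] at h3
  rw [h3, h1, h2]
  module

/-- the velocity after the first collision -/
lemma vel_one (c : Chain A) {p : Phase} (hp : c.Through p) :
    c.vel 1 = mirror (sideVec A (c.side 1)) (p.2 : Plane) := by
  obtain ⟨-, h2⟩ := flight_zero c hp
  have h := c.reflect 0
  simp only [zero_add] at h
  rw [h2]
  exact h

lemma stateAt_of_idx_zero (c : Chain A) {p : Phase} (hp : c.Through p) {t : ℝ}
    (h : idx c t = 0) : stateAt c t = (p.1 + t • (p.2 : Plane), p.2) := by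
  obtain ⟨h1, h2⟩ := flight_zero c hp
  refine Prod.ext ?_ (Subtype.ext ?_)
  · simp only [stateAt, h]
    rw [h1, h2]
    module
  · simp only [stateAt, h]
    exact h2.symm

end Loc

open Loc in
theorem loc : StG1 → StG2 → StUniq → StExist → StLoc := by
  intro hG1 hG2 _ hEx A hA
  obtain ⟨-, -, -, hcd, -, -, -, -, -, -, hside⟩ := hG1 A hA
  constructor
  · intro p t ht hOK h0 h1
    have hgood : Good A p := hEx A hA p hOK
    have hthr : (chainOf A p hgood).Through p := hgood.choose_spec
    set c := chainOf A p hgood with hc
    have hq1 := q_one c hthr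
    have hms := c.mem_side 1
    rw [hside] at hms
    obtain ⟨hz, -⟩ := hms
    have ht1 : t < c.t 1 := by
      by_contra hcon
      push Not at hcon
      rw [hq1, hcd] at hz
      have h3 := h1 (c.side 1)
      rw [hcd] at h3
      have h4 := h0 (c.side 1)
      have h5 := c.t_one_pos
      nlinarith
    have hidx : idx c t = 0 :=
      idx_unique c (c.t_zero_le.trans ht) (by simpa using ht1)
    have hst := stateAt_of_idx_zero c hthr hidx
    constructor
    · rw [flowP, dif_pos ⟨hOK, hgood⟩]
      exact hst
    · rw [par, dif_pos ⟨hOK, hgood⟩]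
      show decide (Odd (idx c t)) = false
      rw [hidx]; decide
  · intro p t i ht hOK h0 hneg hpos
    obtain ⟨-, -, -, -, -, hrefl, -, -, hfix, -, -, -, -⟩ := hG2 A hA i
    have hgood : Good A p := hEx A hA p hOK
    have hthr : (chainOf A p hgood).Through p := hgood.choose_spec
    set c := chainOf A p hgood with hc
    have hq1 := q_one c hthr
    have hms := c.mem_side 1
    rw [hside] at hms
    obtain ⟨hz, hz'⟩ := hms
    have hq1nn : ∀ j, 0 ≤ cd A j (c.q 1) := by
      intro j
      by_cases hj : j = c.side 1
      · rw [hj, hz]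
      · exact (hz' j hj).le
    have htp := c.t_one_pos
    have ht1 : c.t 1 ≤ t := by
      by_contra hcon
      push Not at hcon
      have h3 := hq1nn i
      rw [hq1, hcd] at h3
      rw [hcd] at hneg
      have h4 := h0 i
      nlinarith
    have hs1 : c.side 1 = i := by
      by_contra hcon
      have := (hpos _ hcon (c.t 1) htp.le ht1).1
      rw [← hq1, hz] at this
      exact lt_irrefl _ this
    have hv1 := vel_one c hthr
    rw [hs1] at hv1 hz
    have hline : ∀ s : ℝ, c.q 1 + (s - c.t 1) • c.vel 1 = refl A i (p.1 + s • (p.2 : Plane)) := by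
      intro s
      have : p.1 + s • (p.2 : Plane) = c.q 1 + (s - c.t 1) • (p.2 : Plane) := by
        rw [hq1]; module
      rw [this, hrefl, hfix _ hz, hv1]
    have ht2 : t < c.t 2 := by
      by_contra hcon
      push Not at hcon
      have h12 : c.t 1 < c.t 2 := c.strictMono_t (by norm_num)
      have hms2 := c.mem_side 2
      rw [hside] at hms2
      have hne : c.side 2 ≠ i := by
        have := c.side_ne 1
        rw [hs1] at this
        exact this
      have h5 := (hpos _ hne (c.t 2) (by linarith) hcon).2
      have h6 : c.q 2 = refl A i (p.1 + c.t 2 • (p.2 : Plane)) := by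
        rw [← hline]
        exact q_succ c 1
      rw [← h6, hms2.1] at h5
      exact lt_irrefl _ h5
    have hidx : idx c t = 1 := idx_unique c ht1 (by simpa using ht2)
    refine ⟨?_, ?_, ?_⟩
    · rw [flowP, dif_pos ⟨hOK, hgood⟩]
      show (stateAt c t).1 = _
      simp only [stateAt, hidx]
      exact hline t
    · rw [flowP, dif_pos ⟨hOK, hgood⟩]
      show ((stateAt c t).2 : Plane) = _
      simp only [stateAt, hidx]
      exact hv1
    · rw [par, dif_pos ⟨hOK, hgood⟩]
      show decide (Odd (idx c t)) = true
      rw [hidx]; decide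

end Crest.Agent.R103
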