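import Crest.Agent.R103.Iface

/-!
# R103, A7: the main estimate

`h = η u` with `η` the logarithmic cutoff at the scale of the deformed metric.  The two first
harmonics of `h` at scale `δ` are estimated by pairing the directions `α ↔ π - α` and `α ↔ -α`,
and the telescoping lemma gives the bound for all weight components.
-/

open MeasureTheory Filter Topology
open scoped InnerProductSpace

noncomputable section

namespace Crest.Agent.R103.Mn

/-! ## Representation facts -/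

section rotfacts

variable {Ω : Type} [TopologicalSpace Ω] [MeasurableSpace Ω] {μ : Measure Ω}

lemma rot_zero (S : PlaneSys Ω μ) (f : Lp ℂ 2 μ) : S.rot 0 f = f := by
  apply Lp.ext
  filter_upwards [S.rot_coe 0 f] with z hz
  rw [hz, S.R_zero]

lemma rot_add (S : PlaneSys Ω μ) (a b : ℝ) (f : Lp ℂ 2 μ) :
    S.rot (a + b) f = S.rot a (S.rot b f) := by
  apply Lp.ext
  have h1 := (S.R_mp a).quasiMeasurePreserving.ae (S.rot_coe b f)
  filter_upwards [S.rot_coe (a + b) f, S.rot_coe a (S.rot b f), h1] with z h2 h3 h4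
  rw [h2, h3, h4, add_comm a b, S.R_add]

lemma rot_two_pi (S : PlaneSys Ω μ) (f : Lp ℂ 2 μ) : S.rot (2 * Real.pi) f = f := by
  apply Lp.ext
  filter_upwards [S.rot_coe (2 * Real.pi) f] with z hz
  rw [hz, S.R_two_pi]

end rotfacts

/-! ## Harmonics and pairing of directions -/

section harmonics

variable {H : Type*} [NormedAddCommGroup H] [NormedSpace ℂ H]

lemma harm_add_eq (F : ℝ → H) (hF : Continuous F) :
    harm (-1) F + harm 1 F
      = ((2 * Real.pi)⁻¹ : ℝ) • ∫ α in (0 : ℝ)..(2 * Real.pi), (2 * Complex.cos α) • F α := by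
  unfold harm
  rw [← smul_add, ← intervalIntegral.integral_add]
  · congr 1
    apply intervalIntegral.integral_congr
    intro α _
    simp only
    rw [← add_smul, Complex.two_cos]
    congr 1
    push_cast
    rw [add_comm]
    congr 1 <;> congr 1 <;> ring
  · apply Continuous.intervalIntegrable
    fun_prop
  · apply Continuous.intervalIntegrable
    fun_prop

lemma harm_sub_eq (F : ℝ → H) (hF : Continuous F) :
    harm 1 F - harm (-1) F
      = ((2 * Real.pi)⁻¹ : ℝ) •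
        ∫ α in (0 : ℝ)..(2 * Real.pi), (2 * Complex.sin α * Complex.I) • F α := by
  unfold harm
  rw [← smul_sub, ← intervalIntegral.integral_sub]
  · congr 1
    apply intervalIntegral.integral_congr
    intro α _
    simp only
    rw [← sub_smul]
    congr 1
    have h := Complex.two_sin (α : ℂ)
    rw [h]
    push_cast
    have e1 : (1 : ℂ) * (α : ℂ) * Complex.I = α * Complex.I := by ring
    have e2 : (-1 : ℂ) * (α : ℂ) * Complex.I = -α * Complex.I := by ring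
    rw [e1, e2, mul_assoc, Complex.I_mul_I]
    ring
  · apply Continuous.intervalIntegrable
    fun_prop
  · apply Continuous.intervalIntegrable
    fun_prop

lemma norm_aux (I : H) (M : ℝ) (h : ‖(2 : ℂ) • I‖ ≤ M * (2 * Real.pi)) :
    ‖((2 * Real.pi)⁻¹ : ℝ) • ((2 : ℂ) • I)‖ ≤ M := by
  have hpi : 0 < 2 * Real.pi := by positivity
  rw [norm_smul, Real.norm_eq_abs, abs_of_pos (by positivity : 0 < (2 * Real.pi)⁻¹)]
  rw [inv_mul_le_iff₀ hpi]
  linarith

lemma pair_add_le (F : ℝ → H) (hF : Continuous F) (hper : ∀ α, F (α + 2 * Real.pi) = F α)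
    (M : ℝ) (hM : ∀ α, ‖F α - F (Real.pi - α)‖ ≤ M) :
    ‖harm (-1) F + harm 1 F‖ ≤ M := by
  have hpi : 0 < 2 * Real.pi := by positivity
  rw [harm_add_eq F hF]
  set G : ℝ → H := fun α => Complex.cos α • F α with hG
  have hGc : Continuous G := by
    rw [hG]; fun_prop
  have hGper : Function.Periodic G (2 * Real.pi) := by
    intro α
    simp only [hG]
    rw [hper]
    congr 1
    push_cast
    exact Complex.cos_add_two_pi _
  set I : H := ∫ α in (0 : ℝ)..(2 * Real.pi), G α with hI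
  have hI2 : (∫ α in (0 : ℝ)..(2 * Real.pi), G (Real.pi - α)) = I := by
    rw [intervalIntegral.integral_comp_sub_left (fun α => G α) Real.pi]
    have h := hGper.intervalIntegral_add_eq (Real.pi - 2 * Real.pi) 0
    rw [show Real.pi - 2 * Real.pi + 2 * Real.pi = Real.pi - 0 by ring, zero_add] at h
    rw [h]
  have h2 : (∫ α in (0 : ℝ)..(2 * Real.pi), (2 * Complex.cos α) • F α) = (2 : ℂ) • I := by
    rw [hI, ← intervalIntegral.integral_smul]
    apply intervalIntegral.integral_congr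
    intro α _
    simp only [hG]
    rw [smul_smul]
  rw [h2]
  apply norm_aux
  have h3 : (2 : ℂ) • I = ∫ α in (0 : ℝ)..(2 * Real.pi), Complex.cos α • (F α - F (Real.pi - α)) := by
    rw [two_smul]
    nth_rewrite 2 [← hI2]
    rw [hI, ← intervalIntegral.integral_add]
    · apply intervalIntegral.integral_congr
      intro α _
      simp only [hG]
      push_cast
      rw [Complex.cos_pi_sub, neg_smul, smul_sub, ← sub_eq_add_neg]
    · exact hGc.intervalIntegrable _ _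
    · exact (hGc.comp (by fun_prop)).intervalIntegrable _ _
  rw [h3]
  have h4 := intervalIntegral.norm_integral_le_of_norm_le_const (a := 0) (b := 2 * Real.pi)
    (f := fun α : ℝ => Complex.cos α • (F α - F (Real.pi - α))) (C := M) (by
      intro α _
      rw [norm_smul]
      have hc : ‖Complex.cos (α : ℂ)‖ ≤ 1 := by
        rw [← Complex.ofReal_cos, Complex.norm_real, Real.norm_eq_abs]
        exact Real.abs_cos_le_one α
      calc ‖Complex.cos (α : ℂ)‖ * ‖F α - F (Real.pi - α)‖ ≤ 1 * ‖F α - F (Real.pi - α)‖ := by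
            gcongr
        _ ≤ M := by rw [one_mul]; exact hM α)
  rw [sub_zero, abs_of_pos hpi] at h4
  exact h4

lemma pair_sub_le (F : ℝ → H) (hF : Continuous F) (hper : ∀ α, F (α + 2 * Real.pi) = F α)
    (M : ℝ) (hM : ∀ α, ‖F α - F (-α)‖ ≤ M) :
    ‖harm 1 F - harm (-1) F‖ ≤ M := by
  have hpi : 0 < 2 * Real.pi := by positivity
  rw [harm_sub_eq F hF]
  set G : ℝ → H := fun α => (Complex.sin α * Complex.I) • F α with hG
  have hGc : Continuous G := by
    rw [hG]; fun_prop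
  have hGper : Function.Periodic G (2 * Real.pi) := by
    intro α
    simp only [hG]
    rw [hper]
    congr 2
    push_cast
    exact Complex.sin_add_two_pi _
  set I : H := ∫ α in (0 : ℝ)..(2 * Real.pi), G α with hI
  have hI2 : (∫ α in (0 : ℝ)..(2 * Real.pi), G (-α)) = I := by
    rw [intervalIntegral.integral_comp_neg (fun α => G α)]
    have h := hGper.intervalIntegral_add_eq (-(2 * Real.pi)) 0
    rw [show -(2 * Real.pi) + 2 * Real.pi = -0 by ring, zero_add] at h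
    rw [h]
  have h2 : (∫ α in (0 : ℝ)..(2 * Real.pi), (2 * Complex.sin α * Complex.I) • F α)
      = (2 : ℂ) • I := by
    rw [hI, ← intervalIntegral.integral_smul]
    apply intervalIntegral.integral_congr
    intro α _
    simp only [hG]
    rw [smul_smul]
    congr 1
    ring
  rw [h2]
  apply norm_aux
  have h3 : (2 : ℂ) • I
      = ∫ α in (0 : ℝ)..(2 * Real.pi), (Complex.sin α * Complex.I) • (F α - F (-α)) := by
    rw [two_smul]
    nth_rewrite 2 [← hI2]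
    rw [hI, ← intervalIntegral.integral_add]
    · apply intervalIntegral.integral_congr
      intro α _
      simp only [hG]
      push_cast
      rw [Complex.sin_neg, neg_mul, neg_smul, smul_sub, sub_eq_add_neg]
    · exact hGc.intervalIntegrable _ _
    · exact (hGc.comp (by fun_prop)).intervalIntegrable _ _
  rw [h3]
  have h4 := intervalIntegral.norm_integral_le_of_norm_le_const (a := 0) (b := 2 * Real.pi)
    (f := fun α : ℝ => (Complex.sin α * Complex.I) • (F α - F (-α))) (C := M) (by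
      intro α _
      rw [norm_smul]
      have hc : ‖Complex.sin (α : ℂ) * Complex.I‖ ≤ 1 := by
        rw [norm_mul, Complex.norm_I, mul_one, ← Complex.ofReal_sin, Complex.norm_real,
          Real.norm_eq_abs]
        exact Real.abs_sin_le_one α
      calc ‖Complex.sin (α : ℂ) * Complex.I‖ * ‖F α - F (-α)‖ ≤ 1 * ‖F α - F (-α)‖ := by
            gcongr
        _ ≤ M := by rw [one_mul]; exact hM α)
  rw [sub_zero, abs_of_pos hpi] at h4
  exact h4

end harmonics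

/-! ## `L²` estimates -/

section l2

variable {Ω : Type} [MeasurableSpace Ω] {μ : Measure Ω}

lemma norm_sq_eq (f : Lp ℂ 2 μ) : ‖f‖ ^ 2 = ∫ z, ‖f z‖ ^ 2 ∂μ := by
  have h1 : (⟪f, f⟫_ℂ) = ((‖f‖ : ℂ)) ^ 2 := inner_self_eq_norm_sq_to_K f
  have h2 : (⟪f, f⟫_ℂ) = ∫ z, (((‖f z‖ ^ 2 : ℝ)) : ℂ) ∂μ := by
    rw [L2.inner_def]
    apply integral_congr_ae
    filter_upwards with z
    have h := inner_self_eq_norm_sq_to_K (𝕜 := ℂ) (f z)
    rw [h]
    push_cast
    rfl
  rw [h1, integral_complex_ofReal] at h2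
  exact_mod_cast h2

lemma norm_le_of_ae [IsFiniteMeasure μ] (f : Lp ℂ 2 μ) (g : Ω → ℝ) (hg : Measurable g)
    (M : ℝ) (hgb : ∀ z, |g z| ≤ M) (B c : ℝ) (hB : 0 ≤ B)
    (h : ∀ᵐ z ∂μ, ‖f z‖ ≤ B * |g z|) (hc : ∫ z, g z ^ 2 ∂μ ≤ c) :
    ‖f‖ ≤ B * Real.sqrt c := by
  have hint : Integrable (fun z => g z ^ 2) μ := by
    refine Integrable.of_bound (hg.pow_const 2).aestronglyMeasurable (M ^ 2) ?_
    · filter_upwards with z
      rw [Real.norm_eq_abs, abs_pow]
      have := hgb z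
      gcongr
  have h0 : 0 ≤ ∫ z, g z ^ 2 ∂μ := integral_nonneg fun z => sq_nonneg _
  have hc0 : 0 ≤ c := h0.trans hc
  have h1 : ‖f‖ ^ 2 ≤ (B * Real.sqrt c) ^ 2 := by
    rw [norm_sq_eq, mul_pow, Real.sq_sqrt hc0]
    calc ∫ z, ‖f z‖ ^ 2 ∂μ ≤ ∫ z, B ^ 2 * g z ^ 2 ∂μ := by
          apply integral_mono_of_nonneg
          · filter_upwards with z; positivity
          · exact hint.const_mul _
          · filter_upwards [h] with z hz
            rw [← sq_abs (g z), ← mul_pow]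
            gcongr
      _ = B ^ 2 * ∫ z, g z ^ 2 ∂μ := by rw [integral_const_mul]
      _ ≤ B ^ 2 * c := by gcongr
  exact le_of_sq_le_sq h1 (by positivity)

end l2


/-! ## The cutoff function and the two displacement estimates -/

section est

variable {Ω : Type} [TopologicalSpace Ω] [MeasurableSpace Ω] {μ : Measure Ω}

/-- displacement in the direction of the flow: `h = η u`, `ζ₂` arbitrary, `t` real. -/
lemma X_est [IsFiniteMeasure μ] (S : PlaneSys Ω μ) (u h : Lp ℂ 2 μ) (η : Ω → ℝ) (B δ b t c : ℝ)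
    (ζ : ℂ) (hB : 0 ≤ B) (hδ : 0 < δ)
    (hu : ∀ᵐ z ∂μ, ‖u z‖ ≤ B) (hinv : S.Uφ t u = u)
    (hh : h =ᵐ[μ] fun z => (η z : ℂ) * u z)
    (hηm : Measurable η) (hη0 : ∀ z, 0 ≤ η z) (hη1 : ∀ z, η z ≤ 1)
    (hvan : ∀ z, S.ρ z < b → η z = 0) (hb : (2 * S.C₀ + 1) * δ ≤ b)
    (hζ : ‖ζ‖ ≤ δ) (ht : |t| ≤ 2 * δ) (hζt : ‖ζ + t‖ ≤ δ)
    (hc : ∫ z, (η (S.φ t z) - η z) ^ 2 ∂μ ≤ c) :
    ‖S.U (ζ + t) h - S.U ζ h‖ ≤ B * Real.sqrt c := by
  have hTm : Measurable (S.T ζ) := S.T_measurable ζ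
  refine norm_le_of_ae (S.U (ζ + t) h - S.U ζ h)
    (fun z => η (S.φ t (S.T ζ z)) - η (S.T ζ z)) ?_ 1 ?_ B c hB ?_ ?_
  · exact (hηm.comp ((S.φ_measurable t).comp hTm)).sub (hηm.comp hTm)
  · intro z
    rw [abs_le]
    constructor
    · linarith [hη0 (S.φ t (S.T ζ z)), hη1 (S.T ζ z)]
    · linarith [hη1 (S.φ t (S.T ζ z)), hη0 (S.T ζ z)]
  · -- pointwise bound
    have q1 := (S.T_mp ζ).quasiMeasurePreserving
    have q2 := (S.T_mp (ζ + t)).quasiMeasurePreserving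
    have q3 := (S.φ_mp t).quasiMeasurePreserving
    have a1 := S.U_coe (ζ + t) h
    have a2 := S.U_coe ζ h
    have a3 := q1.ae hh
    have a4 := q2.ae hh
    have a5 : ∀ᵐ z ∂μ, u (S.φ t z) = u z := by
      have := S.Uφ_coe t u
      rw [hinv] at this
      filter_upwards [this] with z hz using hz.symm
    have a6 := q1.ae a5
    have a7 := q1.ae hu
    have a8 := q1.ae (S.T_ofReal t)
    have hLC : ∀ᵐ z ∂μ, S.C₀ * (2 * δ) ≤ S.ρ z → S.T (t : ℂ) (S.T ζ z) = S.T (ζ + t) z :=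
      S.LC (2 * δ) (by linarith) ζ t (by linarith) (by
        rw [Complex.norm_real, Real.norm_eq_abs]; exact ht)
    filter_upwards [a1, a2, a3, a4, a6, a7, a8, hLC, Lp.coeFn_sub (S.U (ζ + t) h) (S.U ζ h)]
      with z h1 h2 h3 h4 h6 h7 h8 hLCz hsub
    rw [hsub, Pi.sub_apply, h1, h2, h3, h4]
    by_cases hz : S.C₀ * (2 * δ) ≤ S.ρ z
    · rw [← hLCz hz, h8, h6, ← sub_mul, norm_mul, ← Complex.ofReal_sub, Complex.norm_real,
        Real.norm_eq_abs, mul_comm]
      gcongr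
    · have hz' : S.ρ z < S.C₀ * (2 * δ) := not_le.1 hz
      have e1 : η (S.T ζ z) = 0 := hvan _ (by
        have := S.ρ_T ζ z
        nlinarith)
      have e2 : η (S.T (ζ + t) z) = 0 := hvan _ (by
        have := S.ρ_T (ζ + t) z
        nlinarith)
      rw [e1, e2]
      simp only [Complex.ofReal_zero, zero_mul, sub_zero, norm_zero]
      positivity
  · have hmp := S.T_mp ζ
    have : ∫ z, (η (S.φ t (S.T ζ z)) - η (S.T ζ z)) ^ 2 ∂μ
        = ∫ z, (η (S.φ t z) - η z) ^ 2 ∂μ := by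
      have hm : AEStronglyMeasurable (fun z => (η (S.φ t z) - η z) ^ 2)
          (Measure.map (S.T ζ) μ) :=
        (((hηm.comp (S.φ_measurable t)).sub hηm).pow_const 2).aestronglyMeasurable
      have h := integral_map hTm.aemeasurable hm
      rw [hmp.map_eq] at h
      exact h.symm
    rw [this]
    exact hc

/-- arbitrary small displacement of `h = η u`. -/
lemma Y_est [IsFiniteMeasure μ] (S : PlaneSys Ω μ) (u h : Lp ℂ 2 μ) (η : Ω → ℝ) (B c : ℝ)
    (ζ : ℂ) (hB : 0 ≤ B)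
    (hu : ∀ᵐ z ∂μ, ‖u z‖ ≤ B)
    (hh : h =ᵐ[μ] fun z => (η z : ℂ) * u z)
    (hηm : Measurable η) (hη0 : ∀ z, 0 ≤ η z) (hη1 : ∀ z, η z ≤ 1)
    (hc : ∫ z, (η (S.T ζ z) - η z) ^ 2 ∂μ ≤ c) :
    ‖S.U ζ h - h‖ ≤ B * Real.sqrt c + ‖S.U ζ u - u‖ := by
  have hTm : Measurable (S.T ζ) := S.T_measurable ζ
  -- the function `g = (η ∘ T - η) (u ∘ T)`
  set g : Ω → ℂ := fun z => ((η (S.T ζ z) - η z : ℝ) : ℂ) * (S.U ζ u) z with hg
  have hgm : MemLp g 2 μ := by
    have hm1 : AEStronglyMeasurable (fun z => ((η (S.T ζ z) - η z : ℝ) : ℂ)) μ :=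
      (Complex.measurable_ofReal.comp ((hηm.comp hTm).sub hηm)).aestronglyMeasurable
    refine MemLp.of_le (Lp.memLp (S.U ζ u)) (hm1.mul (Lp.aestronglyMeasurable _)) ?_
    filter_upwards with z
    rw [hg]
    simp only
    rw [norm_mul, Complex.norm_real, Real.norm_eq_abs]
    have : |η (S.T ζ z) - η z| ≤ 1 := by
      rw [abs_le]
      constructor
      · linarith [hη0 (S.T ζ z), hη1 z]
      · linarith [hη1 (S.T ζ z), hη0 z]
    calc |η (S.T ζ z) - η z| * ‖(S.U ζ u) z‖ ≤ 1 * ‖(S.U ζ u) z‖ := by gcongr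
      _ = _ := one_mul _
  set k : Ω → ℂ := fun z => (η z : ℂ) * (S.U ζ u - u) z with hk
  have hkm : MemLp k 2 μ := by
    have hm1 : AEStronglyMeasurable (fun z => (η z : ℂ)) μ :=
      (Complex.measurable_ofReal.comp hηm).aestronglyMeasurable
    refine MemLp.of_le (Lp.memLp (S.U ζ u - u)) (hm1.mul (Lp.aestronglyMeasurable _)) ?_
    filter_upwards with z
    rw [hk]
    simp only
    rw [norm_mul, Complex.norm_real, Real.norm_eq_abs, abs_of_nonneg (hη0 z)]
    calc η z * ‖(S.U ζ u - u : Lp ℂ 2 μ) z‖ ≤ 1 * ‖(S.U ζ u - u : Lp ℂ 2 μ) z‖ := by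
          gcongr; exact hη1 z
      _ = _ := one_mul _
  have hsum : S.U ζ h - h = hgm.toLp g + hkm.toLp k := by
    apply Lp.ext
    have q1 := (S.T_mp ζ).quasiMeasurePreserving
    filter_upwards [Lp.coeFn_sub (S.U ζ h) h, Lp.coeFn_add (hgm.toLp g) (hkm.toLp k),
      hgm.coeFn_toLp, hkm.coeFn_toLp, S.U_coe ζ h, hh, q1.ae hh, S.U_coe ζ u,
      Lp.coeFn_sub (S.U ζ u) u] with z h1 h2 h3 h4 h5 h6 h7 h8 h9
    rw [h1, h2, Pi.sub_apply, Pi.add_apply, h3, h4, h5, h6, h7]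
    simp only [hg, hk]
    rw [h9, Pi.sub_apply, h8]
    push_cast
    ring
  rw [hsum]
  refine (norm_add_le _ _).trans (add_le_add ?_ ?_)
  · refine norm_le_of_ae (hgm.toLp g) (fun z => η (S.T ζ z) - η z) ?_ 1 ?_ B c hB ?_ hc
    · exact (hηm.comp hTm).sub hηm
    · intro z
      rw [abs_le]
      constructor
      · linarith [hη0 (S.T ζ z), hη1 z]
      · linarith [hη1 (S.T ζ z), hη0 z]
    · have q1 := (S.T_mp ζ).quasiMeasurePreserving
      filter_upwards [hgm.coeFn_toLp, S.U_coe ζ u, q1.ae hu] with z h1 h2 h3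
      rw [h1]
      simp only [hg]
      rw [norm_mul, Complex.norm_real, Real.norm_eq_abs, h2, mul_comm]
      gcongr
  · apply Lp.norm_le_norm_of_ae_le
    filter_upwards [hkm.coeFn_toLp] with z h1
    rw [h1]
    simp only [hk]
    rw [norm_mul, Complex.norm_real, Real.norm_eq_abs, abs_of_nonneg (hη0 z)]
    calc η z * ‖(S.U ζ u - u : Lp ℂ 2 μ) z‖ ≤ 1 * ‖(S.U ζ u - u : Lp ℂ 2 μ) z‖ := by
          gcongr; exact hη1 z
      _ = _ := one_mul _

end est

/-! ## Assembly -/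

lemma SuppGe_mono {Ω : Type} [TopologicalSpace Ω] [MeasurableSpace Ω] {μ : Measure Ω}
    (S : PlaneSys Ω μ) {b b' : ℝ} (hb : b' ≤ b) {f : Lp ℂ 2 μ} (hf : S.SuppGe b f) :
    S.SuppGe b' f := by
  filter_upwards [hf] with z hz h
  exact hz (h.trans_le hb)

/-- the algebra behind the choice `r = (L²-1)/(L²+1)`. -/
lemma tele_alg {H : Type*} [NormedAddCommGroup H] [NormedSpace ℂ H] (ep em : H) (L : ℝ)
    (hL : 1 ≤ L) (a b : ℝ) (ha : ‖ep + em‖ ≤ a) (hb : ‖em - ep‖ ≤ b) :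
    (Real.sqrt (1 - ((L ^ 2 - 1) / (L ^ 2 + 1)) ^ 2))⁻¹ *
      ‖em + (((L ^ 2 - 1) / (L ^ 2 + 1) : ℝ) : ℂ) • ep‖ ≤ L / 2 * a + 1 / (2 * L) * b := by
  have hL0 : 0 < L := by linarith
  have hL2 : 0 < L ^ 2 + 1 := by positivity
  set r : ℝ := (L ^ 2 - 1) / (L ^ 2 + 1) with hr
  have hr1 : (1 + r) / 2 = L ^ 2 / (L ^ 2 + 1) := by
    rw [hr]; field_simp; ring
  have hr2 : (1 - r) / 2 = 1 / (L ^ 2 + 1) := by
    rw [hr]; field_simp; ring
  have hs : Real.sqrt (1 - r ^ 2) = 2 * L / (L ^ 2 + 1) := by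
    rw [Real.sqrt_eq_iff_mul_self_eq_of_pos (by positivity), hr]
    field_simp
    ring
  have hdec : em + (r : ℂ) • ep = (((1 + r) / 2 : ℝ) : ℂ) • (ep + em)
      + (((1 - r) / 2 : ℝ) : ℂ) • (em - ep) := by
    rw [smul_add, smul_sub]
    have e1 : (((1 + r) / 2 : ℝ) : ℂ) • em + (((1 - r) / 2 : ℝ) : ℂ) • em = em := by
      rw [← add_smul]
      have : (((1 + r) / 2 : ℝ) : ℂ) + (((1 - r) / 2 : ℝ) : ℂ) = 1 := by push_cast; ring
      rw [this, one_smul]
    have e2 : (((1 + r) / 2 : ℝ) : ℂ) • ep - (((1 - r) / 2 : ℝ) : ℂ) • ep = (r : ℂ) • ep := by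
      rw [← sub_smul]
      have : (((1 + r) / 2 : ℝ) : ℂ) - (((1 - r) / 2 : ℝ) : ℂ) = (r : ℂ) := by push_cast; ring
      rw [this]
    nth_rewrite 1 [← e1]
    rw [← e2]
    abel
  have hn : ‖em + (r : ℂ) • ep‖ ≤ L ^ 2 / (L ^ 2 + 1) * a + 1 / (L ^ 2 + 1) * b := by
    rw [hdec]
    refine (norm_add_le _ _).trans (add_le_add ?_ ?_)
    · rw [norm_smul, Complex.norm_real, hr1, Real.norm_eq_abs, abs_of_nonneg (by positivity)]
      gcongr
    · rw [norm_smul, Complex.norm_real, hr2, Real.norm_eq_abs, abs_of_nonneg (by positivity)]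
      gcongr
  rw [hs]
  calc (2 * L / (L ^ 2 + 1))⁻¹ * ‖em + (r : ℂ) • ep‖
      ≤ (2 * L / (L ^ 2 + 1))⁻¹ * (L ^ 2 / (L ^ 2 + 1) * a + 1 / (L ^ 2 + 1) * b) := by gcongr
    _ = L / 2 * a + 1 / (2 * L) * b := by
      field_simp

/-- the estimate for fixed parameters -/
lemma core (hTele : StTele) (hCont : PlaneSys.StCont) (hE : PlaneSys.StE) (hP : PlaneSys.StP)
    (hComm : PlaneSys.StComm) (hEta : PlaneSys.StEta) (hRt : PlaneSys.StRt)
    (Ω : Type) [TopologicalSpace Ω] [MeasurableSpace Ω] [BorelSpace Ω]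
    [SecondCountableTopology Ω] [TopologicalSpace.PseudoMetrizableSpace Ω]
    (μ : Measure Ω) [IsFiniteMeasure μ] (S : PlaneSys Ω μ) (u : Lp ℂ 2 μ) (B : ℝ) (hB : 0 ≤ B)
    (hu : ∀ᵐ z ∂μ, ‖u z‖ ≤ B) (hinv : ∀ t, S.Uφ t u = u)
    (ρ₀ : ℝ) (hρ₀ : 0 < ρ₀) (K : ℕ) (hK : 0 < K) (L : ℝ) (hL : 1 ≤ L) (δ : ℝ)
    (hδ : δ = PlaneSys.rad ρ₀ K / ((4 * S.C₀ + 4) * L)) (ω : ℝ)
    (hω : ∀ ζ : ℂ, ‖ζ‖ = δ → ‖S.U ζ u - u‖ ≤ ω) :
    ∃ h : Lp ℂ 2 μ, ‖h - u‖ ≤ B * Real.sqrt (80 * S.Cv * ρ₀ ^ 2) ∧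
      ∀ n : ℤ, ‖S.Ep δ (S.P n h)‖ ≤ B * (S.C₀ + 2) * Real.sqrt (180 * S.Cv / K) * δ + ω / L ∧
        ‖S.Em δ (S.P n h)‖ ≤ B * (S.C₀ + 2) * Real.sqrt (180 * S.Cv / K) * δ + ω / L := by
  have hC : 1 ≤ S.C₀ := S.one_le_C₀
  have hCv : 0 ≤ S.Cv := S.Cv_nonneg
  have hL0 : 0 < L := by linarith
  have hKr : (0 : ℝ) < K := by exact_mod_cast hK
  obtain ⟨hηm, hη0, hη1, hηvan, hηint, hηdiff⟩ := hEta Ω μ S L hL ρ₀ K hρ₀ hK
  obtain ⟨-, -, -, hrtφ, hrtT, -⟩ := hRt Ω μ S L hL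
  obtain ⟨hc0, hcrot, hcφ, hcU⟩ := hCont Ω μ S
  have hrad : 0 < PlaneSys.rad ρ₀ K := by unfold PlaneSys.rad; positivity
  have hδ0 : 0 < δ := by rw [hδ]; positivity
  have hδL : δ * L = PlaneSys.rad ρ₀ K / (4 * S.C₀ + 4) := by rw [hδ]; field_simp
  have hδL' : (4 * S.C₀ + 4) * δ = PlaneSys.rad ρ₀ K / L := by rw [hδ]; field_simp
  set η : Ω → ℝ := S.eta ρ₀ K L with hηdef
  -- the function `h`
  have hηu : MemLp (fun z => (η z : ℂ) * u z) 2 μ := by
    have hm1 : AEStronglyMeasurable (fun z => (η z : ℂ)) μ :=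
      (Complex.measurable_ofReal.comp hηm).aestronglyMeasurable
    refine MemLp.of_le (Lp.memLp u) (hm1.mul (Lp.aestronglyMeasurable _)) ?_
    filter_upwards with z
    rw [norm_mul, Complex.norm_real, Real.norm_eq_abs, abs_of_nonneg (hη0 z)]
    calc η z * ‖u z‖ ≤ 1 * ‖u z‖ := by gcongr; exact hη1 z
      _ = _ := one_mul _
  set h : Lp ℂ 2 μ := hηu.toLp _ with hhdef
  have hh : h =ᵐ[μ] fun z => (η z : ℂ) * u z := hηu.coeFn_toLp
  -- support
  have hsupp : S.SuppGe ((4 * S.C₀ + 4) * δ) h := by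
    filter_upwards [hh] with z hz hρ
    rw [hz, hηvan z (by rw [← hδL']; exact hρ)]
    simp
  -- square root abbreviation
  set s : ℝ := Real.sqrt (180 * S.Cv / K) with hs
  have hs0 : 0 ≤ s := Real.sqrt_nonneg _
  have hsq : ∀ a : ℝ, 0 ≤ a → Real.sqrt (a ^ 2 * (180 * S.Cv) / K) = a * s := by
    intro a ha
    rw [hs, mul_div_assoc, Real.sqrt_mul (sq_nonneg a), Real.sqrt_sq ha]
  -- the continuous circle function
  set F : ℝ → Lp ℂ 2 μ := fun α => S.U (δ * Complex.exp (α * Complex.I)) h with hF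
  have hFc : Continuous F := hcU δ h hδ0.le
  have hFper : ∀ α, F (α + 2 * Real.pi) = F α := by
    intro α
    simp only [hF]
    congr 2
    push_cast
    rw [add_mul, Complex.exp_add, Complex.exp_two_pi_mul_I, mul_one]
  -- X estimate
  have hX : ‖S.Ep δ h + S.Em δ h‖ ≤ B * (2 * δ / L * s) := by
    apply pair_add_le F hFc hFper
    intro α
    simp only [hF]
    set t : ℝ := 2 * δ * Real.cos α with ht
    set ζ : ℂ := δ * Complex.exp (((Real.pi - α : ℝ) : ℂ) * Complex.I) with hζ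
    have hsumζ : (δ : ℂ) * Complex.exp (α * Complex.I) = ζ + (t : ℂ) := by
      rw [hζ, ht]
      push_cast
      have h2 := Complex.two_cos (α : ℂ)
      have h3 : Complex.exp (((Real.pi : ℂ) - α) * Complex.I) = - Complex.exp (-α * Complex.I) := by
        rw [sub_mul, sub_eq_add_neg, Complex.exp_add, Complex.exp_pi_mul_I, neg_one_mul, neg_mul]
      rw [h3]
      have : (2 : ℂ) * δ * Complex.cos α = δ * (2 * Complex.cos α) := by ring
      rw [this, h2]
      ring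
    have hζn : ‖ζ‖ = δ := by
      rw [hζ, norm_mul, Complex.norm_exp_ofReal_mul_I, Complex.norm_real, Real.norm_eq_abs,
        abs_of_pos hδ0, mul_one]
    have hζn' : ‖ζ + (t : ℂ)‖ = δ := by
      rw [← hsumζ, norm_mul, Complex.norm_exp_ofReal_mul_I, Complex.norm_real, Real.norm_eq_abs,
        abs_of_pos hδ0, mul_one]
    have htabs : |t| ≤ 2 * δ := by
      rw [ht, abs_mul, abs_of_pos (by positivity : 0 < 2 * δ)]
      calc 2 * δ * |Real.cos α| ≤ 2 * δ * 1 := by gcongr; exact Real.abs_cos_le_one α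
        _ = 2 * δ := mul_one _
    rw [hsumζ]
    have ha : |t| / L ≤ PlaneSys.rad ρ₀ K / 2 := by
      rw [div_le_div_iff₀ hL0 two_pos]
      have h1 : (4 * S.C₀ + 4) * (δ * L) = PlaneSys.rad ρ₀ K := by
        rw [hδL]; field_simp
      have h2 : 8 * (δ * L) ≤ PlaneSys.rad ρ₀ K := by
        rw [← h1]
        have : 0 < δ * L := by positivity
        nlinarith
      have h3 : PlaneSys.rad ρ₀ K ≤ PlaneSys.rad ρ₀ K * L := by nlinarith
      nlinarith
    have hd := hηdiff (S.φ t) (|t| / L) (S.φ_measurable t) (by positivity) ha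
      (Eventually.of_forall fun z => hrtφ t z)
    have hest := X_est S u h η B δ ((4 * S.C₀ + 4) * δ) t _ ζ hB hδ0 hu (hinv t) hh hηm hη0 hη1
      (fun z hz => hηvan z (by rw [← hδL']; exact hz)) (by nlinarith) hζn.le htabs hζn'.le hd
    rw [hsq _ (by positivity)] at hest
    refine hest.trans ?_
    gcongr
  -- Y estimate
  have hY : ‖S.Em δ h - S.Ep δ h‖ ≤ 2 * (B * ((S.C₀ + 1) * L * δ * s) + ω) := by
    apply pair_sub_le F hFc hFper
    intro α
    have key : ∀ β : ℝ, ‖F β - h‖ ≤ B * ((S.C₀ + 1) * L * δ * s) + ω := by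
      intro β
      simp only [hF]
      set ζ : ℂ := δ * Complex.exp ((β : ℂ) * Complex.I) with hζ
      have hζn : ‖ζ‖ = δ := by
        rw [hζ, norm_mul, Complex.norm_exp_ofReal_mul_I, Complex.norm_real, Real.norm_eq_abs,
          abs_of_pos hδ0, mul_one]
      have ha : (S.C₀ + 1) * L * ‖ζ‖ ≤ PlaneSys.rad ρ₀ K / 2 := by
        rw [hζn]
        have h1 : (4 * S.C₀ + 4) * (δ * L) = PlaneSys.rad ρ₀ K := by
          rw [hδL]; field_simp
        nlinarith
      have hd := hηdiff (S.T ζ) ((S.C₀ + 1) * L * ‖ζ‖) (S.T_measurable ζ) (by positivity) ha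
        (hrtT ζ)
      have hest := Y_est S u h η B _ ζ hB hu hh hηm hη0 hη1 hd
      rw [hsq _ (by positivity), hζn] at hest
      exact hest.trans (by gcongr; exact hω ζ hζn)
    calc ‖F α - F (-α)‖ = ‖(F α - h) - (F (-α) - h)‖ := by congr 1; abel
      _ ≤ ‖F α - h‖ + ‖F (-α) - h‖ := norm_sub_le _ _
      _ ≤ 2 * (B * ((S.C₀ + 1) * L * δ * s) + ω) := by linarith [key α, key (-α)]
  -- telescoping
  obtain ⟨Ep', Em', hEp, hEm, -, -, hrEp, hrEm, -, -⟩ := hE Ω μ S δ hδ0.le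
  obtain ⟨-, -, -, -, hPsupp⟩ := hP Ω μ S
  have heq : ∀ n : ℤ, ‖S.Ep δ (S.P n h)‖ = ‖S.Em δ (S.P n h)‖ := by
    intro n
    apply hComm Ω μ S δ hδ0
    refine SuppGe_mono S ?_ (hPsupp n _ h hsupp)
    nlinarith
  have htele := hTele (Lp ℂ 2 μ) S.rot (rot_zero S) (rot_add S) (rot_two_pi S) hcrot Ep' Em'
    (by intro α f; rw [hEp, hEp]; exact hrEp α f)
    (by intro α f; rw [hEm, hEm]; exact hrEm α f) h
    (by intro n; rw [hEp, hEm]; exact heq n)
  have hr0 : 0 ≤ (L ^ 2 - 1) / (L ^ 2 + 1) := by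
    apply div_nonneg _ (by positivity)
    nlinarith
  have hr1 : (L ^ 2 - 1) / (L ^ 2 + 1) < 1 := by
    rw [div_lt_one (by positivity)]
    linarith
  have hfinal : ∀ n : ℤ, ‖S.Em δ (S.P n h)‖ ≤ B * (S.C₀ + 2) * s * δ + ω / L := by
    intro n
    have h1 := htele n _ hr0 hr1
    rw [hEm, hEm, hEp] at h1
    have h2 := tele_alg (S.Ep δ h) (S.Em δ h) L hL _ _ hX hY
    refine (h1.trans h2).trans (le_of_eq ?_)
    field_simp
    ring
  refine ⟨h, ?_, fun n => ⟨?_, hfinal n⟩⟩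
  · -- distance to `u`
    refine norm_le_of_ae (h - u) (fun z => 1 - η z) (measurable_const.sub hηm) 1 ?_ B _ hB ?_
      hηint
    · intro z
      rw [abs_le]
      constructor <;> linarith [hη0 z, hη1 z]
    · filter_upwards [Lp.coeFn_sub h u, hh, hu] with z h1 h2 h3
      rw [h1, Pi.sub_apply, h2]
      have : (η z : ℂ) * u z - u z = -((1 - η z : ℝ) : ℂ) * u z := by push_cast; ring
      rw [this, norm_mul, norm_neg, Complex.norm_real, Real.norm_eq_abs, mul_comm]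
      gcongr
  · rw [heq n]
    exact hfinal n

end Crest.Agent.R103.Mn

namespace Crest.Agent.R103

theorem main (hTele : StTele) (hCont : PlaneSys.StCont) (hE : PlaneSys.StE) (hP : PlaneSys.StP)
    (hComm : PlaneSys.StComm) (hEta : PlaneSys.StEta) (hRt : PlaneSys.StRt) :
    PlaneSys.StMain := by
  intro Ω _ _ _ _ _ μ _ S u B₀ hu₀ hinv ε hε δ₀ hδ₀
  set B : ℝ := max B₀ 0 with hB
  have hB0 : 0 ≤ B := le_max_right _ _
  have hu : ∀ᵐ z ∂μ, ‖u z‖ ≤ B := by
    filter_upwards [hu₀] with z hz using hz.trans (le_max_left _ _)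
  have hC : 1 ≤ S.C₀ := S.one_le_C₀
  have hCv : 0 ≤ S.Cv := S.Cv_nonneg
  -- choice of `ρ₀`
  obtain ⟨ρ₀, hρ₀, hρ₀'⟩ : ∃ ρ₀ : ℝ, 0 < ρ₀ ∧ B * Real.sqrt (80 * S.Cv * ρ₀ ^ 2) ≤ ε := by
    have hD : 0 < B * Real.sqrt (80 * S.Cv) + 1 := by positivity
    refine ⟨ε / (B * Real.sqrt (80 * S.Cv) + 1), by positivity, ?_⟩
    rw [Real.sqrt_mul (by positivity), Real.sqrt_sq (by positivity), ← mul_assoc,
      mul_div_assoc', div_le_iff₀ hD]
    nlinarith [Real.sqrt_nonneg (80 * S.Cv)]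
  -- choice of `K`
  obtain ⟨K, hK, hK'⟩ : ∃ K : ℕ, 0 < K ∧
      B * (S.C₀ + 2) * Real.sqrt (180 * S.Cv / K) ≤ ε / 2 := by
    have ht : Tendsto (fun K : ℕ => B * (S.C₀ + 2) * Real.sqrt (180 * S.Cv / K)) atTop
        (𝓝 (B * (S.C₀ + 2) * Real.sqrt 0)) := by
      refine Tendsto.const_mul _ ?_
      refine (Real.continuous_sqrt.tendsto 0).comp ?_
      exact tendsto_const_div_atTop_nhds_zero_nat _
    rw [Real.sqrt_zero, mul_zero] at ht
    have h1 := ht.eventually (gt_mem_nhds (show (0 : ℝ) < ε / 2 by positivity))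
    obtain ⟨K, hK1, hK2⟩ := (h1.and (eventually_gt_atTop 0)).exists
    exact ⟨K, hK2, hK1.le⟩
  -- the constant `c = L δ`
  have hrad : 0 < PlaneSys.rad ρ₀ K := by unfold PlaneSys.rad; positivity
  set c : ℝ := PlaneSys.rad ρ₀ K / (4 * S.C₀ + 4) with hc
  have hc0 : 0 < c := by positivity
  -- modulus of continuity
  obtain ⟨hcont0, -⟩ := hCont Ω μ S
  have hmod : ∀ᶠ ζ : ℂ in 𝓝 0, ‖S.U ζ u - u‖ < ε / 2 * c := by
    have h1 : Tendsto (fun ζ : ℂ => ‖S.U ζ u - u‖) (𝓝 0) (𝓝 0) := by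
      have h2 := ((hcont0 u).sub_const u).norm
      simpa using h2
    exact h1.eventually (gt_mem_nhds (by positivity))
  obtain ⟨δ₁, hδ₁, hmod'⟩ := Metric.eventually_nhds_iff.1 hmod
  -- choice of `L`
  obtain ⟨L, hL1, hL2⟩ : ∃ L : ℝ, 1 ≤ L ∧ c / L < min δ₀ δ₁ := by
    have hm : 0 < min δ₀ δ₁ := lt_min hδ₀ hδ₁
    refine ⟨max 1 (c / min δ₀ δ₁ + 1), le_max_left _ _, ?_⟩
    have hpos : 0 < max 1 (c / min δ₀ δ₁ + 1) := lt_of_lt_of_le one_pos (le_max_left _ _)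
    rw [div_lt_iff₀ hpos]
    have h1 : c / min δ₀ δ₁ < max 1 (c / min δ₀ δ₁ + 1) :=
      lt_of_lt_of_le (lt_add_one _) (le_max_right _ _)
    rw [div_lt_iff₀ hm] at h1
    linarith
  have hL0 : 0 < L := by linarith
  have hδeq : c / L = PlaneSys.rad ρ₀ K / ((4 * S.C₀ + 4) * L) := by
    rw [hc]; field_simp
  have hδpos : 0 < c / L := by positivity
  obtain ⟨h, hh1, hh2⟩ := Mn.core hTele hCont hE hP hComm hEta hRt Ω μ S u B hB0 hu hinv ρ₀ hρ₀ K
    hK L hL1 (c / L) hδeq (ε / 2 * c) (by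
      intro ζ hζ
      apply le_of_lt
      apply hmod'
      rw [dist_zero_right, hζ]
      exact hL2.trans_le (min_le_right _ _))
  refine ⟨c / L, hδpos, hL2.trans_le (min_le_left _ _), h, hh1.trans hρ₀', fun n => ?_⟩
  have hb : B * (S.C₀ + 2) * Real.sqrt (180 * S.Cv / K) * (c / L) + ε / 2 * c / L
      ≤ ε * (c / L) := by
    have h1 : B * (S.C₀ + 2) * Real.sqrt (180 * S.Cv / K) * (c / L) ≤ ε / 2 * (c / L) := by
      gcongr
    have h2 : ε / 2 * c / L = ε / 2 * (c / L) := by ring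
    rw [h2]
    linarith
  exact ⟨(hh2 n).1.trans hb, (hh2 n).2.trans hb⟩

end Crest.Agent.R103
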