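import Crest.Agent.R103.Iface

/-!
# R103, A3': properties of the weight projections
-/

open MeasureTheory Filter Topology
open scoped InnerProductSpace

noncomputable section

set_option linter.unusedSectionVars false

namespace Crest.Agent.R103

namespace POps

/-! ### general facts on `harm` in a Hilbert space -/

section Hilbert

variable {H : Type*} [NormedAddCommGroup H] [InnerProductSpace ℂ H] [CompleteSpace H]

lemma norm_char (k : ℤ) (α : ℝ) : ‖Complex.exp (k * α * Complex.I)‖ = 1 := by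
  have : ((k : ℂ) * (α : ℂ) * Complex.I) = ((k * α : ℝ) : ℂ) * Complex.I := by push_cast; ring
  rw [this, Complex.norm_exp_ofReal_mul_I]

lemma continuous_char (k : ℤ) : Continuous fun α : ℝ => Complex.exp (k * α * Complex.I) := by
  fun_prop

lemma conj_char (k : ℤ) (α : ℝ) :
    (starRingEnd ℂ) (Complex.exp (k * α * Complex.I))
      = Complex.exp (((-k : ℤ) : ℂ) * α * Complex.I) := by
  rw [← Complex.exp_conj]
  congr 1
  simp

lemma harm_norm_le {k : ℤ} {F : ℝ → H} {C : ℝ} (hF : ∀ α, ‖F α‖ ≤ C) : ‖harm k F‖ ≤ C := by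
  have hpi : (0 : ℝ) < 2 * Real.pi := by positivity
  have h1 : ‖∫ α in (0 : ℝ)..(2 * Real.pi), Complex.exp (k * α * Complex.I) • F α‖
      ≤ C * |2 * Real.pi - 0| := by
    refine intervalIntegral.norm_integral_le_of_norm_le_const fun α _ => ?_
    rw [norm_smul, norm_char, one_mul]
    exact hF α
  unfold harm
  rw [norm_smul, Real.norm_eq_abs, abs_inv, abs_of_pos hpi]
  rw [sub_zero, abs_of_pos hpi] at h1
  calc (2 * Real.pi)⁻¹ * ‖∫ α in (0 : ℝ)..(2 * Real.pi), Complex.exp (k * α * Complex.I) • F α‖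
      ≤ (2 * Real.pi)⁻¹ * (C * (2 * Real.pi)) := by gcongr
    _ = C := by field_simp

lemma harm_add {k : ℤ} {F G : ℝ → H} (hF : Continuous F) (hG : Continuous G) :
    harm k (fun α => F α + G α) = harm k F + harm k G := by
  unfold harm
  rw [← smul_add, ← intervalIntegral.integral_add]
  · simp only [smul_add]
  · exact ((continuous_char k).smul hF).intervalIntegrable _ _
  · exact ((continuous_char k).smul hG).intervalIntegrable _ _

lemma harm_smul {k : ℤ} {F : ℝ → H} (c : ℂ) :
    harm k (fun α => c • F α) = c • harm k F := by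
  unfold harm
  rw [smul_comm c]
  congr 1
  rw [← intervalIntegral.integral_smul]
  congr 1
  funext α
  exact smul_comm _ _ _

lemma harm_inner_left {k : ℤ} {F : ℝ → H} (hF : Continuous F) (g : H) :
    ⟪g, harm k F⟫_ℂ = ((2 * Real.pi)⁻¹ : ℝ) *
      ∫ α in (0 : ℝ)..(2 * Real.pi), Complex.exp (k * α * Complex.I) * ⟪g, F α⟫_ℂ := by
  unfold harm
  have hcont : Continuous fun α : ℝ => Complex.exp (k * α * Complex.I) • F α :=
    (continuous_char k).smul hF
  have h := (innerSL ℂ g).intervalIntegral_comp_comm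
    (μ := volume) (hcont.intervalIntegrable 0 (2 * Real.pi))
  simp only [innerSL_apply_apply, inner_smul_right] at h
  rw [h]
  have : (((2 * Real.pi)⁻¹ : ℝ) • ∫ α in (0 : ℝ)..(2 * Real.pi),
      Complex.exp (k * α * Complex.I) • F α)
      = (((2 * Real.pi)⁻¹ : ℝ) : ℂ) • ∫ α in (0 : ℝ)..(2 * Real.pi),
      Complex.exp (k * α * Complex.I) • F α := by
    exact (Complex.coe_smul _ _).symm
  rw [this, inner_smul_right]

lemma harm_inner_right {k : ℤ} {F : ℝ → H} (hF : Continuous F) (g : H) :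
    ⟪harm k F, g⟫_ℂ = ((2 * Real.pi)⁻¹ : ℝ) *
      ∫ α in (0 : ℝ)..(2 * Real.pi), Complex.exp (((-k : ℤ) : ℂ) * α * Complex.I) * ⟪F α, g⟫_ℂ := by
  rw [← inner_conj_symm, harm_inner_left hF, map_mul, Complex.conj_ofReal]
  congr 1
  rw [intervalIntegral.integral_of_le (by positivity), intervalIntegral.integral_of_le
    (by positivity), ← integral_conj]
  congr 1
  funext α
  rw [map_mul, conj_char, inner_conj_symm]

variable {rot : ℝ → H →ₗᵢ[ℂ] H}

lemma inner_rot_left (h0 : ∀ f, rot 0 f = f) (hadd : ∀ a b f, rot (a + b) f = rot a (rot b f))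
    (α : ℝ) (f g : H) : ⟪rot α f, g⟫_ℂ = ⟪f, rot (-α) g⟫_ℂ := by
  have : g = rot α (rot (-α) g) := by rw [← hadd, add_neg_cancel, h0]
  conv_lhs => rw [this]
  exact (rot α).inner_map_map _ _

lemma rot_periodic (hadd : ∀ a b f, rot (a + b) f = rot a (rot b f))
    (h2 : ∀ f, rot (2 * Real.pi) f = f) (f : H) :
    Function.Periodic (fun α => rot α f) (2 * Real.pi) := by
  intro α
  simp only [hadd, h2]

lemma char_periodic (k : ℤ) :
    Function.Periodic (fun α : ℝ => Complex.exp (k * α * Complex.I)) (2 * Real.pi) := by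
  intro α
  have : ((k : ℂ) * ((α + 2 * Real.pi : ℝ) : ℂ) * Complex.I)
      = (k : ℂ) * α * Complex.I + k * (2 * Real.pi * Complex.I) := by push_cast; ring
  simp only [this, Complex.exp_add, Complex.exp_int_mul_two_pi_mul_I, mul_one]

lemma harm_selfAdjoint (h0 : ∀ f, rot 0 f = f) (hadd : ∀ a b f, rot (a + b) f = rot a (rot b f))
    (h2 : ∀ f, rot (2 * Real.pi) f = f) (hc : ∀ f, Continuous fun α => rot α f)
    (n : ℤ) (f g : H) :
    ⟪harm (-n) (fun α => rot α f), g⟫_ℂ = ⟪f, harm (-n) (fun α => rot α g)⟫_ℂ := by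
  rw [harm_inner_right (hc f), harm_inner_left (hc g)]
  congr 1
  have e1 : ∀ α : ℝ, Complex.exp (((- -n : ℤ) : ℂ) * α * Complex.I) * ⟪rot α f, g⟫_ℂ
      = (fun α : ℝ => Complex.exp (((-n : ℤ) : ℂ) * α * Complex.I) * ⟪f, rot α g⟫_ℂ) (-α) := by
    intro α
    simp only
    rw [inner_rot_left h0 hadd]
    congr 2
    push_cast
    ring
  simp_rw [e1]
  rw [intervalIntegral.integral_comp_neg
    (fun α : ℝ => Complex.exp (((-n : ℤ) : ℂ) * α * Complex.I) * ⟪f, rot α g⟫_ℂ)]
  have hper : Function.Periodic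
      (fun α : ℝ => Complex.exp (((-n : ℤ) : ℂ) * α * Complex.I) * ⟪f, rot α g⟫_ℂ)
      (2 * Real.pi) := by
    intro α
    have h1 := char_periodic (-n) α
    have h3 := rot_periodic hadd h2 g α
    simp only at h1 h3 ⊢
    rw [h1, h3]
  have := hper.intervalIntegral_add_eq (-(2 * Real.pi)) 0
  simpa using this

/-- a continuous `2π`-periodic function all of whose Fourier coefficients vanish is zero -/
lemma eq_zero_of_fourier {c : ℝ → ℂ} (hc : Continuous c)
    (hper : Function.Periodic c (2 * Real.pi))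
    (hz : ∀ n : ℤ, ∫ α in (0 : ℝ)..(2 * Real.pi), Complex.exp (n * α * Complex.I) * c α = 0)
    (x : ℝ) : c x = 0 := by
  have : Fact (0 < 2 * Real.pi) := ⟨by positivity⟩
  let C : C(AddCircle (2 * Real.pi), ℂ) :=
    ⟨hper.lift, continuous_coinduced_dom.mpr (by
      have : hper.lift ∘ ((↑) : ℝ → AddCircle (2 * Real.pi)) = c := by
        funext y; exact Function.Periodic.lift_coe hper y
      exact (congrArg Continuous this).mpr hc)⟩
  have hC : ∀ y : ℝ, C (y : AddCircle (2 * Real.pi)) = c y :=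
    fun y => Function.Periodic.lift_coe hper y
  have hcoef : ∀ n : ℤ, fourierCoeff C n = 0 := by
    intro n
    rw [fourierCoeff_eq_intervalIntegral _ n 0, zero_add]
    have : ∀ y : ℝ, @fourier (2 * Real.pi) (-n) (y : AddCircle (2 * Real.pi)) •
        C (y : AddCircle (2 * Real.pi))
        = Complex.exp (((-n : ℤ) : ℂ) * y * Complex.I) * c y := by
      intro y
      rw [hC, fourier_coe_apply, smul_eq_mul]
      congr 2
      have hpi : (Real.pi : ℂ) ≠ 0 := by exact_mod_cast Real.pi_ne_zero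
      push_cast
      field_simp
    simp_rw [this]
    rw [hz (-n), smul_zero]
  have hsum : Summable (fourierCoeff C) := by
    have : fourierCoeff C = fun _ => 0 := funext hcoef
    rw [this]; exact summable_zero
  have h1 := hasSum_fourier_series_of_summable hsum
  have h2 : (fun i => fourierCoeff C i • fourier (T := 2 * Real.pi) i) = fun _ => 0 := by
    funext i; rw [hcoef i, zero_smul]
  rw [h2] at h1
  have h3 : C = 0 := h1.unique hasSum_zero
  rw [← hC x, h3]; rfl

lemma harm_complete (h0 : ∀ f, rot 0 f = f) (hadd : ∀ a b f, rot (a + b) f = rot a (rot b f))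
    (h2 : ∀ f, rot (2 * Real.pi) f = f) (hc : ∀ f, Continuous fun α => rot α f)
    (f g : H) (hz : ∀ n : ℤ, ⟪harm (-n) (fun α => rot α f), g⟫_ℂ = 0) : ⟪f, g⟫_ℂ = 0 := by
  have hcc : Continuous fun α => ⟪rot α f, g⟫_ℂ := (hc f).inner continuous_const
  have hper : Function.Periodic (fun α => ⟪rot α f, g⟫_ℂ) (2 * Real.pi) := by
    intro α
    have h3 := rot_periodic hadd h2 f α
    simp only at h3 ⊢
    rw [h3]
  have := eq_zero_of_fourier hcc hper (fun n => by
    have h := hz n
    rw [harm_inner_right (hc f), neg_neg] at h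
    have hpi : (((2 * Real.pi)⁻¹ : ℝ) : ℂ) ≠ 0 := by
      simp [Real.pi_ne_zero]
    exact (mul_eq_zero.1 h).resolve_left hpi) 0
  simpa [h0] using this

end Hilbert

end POps

namespace PlaneSys

variable {Ω : Type} [TopologicalSpace Ω] [MeasurableSpace Ω] {μ : Measure Ω}
variable (S : PlaneSys Ω μ)

lemma rot_zero (f : Lp ℂ 2 μ) : S.rot 0 f = f := by
  apply Lp.ext
  filter_upwards [S.rot_coe 0 f] with z hz
  rw [hz, S.R_zero]

lemma rot_add (a b : ℝ) (f : Lp ℂ 2 μ) : S.rot (a + b) f = S.rot a (S.rot b f) := by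
  apply Lp.ext
  filter_upwards [S.rot_coe (a + b) f, S.rot_coe a (S.rot b f),
    (S.R_mp a).quasiMeasurePreserving.ae (S.rot_coe b f)] with z h1 h2 h3
  rw [h1, h2, h3, add_comm, S.R_add]

lemma rot_two_pi (f : Lp ℂ 2 μ) : S.rot (2 * Real.pi) f = f := by
  apply Lp.ext
  filter_upwards [S.rot_coe (2 * Real.pi) f] with z hz
  rw [hz, S.R_two_pi]

/-- the support condition in terms of inner products -/
lemma suppGe_iff [IsFiniteMeasure μ] (b : ℝ) (f : Lp ℂ 2 μ) :
    S.SuppGe b f ↔ ∀ g : Lp ℂ 2 μ, (∀ᵐ z ∂μ, b ≤ S.ρ z → g z = 0) → ⟪f, g⟫_ℂ = 0 := by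
  constructor
  · intro hf g hg
    rw [L2.inner_def]
    have : (fun a => ⟪f a, g a⟫_ℂ) =ᵐ[μ] fun _ => (0 : ℂ) := by
      filter_upwards [hf, hg] with z h1 h2
      rcases lt_or_ge (S.ρ z) b with h | h
      · rw [h1 h]; simp
      · rw [h2 h]; simp
    rw [integral_congr_ae this, integral_zero]
  · intro h
    have hms : MeasurableSet {z | S.ρ z < b} := S.ρ_meas measurableSet_Iio
    have hmem : MemLp ({z | S.ρ z < b}.indicator f) 2 μ := (Lp.memLp f).indicator hms
    have hg := hmem.coeFn_toLp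
    have h1 := h hmem.toLp (by
      filter_upwards [hg] with z hz hb
      rw [hz, Set.indicator_of_notMem]
      simpa using hb)
    have h2 : ⟪hmem.toLp, hmem.toLp⟫_ℂ = 0 := by
      rw [← h1, L2.inner_def, L2.inner_def]
      refine integral_congr_ae ?_
      filter_upwards [hg] with z hz
      rw [hz]
      by_cases hzb : z ∈ {z | S.ρ z < b}
      · rw [Set.indicator_of_mem hzb]
      · rw [Set.indicator_of_notMem hzb]; simp
    have h3 : hmem.toLp = 0 := inner_self_eq_zero.1 h2
    have h4 : (hmem.toLp : Ω → ℂ) =ᵐ[μ] 0 := by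
      rw [h3]; exact Lp.coeFn_zero _ _ _
    unfold SuppGe
    filter_upwards [hg, h4] with z hz1 hz2 hb
    rw [hz1, Set.indicator_of_mem (show z ∈ {z | S.ρ z < b} from hb)] at hz2
    simpa using hz2

lemma suppGe_rot (b : ℝ) (f : Lp ℂ 2 μ) (hf : S.SuppGe b f) (α : ℝ) :
    S.SuppGe b (S.rot α f) := by
  unfold SuppGe at *
  filter_upwards [S.rot_coe α f, (S.R_mp α).quasiMeasurePreserving.ae hf] with z h1 h2 hb
  rw [h1, h2 (by rw [S.ρ_R]; exact hb)]

end PlaneSys

open PlaneSys in
theorem pops_of_cont (hcont : PlaneSys.StCont) : PlaneSys.StP := by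
  intro Ω _ _ _ _ _ μ _ S
  have hc : ∀ f : Lp ℂ 2 μ, Continuous fun α => S.rot α f := (hcont Ω μ S).2.1
  refine ⟨fun n => ?_, fun n f => ?_, fun n f g => ?_, fun f g h => ?_, fun n b f hf => ?_⟩
  · refine ⟨LinearMap.mkContinuous
      { toFun := fun f => S.P n f
        map_add' := fun f g => ?_
        map_smul' := fun c f => ?_ } 1 (fun f => ?_), fun f => rfl⟩
    · simp only [PlaneSys.P, map_add]
      exact POps.harm_add (hc f) (hc g)
    · simp only [PlaneSys.P, map_smul, RingHom.id_apply]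
      exact POps.harm_smul c
    · rw [one_mul]
      exact POps.harm_norm_le fun α => ((S.rot α).norm_map f).le
  · exact POps.harm_norm_le fun α => ((S.rot α).norm_map f).le
  · exact POps.harm_selfAdjoint S.rot_zero S.rot_add S.rot_two_pi hc n f g
  · exact POps.harm_complete S.rot_zero S.rot_add S.rot_two_pi hc f g h
  · rw [S.suppGe_iff] at *
    intro g hg
    have h1 : ∀ α, ⟪S.rot α f, g⟫_ℂ = 0 := fun α =>
      (S.suppGe_iff b _).1 (S.suppGe_rot b f ((S.suppGe_iff b f).2 hf) α) g hg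
    unfold PlaneSys.P
    rw [POps.harm_inner_right (hc f)]
    simp [h1]

end Crest.Agent.R103
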