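import Crest.Agent.R103.Iface

/-!
# R103, A9: the product of a plane system with itself
-/

open MeasureTheory Filter Topology

noncomputable section

namespace Crest.Agent.R103

namespace PlaneSys

variable {Ω : Type*} [TopologicalSpace Ω] [MeasurableSpace Ω] {μ : Measure Ω}

/-- the product of a plane system with itself -/
def prodSys [IsFiniteMeasure μ] (S : PlaneSys Ω μ) : PlaneSys (Ω × Ω) (μ.prod μ) where
  φ t z := (S.φ t z.1, S.φ t z.2)
  R a z := (S.R a z.1, S.R a z.2)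
  ρ z := min (S.ρ z.1) (S.ρ z.2)
  C₀ := S.C₀
  Cv := 2 * (μ Set.univ).toReal * S.Cv
  one_le_C₀ := S.one_le_C₀
  Cv_nonneg := mul_nonneg (mul_nonneg zero_le_two ENNReal.toReal_nonneg) S.Cv_nonneg
  φ_meas := by
    apply Measurable.prodMk
    · exact S.φ_meas.comp (measurable_fst.prodMk (measurable_fst.comp measurable_snd))
    · exact S.φ_meas.comp (measurable_fst.prodMk (measurable_snd.comp measurable_snd))
  φ_zero z := by simp [S.φ_zero]
  φ_add s t z := by simp [S.φ_add]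
  φ_mp t := (S.φ_mp t).prod (S.φ_mp t)
  R_meas := by
    apply Measurable.prodMk
    · exact S.R_meas.comp (measurable_fst.prodMk (measurable_fst.comp measurable_snd))
    · exact S.R_meas.comp (measurable_fst.prodMk (measurable_snd.comp measurable_snd))
  R_zero z := by simp [S.R_zero]
  R_add s t z := by simp [S.R_add]
  R_two_pi z := by simp [S.R_two_pi]
  R_mp t := (S.R_mp t).prod (S.R_mp t)
  R_cont z := (S.R_cont z.1).prodMk (S.R_cont z.2)
  ρ_meas := (S.ρ_meas.comp measurable_fst).min (S.ρ_meas.comp measurable_snd)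
  ρ_nonneg z := le_min (S.ρ_nonneg _) (S.ρ_nonneg _)
  ρ_R a z := by simp [S.ρ_R]
  ρ_φ t z := by
    rw [← min_add_add_right]
    exact min_le_min (S.ρ_φ t z.1) (S.ρ_φ t z.2)
  vol b hb := by
    have hsub : {z : Ω × Ω | min (S.ρ z.1) (S.ρ z.2) < b}
        ⊆ {x | S.ρ x < b} ×ˢ Set.univ ∪ Set.univ ×ˢ {x | S.ρ x < b} := by
      intro z hz
      have hz' : min (S.ρ z.1) (S.ρ z.2) < b := hz
      rcases min_lt_iff.1 hz' with h | h
      · exact Or.inl ⟨h, Set.mem_univ _⟩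
      · exact Or.inr ⟨Set.mem_univ _, h⟩
    have hv := S.vol b hb
    calc (μ.prod μ) {z : Ω × Ω | min (S.ρ z.1) (S.ρ z.2) < b}
        ≤ (μ.prod μ) ({x | S.ρ x < b} ×ˢ Set.univ ∪ Set.univ ×ˢ {x | S.ρ x < b}) :=
          measure_mono hsub
      _ ≤ (μ.prod μ) ({x | S.ρ x < b} ×ˢ Set.univ) + (μ.prod μ) (Set.univ ×ˢ {x | S.ρ x < b}) :=
          measure_union_le _ _
      _ = μ {x | S.ρ x < b} * μ Set.univ + μ Set.univ * μ {x | S.ρ x < b} := by
          rw [Measure.prod_prod, Measure.prod_prod]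
      _ ≤ ENNReal.ofReal (S.Cv * b ^ 2) * μ Set.univ
            + μ Set.univ * ENNReal.ofReal (S.Cv * b ^ 2) := by
          gcongr
      _ = ENNReal.ofReal (2 * (μ Set.univ).toReal * S.Cv * b ^ 2) := by
          have h0 : 0 ≤ S.Cv * b ^ 2 := mul_nonneg S.Cv_nonneg (sq_nonneg b)
          have h1 : μ Set.univ = ENNReal.ofReal (μ Set.univ).toReal :=
            (ENNReal.ofReal_toReal (measure_ne_top μ _)).symm
          have h2 : (0 : ℝ) ≤ (μ Set.univ).toReal := ENNReal.toReal_nonneg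
          rw [h1, ENNReal.toReal_ofReal h2, ← ENNReal.ofReal_mul h0, ← ENNReal.ofReal_mul h2,
            ← ENNReal.ofReal_add (mul_nonneg h0 h2) (mul_nonneg h2 h0)]
          congr 1
          ring
  rev t := by
    have h1 : ∀ᵐ z ∂(μ.prod μ), S.φ t (S.R Real.pi z.1) = S.R Real.pi (S.φ (-t) z.1) :=
      Measure.quasiMeasurePreserving_fst.ae (S.rev t)
    have h2 : ∀ᵐ z ∂(μ.prod μ), S.φ t (S.R Real.pi z.2) = S.R Real.pi (S.φ (-t) z.2) :=
      Measure.quasiMeasurePreserving_snd.ae (S.rev t)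
    filter_upwards [h1, h2] with z hz1 hz2
    simp [hz1, hz2]
  LC ε hε ζ ζ' hζ hζ' := by
    have h1 : ∀ᵐ z ∂(μ.prod μ), S.C₀ * ε ≤ S.ρ z.1 →
        tr S.φ S.R ζ' (tr S.φ S.R ζ z.1) = tr S.φ S.R (ζ + ζ') z.1 :=
      Measure.quasiMeasurePreserving_fst.ae (S.LC ε hε ζ ζ' hζ hζ')
    have h2 : ∀ᵐ z ∂(μ.prod μ), S.C₀ * ε ≤ S.ρ z.2 →
        tr S.φ S.R ζ' (tr S.φ S.R ζ z.2) = tr S.φ S.R (ζ + ζ') z.2 :=
      Measure.quasiMeasurePreserving_snd.ae (S.LC ε hε ζ ζ' hζ hζ')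
    filter_upwards [h1, h2] with z hz1 hz2 hz
    have e1 := hz1 (hz.trans (min_le_left _ _))
    have e2 := hz2 (hz.trans (min_le_right _ _))
    exact Prod.ext e1 e2
  cont := by
    have h1 : ∀ᵐ z ∂(μ.prod μ), Tendsto (fun ζ : ℂ => tr S.φ S.R ζ z.1) (𝓝 0) (𝓝 z.1) :=
      Measure.quasiMeasurePreserving_fst.ae S.cont
    have h2 : ∀ᵐ z ∂(μ.prod μ), Tendsto (fun ζ : ℂ => tr S.φ S.R ζ z.2) (𝓝 0) (𝓝 z.2) :=
      Measure.quasiMeasurePreserving_snd.ae S.cont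
    filter_upwards [h1, h2] with z hz1 hz2
    exact hz1.prodMk_nhds hz2

@[simp] lemma prodSys_φ [IsFiniteMeasure μ] (S : PlaneSys Ω μ) (t : ℝ) (z : Ω × Ω) :
    S.prodSys.φ t z = (S.φ t z.1, S.φ t z.2) := rfl

@[simp] lemma prodSys_R [IsFiniteMeasure μ] (S : PlaneSys Ω μ) (t : ℝ) (z : Ω × Ω) :
    S.prodSys.R t z = (S.R t z.1, S.R t z.2) := rfl

lemma prodSys_ρ [IsFiniteMeasure μ] (S : PlaneSys Ω μ) (z : Ω × Ω) :
    S.prodSys.ρ z = min (S.ρ z.1) (S.ρ z.2) := rfl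

lemma prodSys_T [IsFiniteMeasure μ] (S : PlaneSys Ω μ) (ζ : ℂ) (z : Ω × Ω) :
    S.prodSys.T ζ z = (S.T ζ z.1, S.T ζ z.2) := rfl

/-- A9 -/
theorem prod : StProd := by
  intro Ω _ _ _ _ _ μ _ S
  exact ⟨S.prodSys, fun t z => rfl, fun ζ z => rfl⟩

end PlaneSys

end Crest.Agent.R103
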