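import Crest.Agent.R103.IfaceG

/-!
# R103, H9 (helper858): time reversal
-/

set_option autoImplicit false
open MeasureTheory Filter Topology
open Crest.AnalysisR.Billiard
open scoped symmDiff

noncomputable section

namespace Crest.Agent.R103

namespace Rev

variable {A : Fin 3 → Plane}

lemma vel_eq (c : Chain A) (k : ℤ) :
    (c.t (k + 1) - c.t k) • c.vel k = c.q (k + 1) - c.q k := by
  have h2 : 0 < c.t (k + 1) - c.t k := sub_pos.2 (c.strictMono_t (by omega))
  rw [Chain.vel, smul_smul, mul_inv_cancel₀ h2.ne', one_smul]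

lemma reflect' (c : Chain A) (k : ℤ) :
    c.vel (k + 1) = mirror (sideVec A (c.side (k + 1))) (c.vel k) := by
  have h := c.reflect k
  have e : k + 1 + 1 = k + 2 := by ring
  rw [Chain.vel, Chain.vel, e]
  exact h

/-- time reversal of a chain which is not at a collision at time `0` -/
def revC (hG2 : StG2) (hA : AffineIndependent ℝ A) (c : Chain A) (h0 : c.t 0 < 0) : Chain A where
  t k := -c.t (1 - k)
  q k := c.q (1 - k)
  side k := c.side (1 - k)
  strictMono_t := by
    intro a b hab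
    have : c.t (1 - b) < c.t (1 - a) := c.strictMono_t (by omega)
    simpa using this
  t_zero_le := by
    have := c.t_one_pos
    simp only [sub_zero]; linarith
  t_one_pos := by
    simp only [sub_self]; linarith
  tendsto_atTop := by
    have h1 : Tendsto (fun k : ℤ => 1 - k) atTop atBot := by
      refine tendsto_atBot.2 fun b => ?_
      filter_upwards [eventually_ge_atTop (1 - b)] with a ha
      omega
    exact tendsto_neg_atBot_atTop.comp (c.tendsto_atBot.comp h1)
  tendsto_atBot := by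
    have h1 : Tendsto (fun k : ℤ => 1 - k) atBot atTop := by
      refine tendsto_atTop.2 fun b => ?_
      filter_upwards [eventually_le_atBot (1 - b)] with a ha
      omega
    exact tendsto_neg_atTop_atBot.comp (c.tendsto_atTop.comp h1)
  mem_side k := c.mem_side _
  side_ne k := by
    have h := c.side_ne (-k)
    have e1 : 1 - (k + 1) = -k := by ring
    have e2 : 1 - k = -k + 1 := by ring
    rw [e1, e2]; exact h.symm
  unit_speed k := by
    have h := c.unit_speed (-k)
    have e1 : 1 - (k + 1) = -k := by ring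
    have e2 : 1 - k = -k + 1 := by ring
    rw [e1, e2, dist_comm]; rw [← h]; ring
  reflect k := by
    have h := reflect' c (-k - 1)
    have hm := (hG2 A hA (c.side (-k))).2.1
    have hl := (hG2 A hA (c.side (-k))).2.2.2.2.1
    have e0 : -k - 1 + 1 = -k := by ring
    have e1 : 1 - (k + 2) = -k - 1 := by ring
    have e2 : 1 - (k + 1) = -k := by ring
    have e3 : 1 - k = -k + 1 := by ring
    rw [e1, e2, e3]
    rw [e0] at h
    have v1 : (-c.t (-k - 1) - -c.t (-k))⁻¹ • (c.q (-k - 1) - c.q (-k)) = -c.vel (-k - 1) := by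
      rw [Chain.vel, e0, ← smul_neg, neg_sub]
      congr 2; ring
    have v2 : (-c.t (-k) - -c.t (-k + 1))⁻¹ • (c.q (-k) - c.q (-k + 1)) = -c.vel (-k) := by
      rw [Chain.vel, ← smul_neg, neg_sub]
      congr 2; ring
    rw [v1, v2, h]
    have h3 := hl (-1) 0 (mirror (sideVec A (c.side (-k))) (c.vel (-k - 1))) 0
    rw [hm] at h3
    simpa using h3.symm

lemma revC_t (hG2 : StG2) (hA : AffineIndependent ℝ A) (c : Chain A) (h0 : c.t 0 < 0) (k : ℤ) :
    (revC hG2 hA c h0).t k = -c.t (1 - k) := rfl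

lemma revC_q (hG2 : StG2) (hA : AffineIndependent ℝ A) (c : Chain A) (h0 : c.t 0 < 0) (k : ℤ) :
    (revC hG2 hA c h0).q k = c.q (1 - k) := rfl

lemma revC_vel (hG2 : StG2) (hA : AffineIndependent ℝ A) (c : Chain A) (h0 : c.t 0 < 0) (k : ℤ) :
    (revC hG2 hA c h0).vel k = -c.vel (-k) := by
  have e1 : 1 - (k + 1) = -k := by ring
  have e2 : 1 - k = -k + 1 := by ring
  rw [Chain.vel, revC_t, revC_t, revC_q, revC_q, e1, e2, Chain.vel, ← smul_neg, neg_sub]
  congr 2; ring

/-- state of the reversed chain at a time `s` such that `-s` is not a collision time -/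
lemma revC_state (hG2 : StG2) (hA : AffineIndependent ℝ A) (c : Chain A) (h0 : c.t 0 < 0) {s : ℝ}
    (hs : c.t (idx c (-s)) ≠ -s) :
    idx (revC hG2 hA c h0) s = -idx c (-s) ∧
    (stateAt (revC hG2 hA c h0) s).1 = (stateAt c (-s)).1 ∧
    ((stateAt (revC hG2 hA c h0) s).2 : Plane) = -((stateAt c (-s)).2 : Plane) := by
  have h1 := idx_le c (-s)
  have h2 := lt_idx c (-s)
  have h1' : c.t (idx c (-s)) < -s := lt_of_le_of_ne h1 hs
  have hi : idx (revC hG2 hA c h0) s = -idx c (-s) := by
    refine idx_unique _ ?_ ?_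
    · rw [revC_t]
      have e : 1 - -idx c (-s) = idx c (-s) + 1 := by ring
      rw [e]; linarith
    · rw [revC_t]
      have e : 1 - (-idx c (-s) + 1) = idx c (-s) := by ring
      rw [e]; linarith
  refine ⟨hi, ?_, ?_⟩
  · show (revC hG2 hA c h0).q (idx (revC hG2 hA c h0) s) +
      (s - (revC hG2 hA c h0).t (idx (revC hG2 hA c h0) s)) •
        (revC hG2 hA c h0).vel (idx (revC hG2 hA c h0) s) =
      c.q (idx c (-s)) + (-s - c.t (idx c (-s))) • c.vel (idx c (-s))
    rw [hi, revC_vel, revC_q, revC_t]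
    have e : 1 - -idx c (-s) = idx c (-s) + 1 := by ring
    rw [e, neg_neg]
    have hv := vel_eq c (idx c (-s))
    have hq : c.q (idx c (-s) + 1) = c.q (idx c (-s)) +
        (c.t (idx c (-s) + 1) - c.t (idx c (-s))) • c.vel (idx c (-s)) := by
      rw [hv]; abel
    rw [hq, smul_neg, add_assoc, ← sub_eq_add_neg, ← sub_smul]
    congr 2
    ring
  · show (revC hG2 hA c h0).vel (idx (revC hG2 hA c h0) s) = -c.vel (idx c (-s))
    rw [hi, revC_vel, neg_neg]

lemma rotF_pi (z : Phase × Bool) :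
    (rotF Real.pi z).1.1 = z.1.1 ∧ ((rotF Real.pi z).1.2 : Plane) = -(z.1.2 : Plane) ∧
      (rotF Real.pi z).2 = z.2 := by
  refine ⟨rfl, ?_, rfl⟩
  show Real.cos Real.pi • (z.1.2 : Plane) + (sgn z.2 * Real.sin Real.pi) • J (z.1.2 : Plane) = _
  rw [Real.cos_pi, Real.sin_pi]
  simp

/-- at a collision time the position is on a side -/
lemma ne_of_interior (hG1 : StG1) (hA : AffineIndependent ℝ A) (c : Chain A) {s : ℝ}
    (h : ∀ i, 0 < cd A i (stateAt c s).1) : c.t (idx c s) ≠ s := by
  intro hs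
  have h1 : (stateAt c s).1 = c.q (idx c s) := by
    show c.q (idx c s) + (s - c.t (idx c s)) • c.vel (idx c s) = _
    rw [hs]; simp
  have h2 := c.mem_side (idx c s)
  rw [(hG1 A hA).2.2.2.2.2.2.2.2.2.2 (c.side (idx c s))] at h2
  have h3 := h (c.side (idx c s))
  rw [h1, h2.1] at h3
  exact lt_irrefl _ h3

lemma ae_fst {Q : Phase → Prop} (h : ∀ᵐ p ∂(phaseMeasure A), Q p) :
    ∀ᵐ z ∂(μM A), Q z.1 := by
  unfold μM
  exact Measure.quasiMeasurePreserving_fst.ae h

end Rev

open Rev in
theorem rev (hG1 : StG1) (hG2 : StG2) (hU : StUniq) (hE : StExist) (hAe : StAe) (hMP : StMP) :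
    StRev := by
  intro A hA t
  have a1 := ae_fst (hAe A hA).1
  have a2 : ∀ᵐ z ∂(μM A), OK A (flowM A (-t) z).1 ∧ ∀ i, 0 < cd A i (flowM A (-t) z).1.1 :=
    (hMP A hA (-t)).quasiMeasurePreserving.ae a1
  filter_upwards [a1, a2] with z hz1 hz2
  obtain ⟨⟨hadm, hline⟩, hint⟩ := hz1
  have hok : OK A z.1 := ⟨hadm, hline⟩
  have hgood : Good A z.1 := hE A hA _ hok
  set c := chainOf A z.1 hgood with hc
  have hthr : c.Through z.1 := hgood.choose_spec
  have hst0 : z.1 = stateAt c 0 := (through_iff c z.1).1 hthr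
  -- the state at time `-t`
  have hfl : flowP A (-t) z.1 = stateAt c (-t) := by
    unfold flowP; rw [dif_pos ⟨hok, hgood⟩]
  have hpar : par A (-t) z.1 = decide (Odd (idx c (-t))) := by
    unfold par; rw [dif_pos ⟨hok, hgood⟩]
  have hnt : c.t (idx c (-t)) ≠ -t := by
    refine ne_of_interior hG1 hA c ?_
    have := hz2.2
    simp only [flowM, hfl] at this
    exact this
  have h00 : c.t 0 < 0 := by
    refine lt_of_le_of_ne c.t_zero_le ?_
    have h1 := ne_of_interior hG1 hA c (s := 0) (by rw [← hst0]; exact hint)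
    rwa [idx_zero] at h1
  -- reversed chain
  set c' := revC hG2 hA c h00 with hc'
  obtain ⟨r1, r2, r3⟩ := rotF_pi z
  have hs0 := revC_state hG2 hA c h00 (s := 0) (by
    rw [neg_zero, idx_zero]; exact h00.ne)
  rw [neg_zero] at hs0
  have hthr' : c'.Through (rotF Real.pi z).1 := by
    rw [through_iff]
    refine Prod.ext ?_ (Subtype.ext ?_)
    · rw [r1, hs0.2.1, ← hst0]
    · rw [r2, hs0.2.2, ← hst0]
  have hok' : OK A (rotF Real.pi z).1 := by
    refine ⟨fun i => Or.inl (by rw [r1]; exact hint i), fun w s j => ?_⟩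
    have := hline w (-s) j
    rw [r1, r2]
    simpa using this
  have hgood' : Good A (rotF Real.pi z).1 := ⟨c', hthr'⟩
  have hceq : chainOf A (rotF Real.pi z).1 hgood' = c' :=
    hU A hA _ _ _ hgood'.choose_spec hthr'
  have hfl' : flowP A t (rotF Real.pi z).1 = stateAt c' t := by
    unfold flowP; rw [dif_pos ⟨hok', hgood'⟩, hceq]
  have hpar' : par A t (rotF Real.pi z).1 = decide (Odd (idx c' t)) := by
    unfold par; rw [dif_pos ⟨hok', hgood'⟩, hceq]
  obtain ⟨i1, i2, i3⟩ := revC_state hG2 hA c h00 hnt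
  obtain ⟨q1, q2, q3⟩ := rotF_pi (flowM A (-t) z)
  refine Prod.ext (Prod.ext ?_ (Subtype.ext ?_)) ?_
  · rw [q1]
    show (flowP A t (rotF Real.pi z).1).1 = (flowP A (-t) z.1).1
    rw [hfl', hfl, i2]
  · rw [q2]
    show ((flowP A t (rotF Real.pi z).1).2 : Plane) = -((flowP A (-t) z.1).2 : Plane)
    rw [hfl', hfl, i3]
  · rw [q3]
    show xor (rotF Real.pi z).2 (par A t (rotF Real.pi z).1) = xor z.2 (par A (-t) z.1)
    rw [r3, hpar', hpar]
    congr 1
    rw [hc', i1]
    simp only [odd_neg]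

end Crest.Agent.R103
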