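import Mathlib

/-!
R103/Br1: invariance of `toSphere` under linear isometries.
-/

open MeasureTheory Metric Set
open scoped Pointwise

noncomputable section

namespace Crest.Agent.R103.Br

variable {E : Type*} [NormedAddCommGroup E] [InnerProductSpace ℝ E]

/-- the map induced on the unit sphere by a linear isometry equivalence -/
def sphMap (g : E ≃ₗᵢ[ℝ] E) (v : sphere (0 : E) 1) : sphere (0 : E) 1 :=
  ⟨g v, by
    have := v.2
    simp only [mem_sphere_iff_norm, sub_zero] at this ⊢
    simp⟩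

@[simp] lemma coe_sphMap (g : E ≃ₗᵢ[ℝ] E) (v : sphere (0 : E) 1) :
    ((sphMap g v : sphere (0 : E) 1) : E) = g v := rfl

lemma sphMap_continuous (g : E ≃ₗᵢ[ℝ] E) : Continuous (sphMap g) :=
  Continuous.subtype_mk (g.continuous.comp continuous_subtype_val) _

lemma sphMap_symm_sphMap (g : E ≃ₗᵢ[ℝ] E) (v : sphere (0 : E) 1) :
    sphMap g.symm (sphMap g v) = v := by
  ext1; simp

lemma sphMap_sphMap_symm (g : E ≃ₗᵢ[ℝ] E) (v : sphere (0 : E) 1) :
    sphMap g (sphMap g.symm v) = v := by
  ext1; simp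

variable [MeasurableSpace E] [BorelSpace E] [FiniteDimensional ℝ E]

/-- `toSphere` of the volume is invariant under linear isometries. -/
theorem sphMap_mp (g : E ≃ₗᵢ[ℝ] E) :
    MeasurePreserving (sphMap g) (volume : Measure E).toSphere (volume : Measure E).toSphere := by
  refine ⟨(sphMap_continuous g).measurable, ?_⟩
  ext s hs
  rw [Measure.map_apply (sphMap_continuous g).measurable hs,
    Measure.toSphere_apply' _ hs,
    Measure.toSphere_apply' _ ((sphMap_continuous g).measurable hs)]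
  congr 1
  have h : Ioo (0 : ℝ) 1 • (((↑) : sphere (0 : E) 1 → E) '' (sphMap g ⁻¹' s))
      = g ⁻¹' (Ioo (0 : ℝ) 1 • (((↑) : sphere (0 : E) 1 → E) '' s)) := by
    ext x
    constructor
    · rintro ⟨r, hr, _, ⟨v, hv, rfl⟩, rfl⟩
      exact ⟨r, hr, g v, ⟨sphMap g v, hv, rfl⟩, by simp⟩
    · rintro ⟨r, hr, _, ⟨v, hv, rfl⟩, hx⟩
      refine ⟨r, hr, g.symm v, ⟨sphMap g.symm v, ?_, rfl⟩, ?_⟩
      · show sphMap g (sphMap g.symm v) ∈ s
        rw [sphMap_sphMap_symm]; exact hv
      · apply g.injective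
        simpa using hx
  rw [h]
  exact g.measurePreserving.measure_preimage_emb g.toHomeomorph.measurableEmbedding _

end Crest.Agent.R103.Br
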