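import Crest.Prelude.Def_Billiard

/-!
# R103 (helper259): distance to the vertices and its volume bound (G10)
-/

set_option autoImplicit false
set_option linter.unusedSectionVars false

open MeasureTheory Filter Topology Set Metric
open Crest.AnalysisR.Billiard

noncomputable section

namespace Crest.Agent.R103.Vol

variable (A : Fin 3 → Plane)

/-- distance to the set of vertices. -/
def vdist (x : Plane) : ℝ := Finset.univ.inf' Finset.univ_nonempty fun j : Fin 3 => dist x (A j)

lemma vdist_lt_iff {x : Plane} {b : ℝ} : vdist A x < b ↔ ∃ j, dist x (A j) < b := by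
  simp [vdist, Finset.inf'_lt_iff]

lemma le_vdist_iff {x : Plane} {b : ℝ} : b ≤ vdist A x ↔ ∀ j, b ≤ dist x (A j) := by
  simp [vdist, Finset.le_inf'_iff]

lemma vdist_le (x : Plane) (j : Fin 3) : vdist A x ≤ dist x (A j) :=
  Finset.inf'_le _ (Finset.mem_univ j)

lemma exists_vdist_eq (x : Plane) : ∃ j, vdist A x = dist x (A j) := by
  obtain ⟨j, -, hj⟩ := Finset.exists_mem_eq_inf' (Finset.univ_nonempty (α := Fin 3))
    (fun j => dist x (A j))
  exact ⟨j, hj⟩

lemma vdist_nonneg (x : Plane) : 0 ≤ vdist A x := (le_vdist_iff A).2 fun _ => dist_nonneg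

lemma vdist_le_add (x y : Plane) : vdist A y ≤ vdist A x + dist y x := by
  obtain ⟨j, hj⟩ := exists_vdist_eq A x
  rw [hj, add_comm]
  exact (vdist_le A y j).trans (dist_triangle _ _ _)

lemma abs_vdist_sub_le (x y : Plane) : |vdist A y - vdist A x| ≤ dist y x := by
  rw [abs_sub_le_iff]
  have h1 := vdist_le_add A x y
  have h2 := vdist_le_add A y x
  rw [dist_comm x y] at h2
  constructor <;> linarith

lemma vdist_continuous : Continuous (vdist A) := by
  refine continuous_iff_continuousAt.2 fun x => ?_
  rw [Metric.continuousAt_iff]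
  intro ε hε
  exact ⟨ε, hε, fun {y} hy => (abs_vdist_sub_le A x y).trans_lt hy⟩

lemma vdist_measurable : Measurable (vdist A) := (vdist_continuous A).measurable

/-- a point outside the set of vertices has positive distance. -/
lemma vdist_pos {x : Plane} (hx : ∀ j, x ≠ A j) : 0 < vdist A x := by
  obtain ⟨j, hj⟩ := exists_vdist_eq A x
  rw [hj]
  exact dist_pos.2 (hx j)

lemma isBounded_interior : Bornology.IsBounded (interior (convexHull ℝ (range A))) :=
  (isBounded_convexHull.2 (finite_range A).isBounded).subset interior_subset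

instance instFiniteRestrict : IsFiniteMeasure
    ((volume : Measure Plane).restrict (interior (convexHull ℝ (Set.range A)))) :=
  ⟨by
    rw [Measure.restrict_apply_univ]
    exact (isBounded_interior A).measure_lt_top⟩

instance instFinitePhase : IsFiniteMeasure (phaseMeasure A) := by
  unfold phaseMeasure
  infer_instance

/-- the measure on the space of frames. -/
abbrev muM : Measure (Phase × Bool) := (phaseMeasure A).prod Measure.count

example : IsFiniteMeasure (muM A) := inferInstance

/-- the constant of the volume bound. -/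
def Cvol : ℝ := 3 * Real.pi * (volume : Measure Plane).toSphere.real univ * 2

lemma Cvol_nonneg : 0 ≤ Cvol := by unfold Cvol; positivity

lemma volume_vdist_lt {b : ℝ} (hb : 0 < b) :
    volume {x : Plane | vdist A x < b} ≤ ENNReal.ofReal (3 * Real.pi * b ^ 2) := by
  have hsub : {x : Plane | vdist A x < b} ⊆ ⋃ j, ball (A j) b := by
    intro x hx
    obtain ⟨j, hj⟩ := (vdist_lt_iff A).1 hx
    exact mem_iUnion.2 ⟨j, hj⟩
  refine (measure_mono hsub).trans ((measure_iUnion_le _).trans ?_)
  simp only [EuclideanSpace.volume_ball_fin_two]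
  rw [tsum_fintype]
  simp only [Finset.sum_const, Finset.card_univ, Fintype.card_fin, nsmul_eq_mul, Nat.cast_ofNat]
  rw [← ENNReal.ofReal_pow hb.le, ← ENNReal.ofReal_mul (by positivity),
    ← ENNReal.ofReal_ofNat 3, ← ENNReal.ofReal_mul (by positivity)]
  exact ENNReal.ofReal_le_ofReal (by nlinarith [Real.pi_pos])

lemma phase_vdist_lt {b : ℝ} (hb : 0 < b) : phaseMeasure A {p | vdist A p.1 < b} ≤
    ENNReal.ofReal (3 * Real.pi * (volume : Measure Plane).toSphere.real univ * b ^ 2) := by
  have h1 : {p : Phase | vdist A p.1 < b} = {x : Plane | vdist A x < b} ×ˢ univ := by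
    ext p; simp
  rw [h1, phaseMeasure, Measure.prod_prod]
  have h2 : 3 * Real.pi * (volume : Measure Plane).toSphere.real univ * b ^ 2 =
      3 * Real.pi * b ^ 2 * (volume : Measure Plane).toSphere.real univ := by ring
  rw [h2, ENNReal.ofReal_mul (by positivity), ofReal_measureReal (measure_ne_top _ _)]
  exact mul_le_mul_left ((Measure.restrict_apply_le _ _).trans (volume_vdist_lt A hb)) _

/-- **G10.** -/
theorem vol_bound {b : ℝ} (hb : 0 < b) :
    muM A {z | vdist A z.1.1 < b} ≤ ENNReal.ofReal (Cvol * b ^ 2) := by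
  have h1 : {z : Phase × Bool | vdist A z.1.1 < b} = {p : Phase | vdist A p.1 < b} ×ˢ univ := by
    ext p; simp
  rw [h1, muM, Measure.prod_prod]
  have h3 : (Measure.count : Measure Bool) univ = 2 := by
    rw [Measure.count_univ]; simp
  have h2 : Cvol * b ^ 2 =
      3 * Real.pi * (volume : Measure Plane).toSphere.real univ * b ^ 2 * 2 := by
    unfold Cvol; ring
  rw [h2, ENNReal.ofReal_mul (by positivity), h3, ENNReal.ofReal_ofNat]
  exact mul_le_mul_left (phase_vdist_lt A hb) _

end Crest.Agent.R103.Vol
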