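import Crest.Agent.R103.IfaceG
import Crest.Agent.R103.Br1
import Crest.Agent.R103.Vol

/-!
# R103/Rot: H10, rotations of frames
-/

open MeasureTheory Filter Topology
open Crest.AnalysisR.Billiard

noncomputable section

namespace Crest.Agent.R103.Rot

lemma normJ_aux (c s : ℝ) (h : c ^ 2 + s ^ 2 = 1) (v : Plane) : ‖c • v + s • J v‖ = ‖v‖ := by
  have h2 : ‖c • v + s • J v‖ ^ 2 = ‖v‖ ^ 2 := by
    rw [EuclideanSpace.norm_sq_eq, EuclideanSpace.norm_sq_eq]
    simp only [Fin.sum_univ_two, PiLp.add_apply, PiLp.smul_apply, smul_eq_mul, J_zero, J_one,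
      Real.norm_eq_abs, sq_abs]
    have : (c * v 0 + s * -(v 1)) ^ 2 + (c * v 1 + s * v 0) ^ 2
        = (c ^ 2 + s ^ 2) * (v 0 ^ 2 + v 1 ^ 2) := by ring
    rw [this, h, one_mul]
  have h3 := norm_nonneg (c • v + s • J v)
  have h4 := norm_nonneg v
  exact (pow_left_inj₀ h3 h4 two_ne_zero).1 h2

lemma J_add (u v : Plane) : J (u + v) = J u + J v := by
  ext i; fin_cases i <;> simp [J, add_comm]

lemma J_smul (r : ℝ) (v : Plane) : J (r • v) = r • J v := by
  ext i; fin_cases i <;> simp [J]

lemma J_J (v : Plane) : J (J v) = - v := by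
  ext i; fin_cases i <;> simp [J]

lemma J_continuous : Continuous J := by
  unfold J
  have h0 : Continuous fun v : Plane => v 0 := by fun_prop
  have h1 : Continuous fun v : Plane => v 1 := by fun_prop
  refine (PiLp.continuous_toLp 2 _).comp ?_
  refine continuous_pi fun i => ?_
  fin_cases i
  · exact h1.neg
  · exact h0

/-- rotation as a linear isometry equivalence -/
def rotL (c s : ℝ) (h : c ^ 2 + s ^ 2 = 1) : Plane ≃ₗᵢ[ℝ] Plane :=
  LinearIsometry.toLinearIsometryEquiv
    (⟨⟨⟨fun v => c • v + s • J v, by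
        intro u v; simp only [J_add, smul_add]; abel⟩, by
        intro r v; simp only [J_smul, smul_add, RingHom.id_apply, smul_smul, mul_comm]⟩,
      fun v => normJ_aux c s h v⟩ : Plane →ₗᵢ[ℝ] Plane) rfl

@[simp] lemma rotL_apply (c s : ℝ) (h : c ^ 2 + s ^ 2 = 1) (v : Plane) :
    rotL c s h v = c • v + s • J v := rfl

lemma cs_aux (a : ℝ) (b : Bool) : (Real.cos a) ^ 2 + (sgn b * Real.sin a) ^ 2 = 1 := by
  have h := sgn_sq b
  have h4 := Real.cos_sq_add_sin_sq a
  have : sgn b ^ 2 = 1 := by rw [pow_two, h]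
  rw [mul_pow, this, one_mul, h4]

lemma rotF_eq (a : ℝ) (z : Phase × Bool) :
    rotF a z = ((z.1.1, Br.sphMap (rotL (Real.cos a) (sgn z.2 * Real.sin a) (cs_aux a z.2))
      z.1.2), z.2) := by
  refine Prod.ext (Prod.ext rfl (Subtype.ext ?_)) rfl
  simp [rotF]

lemma rotF_continuous : Continuous (fun p : ℝ × (Phase × Bool) => rotF p.1 p.2) := by
  have hs : Continuous (fun p : ℝ × (Phase × Bool) => sgn p.2.2) :=
    (continuous_of_discreteTopology (f := sgn)).comp (continuous_snd.comp continuous_snd)
  have hv : Continuous (fun p : ℝ × (Phase × Bool) => (p.2.1.2 : Plane)) :=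
    continuous_subtype_val.comp (continuous_snd.comp (continuous_fst.comp continuous_snd))
  refine Continuous.prodMk (Continuous.prodMk
    (continuous_fst.comp (continuous_fst.comp continuous_snd)) ?_)
    (continuous_snd.comp continuous_snd)
  refine Continuous.subtype_mk ?_ _
  exact ((Real.continuous_cos.comp continuous_fst).smul hv).add
    ((hs.mul (Real.continuous_sin.comp continuous_fst)).smul (J_continuous.comp hv))

lemma rotF_zero (z : Phase × Bool) : rotF 0 z = z := by
  refine Prod.ext (Prod.ext rfl (Subtype.ext ?_)) rfl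
  simp [rotF]

lemma rotF_add (a b : ℝ) (z : Phase × Bool) : rotF (a + b) z = rotF a (rotF b z) := by
  refine Prod.ext (Prod.ext rfl (Subtype.ext ?_)) rfl
  have h := sgn_sq z.2
  simp only [rotF]
  rw [J_add, J_smul, J_smul, J_J, Real.cos_add, Real.sin_add]
  ext i
  simp only [PiLp.add_apply, PiLp.smul_apply, PiLp.neg_apply, smul_eq_mul]
  linear_combination (Real.sin a * Real.sin b * (z.1.2 : Plane) i) * h

lemma rotF_two_pi (z : Phase × Bool) : rotF (2 * Real.pi) z = z := by
  refine Prod.ext (Prod.ext rfl (Subtype.ext ?_)) rfl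
  simp [rotF]

lemma rotF_mp (A : Fin 3 → Plane) (a : ℝ) : MeasurePreserving (rotF a) (μM A) (μM A) := by
  have hm : Measurable (rotF a) :=
    (rotF_continuous.comp (Continuous.prodMk continuous_const continuous_id)).measurable
  have hskew : MeasurePreserving (fun p : Bool × Phase => (p.1, (rotF a (p.2, p.1)).1))
      ((Measure.count : Measure Bool).prod (phaseMeasure A))
      ((Measure.count : Measure Bool).prod (phaseMeasure A)) := by
    refine MeasurePreserving.skew_product (f := id) (MeasurePreserving.id _)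
      (g := fun b p => (rotF a (p, b)).1) ?_ ?_
    · exact measurable_fst.comp (hm.comp measurable_swap)
    · refine Filter.Eventually.of_forall fun b => ?_
      have : (fun p : Phase => (rotF a (p, b)).1)
          = Prod.map id (Br.sphMap (rotL (Real.cos a) (sgn b * Real.sin a) (cs_aux a b))) := by
        funext p
        rw [rotF_eq]
        rfl
      rw [this]
      exact ((MeasurePreserving.id _).prod (Br.sphMap_mp _)).map_eq
  have h := (Measure.measurePreserving_swap
    (μ := (Measure.count : Measure Bool)) (ν := phaseMeasure A)).comp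
    (hskew.comp (Measure.measurePreserving_swap
      (μ := phaseMeasure A) (ν := (Measure.count : Measure Bool))))
  exact h

lemma frm_rotF (α : ℝ) (z : Phase × Bool) (ζ : ℂ) :
    frm (rotF α z) ζ = frm z (Complex.exp (α * Complex.I) * ζ) := by
  have h := sgn_sq z.2
  have hre : (Complex.exp (α * Complex.I) * ζ).re
      = Real.cos α * ζ.re - Real.sin α * ζ.im := by
    rw [Complex.mul_re, Complex.exp_ofReal_mul_I_re, Complex.exp_ofReal_mul_I_im]
  have him : (Complex.exp (α * Complex.I) * ζ).im
      = Real.cos α * ζ.im + Real.sin α * ζ.re := by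
    rw [Complex.mul_im, Complex.exp_ofReal_mul_I_re, Complex.exp_ofReal_mul_I_im]
  simp only [frm, rotF, hre, him]
  rw [J_add, J_smul, J_smul, J_J]
  ext i
  simp only [PiLp.add_apply, PiLp.smul_apply, PiLp.neg_apply, smul_eq_mul]
  linear_combination (-(Real.sin α) * ζ.im * (z.1.2 : Plane) i) * h

end Crest.Agent.R103.Rot

namespace Crest.Agent.R103

theorem rot_ : StRot :=
  ⟨Rot.rotF_continuous.measurable, Rot.rotF_zero, Rot.rotF_add, Rot.rotF_two_pi, Rot.rotF_mp,
    fun z => Rot.rotF_continuous.comp (Continuous.prodMk continuous_id continuous_const),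
    fun A => by unfold μM; infer_instance, Rot.frm_rotF⟩

end Crest.Agent.R103
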