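import Crest.Agent.R103.Iface

/-!
# R103 / A5: the regularised distance `rt`
-/

open MeasureTheory Filter Topology

noncomputable section

namespace Crest.Agent.R103

namespace PlaneSys

section rtlemmas

variable {Ω : Type} [TopologicalSpace Ω] [MeasurableSpace Ω] {μ : Measure Ω}
variable (S : PlaneSys Ω μ)

lemma ρ_φ_sub (s t : ℝ) (z : Ω) : S.ρ (S.φ s z) ≤ S.ρ (S.φ t z) + |s - t| := by
  have h := S.ρ_φ (s - t) (S.φ t z)
  rw [← S.φ_add, sub_add_cancel] at h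
  exact h

lemma continuous_ρ_φ (z : Ω) : Continuous fun s => S.ρ (S.φ s z) := by
  refine LipschitzWith.continuous (K := 1) (LipschitzWith.of_dist_le_mul fun s t => ?_)
  rw [Real.dist_eq, Real.dist_eq, NNReal.coe_one, one_mul, abs_sub_le_iff]
  constructor
  · linarith [S.ρ_φ_sub s t z]
  · have := S.ρ_φ_sub t s z
    rw [abs_sub_comm] at this
    linarith

lemma rt_term_nonneg {L : ℝ} (hL : 1 ≤ L) (z : Ω) (s : ℝ) :
    0 ≤ |s| / L + L * S.ρ (S.φ s z) := by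
  have hL0 : 0 < L := by linarith
  have := S.ρ_nonneg (S.φ s z)
  positivity

lemma rt_bdd {L : ℝ} (hL : 1 ≤ L) (z : Ω) :
    BddBelow (Set.range fun s : ℝ => |s| / L + L * S.ρ (S.φ s z)) :=
  ⟨0, by rintro _ ⟨s, rfl⟩; exact S.rt_term_nonneg hL z s⟩

lemma rt_le {L : ℝ} (hL : 1 ≤ L) (z : Ω) (s : ℝ) :
    S.rt L z ≤ |s| / L + L * S.ρ (S.φ s z) :=
  ciInf_le (S.rt_bdd hL z) s

lemma le_rt {L : ℝ} (z : Ω) {c : ℝ} (h : ∀ s : ℝ, c ≤ |s| / L + L * S.ρ (S.φ s z)) :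
    c ≤ S.rt L z :=
  le_ciInf h

lemma rt_nonneg {L : ℝ} (hL : 1 ≤ L) (z : Ω) : 0 ≤ S.rt L z :=
  S.le_rt z fun s => S.rt_term_nonneg hL z s

lemma rt_le_mul_ρ {L : ℝ} (hL : 1 ≤ L) (z : Ω) : S.rt L z ≤ L * S.ρ z := by
  have := S.rt_le hL z 0
  simpa [S.φ_zero] using this

/-- infimum over the rationals -/
lemma le_rt_of_rat {L : ℝ} (z : Ω) {c : ℝ}
    (h : ∀ q : ℚ, c ≤ |(q : ℝ)| / L + L * S.ρ (S.φ q z)) : c ≤ S.rt L z := by
  refine S.le_rt z fun s => ?_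
  have hc : Continuous fun s : ℝ => |s| / L + L * S.ρ (S.φ s z) :=
    (continuous_abs.div_const L).add (continuous_const.mul (S.continuous_ρ_φ z))
  have hcl : IsClosed {s : ℝ | c ≤ |s| / L + L * S.ρ (S.φ s z)} :=
    isClosed_le continuous_const hc
  have hd : Dense (Set.range ((↑) : ℚ → ℝ)) := Rat.isDenseEmbedding_coe_real.dense
  have hsub : Set.range ((↑) : ℚ → ℝ) ⊆ {s : ℝ | c ≤ |s| / L + L * S.ρ (S.φ s z)} := by
    rintro _ ⟨q, rfl⟩; exact h q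
  have := hcl.closure_subset_iff.2 hsub
  rw [hd.closure_eq] at this
  exact this (Set.mem_univ s)

lemma rt_eq_rat {L : ℝ} (hL : 1 ≤ L) (z : Ω) :
    S.rt L z = ⨅ q : ℚ, (|(q : ℝ)| / L + L * S.ρ (S.φ q z)) := by
  apply le_antisymm
  · exact le_ciInf fun q => S.rt_le hL z q
  · refine S.le_rt_of_rat z fun q => ?_
    refine ciInf_le ?_ q
    exact ⟨0, by rintro _ ⟨q, rfl⟩; exact S.rt_term_nonneg hL z q⟩

lemma rt_measurable {L : ℝ} (hL : 1 ≤ L) : Measurable (S.rt L) := by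
  have : S.rt L = fun z => ⨅ q : ℚ, (|(q : ℝ)| / L + L * S.ρ (S.φ q z)) :=
    funext fun z => S.rt_eq_rat hL z
  rw [this]
  refine Measurable.iInf fun q => ?_
  exact measurable_const.add (measurable_const.mul (S.ρ_meas.comp (S.φ_measurable q)))

lemma rt_φ_le {L : ℝ} (hL : 1 ≤ L) (t : ℝ) (z : Ω) :
    S.rt L (S.φ t z) ≤ |t| / L + S.rt L z := by
  have hL0 : 0 < L := by linarith
  rw [← sub_le_iff_le_add']
  refine S.le_rt z fun s => ?_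
  have h := S.rt_le hL (S.φ t z) (s - t)
  rw [← S.φ_add, sub_add_cancel] at h
  have h2 : |s - t| / L ≤ |s| / L + |t| / L := by
    rw [← add_div]
    exact div_le_div_of_nonneg_right (abs_sub _ _) hL0.le
  linarith

lemma rt_φ {L : ℝ} (hL : 1 ≤ L) (t : ℝ) (z : Ω) :
    |S.rt L (S.φ t z) - S.rt L z| ≤ |t| / L := by
  rw [abs_sub_le_iff]
  constructor
  · linarith [S.rt_φ_le hL t z]
  · have h := S.rt_φ_le hL (-t) (S.φ t z)
    rw [S.φ_neg_φ, abs_neg] at h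
    linarith

/-- commutation of `φ δ` and `T ζ` away from the singular set -/
lemma φ_T_comm {ε : ℝ} (hε : 0 < ε) {ζ : ℂ} (hζ : ‖ζ‖ ≤ ε) {δ : ℝ} (hδ : |δ| ≤ ε) :
    ∀ᵐ z ∂μ, S.C₀ * ε ≤ S.ρ z → S.φ δ (S.T ζ z) = S.T ζ (S.φ δ z) := by
  have hδ' : ‖(δ : ℂ)‖ ≤ ε := by rw [Complex.norm_real]; exact hδ
  have h1 := S.LC ε hε ζ (δ : ℂ) hζ hδ'
  have h2 := S.LC ε hε (δ : ℂ) ζ hδ' hζ
  have h3 : ∀ᵐ z ∂μ, S.T (δ : ℂ) (S.T ζ z) = S.φ δ (S.T ζ z) :=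
    (S.T_mp ζ).quasiMeasurePreserving.ae (S.T_ofReal δ)
  have h4 := S.T_ofReal δ
  filter_upwards [h1, h2, h3, h4] with z h1 h2 h3 h4 hz
  have e1 : S.T (δ : ℂ) (S.T ζ z) = S.T (ζ + δ) z := h1 hz
  have e2 : S.T ζ (S.T (δ : ℂ) z) = S.T (δ + ζ) z := h2 hz
  rw [← h3, e1, ← h4, e2, add_comm]

lemma rt_T_le_aux {L : ℝ} (hL : 1 ≤ L) {ζ : ℂ} (hζ : ζ ≠ 0) (s : ℝ) :
    ∀ᵐ z ∂μ, S.rt L (S.T ζ z) ≤
      |s| / L + L * S.ρ (S.φ s z) + (S.C₀ + 1) * L * ‖ζ‖ := by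
  have hL0 : 0 < L := by linarith
  have hζ0 : 0 < ‖ζ‖ := norm_pos_iff.2 hζ
  have hC := S.one_le_C₀
  obtain ⟨N, hN⟩ := exists_nat_gt (|s| / ‖ζ‖)
  have hN0 : 0 < (N : ℝ) := lt_of_le_of_lt (by positivity) hN
  set δ : ℝ := s / N with hδdef
  have hδ : |δ| ≤ ‖ζ‖ := by
    rw [hδdef, abs_div, abs_of_pos hN0, div_le_iff₀ hN0]
    rw [div_lt_iff₀ hζ0] at hN
    nlinarith
  have hNδ : (N : ℝ) * δ = s := by rw [hδdef]; field_simp
  have hcomm := S.φ_T_comm hζ0 (le_refl ‖ζ‖) hδ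
  have hall : ∀ᵐ z ∂μ, ∀ j : ℕ, S.C₀ * ‖ζ‖ ≤ S.ρ (S.φ (j * δ) z) →
      S.φ δ (S.T ζ (S.φ (j * δ) z)) = S.T ζ (S.φ δ (S.φ (j * δ) z)) := by
    rw [ae_all_iff]
    intro j
    exact (S.φ_mp (j * δ)).quasiMeasurePreserving.ae hcomm
  filter_upwards [hall] with z hz
  have hstep : ∀ n : ℕ, (∀ j < n, S.C₀ * ‖ζ‖ ≤ S.ρ (S.φ (j * δ) z)) →
      S.φ (n * δ) (S.T ζ z) = S.T ζ (S.φ (n * δ) z) := by
    intro n
    induction n with
    | zero => intro _; simp [S.φ_zero]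
    | succ n ih =>
      intro h
      have e : ((n + 1 : ℕ) : ℝ) * δ = δ + n * δ := by push_cast; ring
      rw [e, S.φ_add, ih fun j hj => h j (by omega), S.φ_add]
      exact hz n (h n (by omega))
  by_cases hgood : ∀ j < N, S.C₀ * ‖ζ‖ ≤ S.ρ (S.φ (j * δ) z)
  · have h1 := hstep N hgood
    rw [hNδ] at h1
    have h2 := S.rt_le hL (S.T ζ z) s
    rw [h1] at h2
    have h3 := mul_le_mul_of_nonneg_left (S.ρ_T ζ (S.φ s z)) hL0.le
    have h4 : 0 ≤ S.C₀ * L * ‖ζ‖ := by positivity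
    nlinarith
  · push Not at hgood
    classical
    have hex : ∃ j, j < N ∧ S.ρ (S.φ (j * δ) z) < S.C₀ * ‖ζ‖ := hgood
    have hj := Nat.find_spec hex
    set j := Nat.find hex with hjdef
    have hmin : ∀ i < j, S.C₀ * ‖ζ‖ ≤ S.ρ (S.φ (i * δ) z) := by
      intro i hi
      have := Nat.find_min hex hi
      push Not at this
      exact this (by omega)
    have h1 := hstep j hmin
    have h2 := S.rt_le hL (S.T ζ z) (j * δ)
    rw [h1] at h2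
    have h3 := mul_le_mul_of_nonneg_left (S.ρ_T ζ (S.φ (j * δ) z)) hL0.le
    have h4 : |(j : ℝ) * δ| ≤ |s| := by
      rw [← hNδ, abs_mul, abs_mul, abs_of_pos hN0, Nat.abs_cast]
      exact mul_le_mul_of_nonneg_right (by exact_mod_cast hj.1.le) (abs_nonneg _)
    have h5 : |(j : ℝ) * δ| / L ≤ |s| / L := div_le_div_of_nonneg_right h4 hL0.le
    have h6 : 0 ≤ L * S.ρ (S.φ s z) := mul_nonneg hL0.le (S.ρ_nonneg _)
    have h7 : L * S.ρ (S.φ (j * δ) z) ≤ L * (S.C₀ * ‖ζ‖) :=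
      mul_le_mul_of_nonneg_left hj.2.le hL0.le
    nlinarith

lemma rt_T_le {L : ℝ} (hL : 1 ≤ L) (ζ : ℂ) :
    ∀ᵐ z ∂μ, S.rt L (S.T ζ z) ≤ S.rt L z + (S.C₀ + 1) * L * ‖ζ‖ := by
  rcases eq_or_ne ζ 0 with rfl | hζ
  · exact Eventually.of_forall fun z => by simp [S.T_zero]
  have h : ∀ᵐ z ∂μ, ∀ q : ℚ, S.rt L (S.T ζ z) ≤
      |(q : ℝ)| / L + L * S.ρ (S.φ q z) + (S.C₀ + 1) * L * ‖ζ‖ := by
    rw [ae_all_iff]; intro q; exact S.rt_T_le_aux hL hζ q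
  filter_upwards [h] with z hz
  rw [← sub_le_iff_le_add]
  exact S.le_rt_of_rat z fun q => by linarith [hz q]

lemma rt_T {L : ℝ} (hL : 1 ≤ L) (ζ : ℂ) :
    ∀ᵐ z ∂μ, |S.rt L (S.T ζ z) - S.rt L z| ≤ (S.C₀ + 1) * L * ‖ζ‖ := by
  have h1 := S.rt_T_le hL ζ
  have h2 : ∀ᵐ z ∂μ, S.rt L (S.T (-ζ) (S.T ζ z)) ≤
      S.rt L (S.T ζ z) + (S.C₀ + 1) * L * ‖-ζ‖ :=
    (S.T_mp ζ).quasiMeasurePreserving.ae (S.rt_T_le hL (-ζ))
  filter_upwards [h1, h2, S.T_neg ζ] with z h1 h2 h3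
  rw [h3, norm_neg] at h2
  rw [abs_sub_le_iff]
  constructor <;> linarith

lemma rt_vol {L : ℝ} (hL : 1 ≤ L) {r : ℝ} (hr : 0 < r) :
    μ {z | S.rt L z < r} ≤ ENNReal.ofReal (20 * S.Cv * r ^ 2) := by
  have hL0 : 0 < L := by linarith
  set b : ℝ := r / L with hb
  have hb0 : 0 < b := by positivity
  set N : ℕ := ⌊L ^ 2 + 1 / 2⌋₊ with hN
  have hsub : {z | S.rt L z < r} ⊆
      ⋃ k ∈ Finset.Icc (-(N : ℤ)) N, S.φ (k * b) ⁻¹' {z | S.ρ z < 2 * b} := by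
    intro z hz
    obtain ⟨s, hs⟩ := exists_lt_of_ciInf_lt (show (⨅ s : ℝ, (|s| / L + L * S.ρ (S.φ s z))) < r from hz)
    have h1 : |s| < r * L := by
      have : |s| / L < r := by
        have := mul_nonneg hL0.le (S.ρ_nonneg (S.φ s z))
        linarith
      rwa [div_lt_iff₀ hL0] at this
    have h2 : S.ρ (S.φ s z) < b := by
      rw [hb, lt_div_iff₀ hL0]
      have : 0 ≤ |s| / L := by positivity
      linarith
    set k : ℤ := round (s / b) with hk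
    have h3 : |s / b - k| ≤ 1 / 2 := abs_sub_round (s / b)
    have h4 : |s - k * b| ≤ b / 2 := by
      have : s - k * b = (s / b - k) * b := by field_simp
      rw [this, abs_mul, abs_of_pos hb0]
      nlinarith
    have h5 : |(k : ℝ)| ≤ L ^ 2 + 1 / 2 := by
      have e1 : |s / b| < L ^ 2 := by
        rw [abs_div, abs_of_pos hb0, div_lt_iff₀ hb0, hb]
        calc |s| < r * L := h1
          _ = L ^ 2 * (r / L) := by field_simp
      have e2 : |(k : ℝ)| ≤ |s / b| + |s / b - k| := by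
        have := abs_sub_abs_le_abs_sub (k : ℝ) (s / b)
        rw [abs_sub_comm] at this
        linarith
      linarith
    have h6 : k.natAbs ≤ N := by
      rw [hN]
      apply Nat.le_floor
      rw [Nat.cast_natAbs]
      push_cast
      exact h5
    have h7 : k ∈ Finset.Icc (-(N : ℤ)) N := by
      rw [Finset.mem_Icc]; omega
    refine Set.mem_iUnion₂.2 ⟨k, h7, ?_⟩
    change S.ρ (S.φ (k * b) z) < 2 * b
    have h8 := S.ρ_φ_sub (k * b) s z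
    rw [abs_sub_comm] at h8
    linarith
  have hmeas : MeasurableSet {z | S.ρ z < 2 * b} := measurableSet_lt S.ρ_meas measurable_const
  calc μ {z | S.rt L z < r}
      ≤ μ (⋃ k ∈ Finset.Icc (-(N : ℤ)) N, S.φ (k * b) ⁻¹' {z | S.ρ z < 2 * b}) :=
        measure_mono hsub
    _ ≤ ∑ k ∈ Finset.Icc (-(N : ℤ)) N, μ (S.φ (k * b) ⁻¹' {z | S.ρ z < 2 * b}) :=
        measure_biUnion_finset_le _ _
    _ = ∑ k ∈ Finset.Icc (-(N : ℤ)) N, μ {z | S.ρ z < 2 * b} := by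
        refine Finset.sum_congr rfl fun k _ => ?_
        exact (S.φ_mp (k * b)).measure_preimage hmeas.nullMeasurableSet
    _ ≤ ∑ k ∈ Finset.Icc (-(N : ℤ)) N, ENNReal.ofReal (S.Cv * (2 * b) ^ 2) :=
        Finset.sum_le_sum fun k _ => S.vol (2 * b) (by positivity)
    _ = ENNReal.ofReal ((2 * N + 1 : ℕ) * (S.Cv * (2 * b) ^ 2)) := by
        have hcard : (Finset.Icc (-(N : ℤ)) N).card = 2 * N + 1 := by
          rw [Int.card_Icc]; omega
        rw [Finset.sum_const, nsmul_eq_mul, hcard,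
          ENNReal.ofReal_mul (p := ((2 * N + 1 : ℕ) : ℝ)) (Nat.cast_nonneg _),
          ENNReal.ofReal_natCast]
    _ ≤ ENNReal.ofReal (20 * S.Cv * r ^ 2) := by
        apply ENNReal.ofReal_le_ofReal
        have hNle : (N : ℝ) ≤ L ^ 2 + 1 / 2 := Nat.floor_le (by positivity)
        have h1 : ((2 * N + 1 : ℕ) : ℝ) ≤ 4 * L ^ 2 := by
          push_cast
          nlinarith
        have h2 : 0 ≤ S.Cv * (2 * b) ^ 2 := mul_nonneg S.Cv_nonneg (by positivity)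
        have h3 : b ^ 2 * L ^ 2 = r ^ 2 := by rw [hb]; field_simp
        calc ((2 * N + 1 : ℕ) : ℝ) * (S.Cv * (2 * b) ^ 2)
            ≤ 4 * L ^ 2 * (S.Cv * (2 * b) ^ 2) := mul_le_mul_of_nonneg_right h1 h2
          _ = 16 * S.Cv * r ^ 2 := by rw [← h3]; ring
          _ ≤ 20 * S.Cv * r ^ 2 := by
              have := mul_nonneg S.Cv_nonneg (sq_nonneg r)
              nlinarith

end rtlemmas

theorem rtfacts : PlaneSys.StRt := by
  intro Ω _ _ _ _ _ μ _ S L hL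
  exact ⟨S.rt_measurable hL, S.rt_nonneg hL, S.rt_le_mul_ρ hL, S.rt_φ hL, S.rt_T hL,
    fun r hr => S.rt_vol hL hr⟩

end PlaneSys

end Crest.Agent.R103
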