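import Mathlib

set_option autoImplicit false

/-! Row 103 (helper847): the telescoping inequality, Hilbert space form. -/

namespace Crest.Agent.R103.Tele

open scoped InnerProductSpace

variable {H : Type*} [NormedAddCommGroup H] [InnerProductSpace ℂ H]

/-- finite Bessel inequality for a family of mutually orthogonal self-adjoint idempotents -/
theorem bessel (P : ℤ → H →ₗ[ℂ] H) (hsa : ∀ n x y, ⟪P n x, y⟫_ℂ = ⟪x, P n y⟫_ℂ)
    (hid : ∀ n x, P n (P n x) = P n x) (hor : ∀ n m, n ≠ m → ∀ x, P n (P m x) = 0)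
    (s : Finset ℤ) (g : H) : ∑ n ∈ s, ‖P n g‖ ^ 2 ≤ ‖g‖ ^ 2 := by
  classical
  have h1 : ⟪∑ n ∈ s, P n g, g⟫_ℂ = ((∑ n ∈ s, ‖P n g‖ ^ 2 : ℝ) : ℂ) := by
    rw [sum_inner]
    push_cast
    refine Finset.sum_congr rfl fun n _ => ?_
    have h2 : ⟪P n g, g⟫_ℂ = ⟪P n g, P n g⟫_ℂ := by
      rw [← hid n g, hsa n (P n g) g, hid]
    rw [h2, inner_self_eq_norm_sq_to_K]
    rfl
  have h3 : ‖∑ n ∈ s, P n g‖ ^ 2 = ∑ n ∈ s, ‖P n g‖ ^ 2 := by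
    have h4 : ⟪∑ n ∈ s, P n g, ∑ n ∈ s, P n g⟫_ℂ = ((∑ n ∈ s, ‖P n g‖ ^ 2 : ℝ) : ℂ) := by
      rw [sum_inner]
      push_cast
      refine Finset.sum_congr rfl fun n hn => ?_
      rw [inner_sum, Finset.sum_eq_single n]
      · rw [inner_self_eq_norm_sq_to_K]; rfl
      · intro m _ hm
        rw [hsa, hor n m hm.symm, inner_zero_right]
      · intro h; exact absurd hn h
    rw [inner_self_eq_norm_sq_to_K] at h4
    have h5 : ((‖∑ n ∈ s, P n g‖ ^ 2 : ℝ) : ℂ) = ((∑ n ∈ s, ‖P n g‖ ^ 2 : ℝ) : ℂ) := by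
      rw [← h4]; push_cast; rfl
    exact_mod_cast h5
  have h6 : ‖∑ n ∈ s, P n g‖ ^ 2 ≤ ‖∑ n ∈ s, P n g‖ * ‖g‖ := by
    have h7 : ((‖∑ n ∈ s, P n g‖ ^ 2 : ℝ) : ℂ) = ⟪∑ n ∈ s, P n g, g⟫_ℂ := by rw [h3, h1]
    have h8 : ‖((‖∑ n ∈ s, P n g‖ ^ 2 : ℝ) : ℂ)‖ ≤ ‖∑ n ∈ s, P n g‖ * ‖g‖ := by
      rw [h7]; exact norm_inner_le_norm _ _
    rw [Complex.norm_real, Real.norm_of_nonneg (sq_nonneg _)] at h8
    exact h8
  rw [← h3]
  rcases eq_or_lt_of_le (norm_nonneg (∑ n ∈ s, P n g)) with h0 | h0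
  · rw [← h0]
    simp
  · have h9 : ‖∑ n ∈ s, P n g‖ ≤ ‖g‖ := by
      rw [sq] at h6
      exact le_of_mul_le_mul_left h6 h0
    exact pow_le_pow_left₀ (norm_nonneg _) h9 2

/-- **Telescoping inequality** (step (2) of helper128's proof). -/
theorem tele (P : ℤ → H →ₗ[ℂ] H) (hsa : ∀ n x y, ⟪P n x, y⟫_ℂ = ⟪x, P n y⟫_ℂ)
    (hid : ∀ n x, P n (P n x) = P n x) (hor : ∀ n m, n ≠ m → ∀ x, P n (P m x) = 0)
    (Ep Em : H →ₗ[ℂ] H) (hEp : ∀ n x, P (n + 1) (Ep x) = Ep (P n x))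
    (hEm : ∀ n x, P (n - 1) (Em x) = Em (P n x))
    (B : ℝ) (hB : ∀ x, ‖Em x‖ ≤ B * ‖x‖) (h : H)
    (heq : ∀ n, ‖Ep (P n h)‖ = ‖Em (P n h)‖) {r : ℝ} (hr0 : 0 ≤ r) (hr1 : r < 1) (n : ℤ) :
    ‖Em (P n h)‖ ≤ (Real.sqrt (1 - r ^ 2))⁻¹ * ‖Em h + (r : ℂ) • Ep h‖ := by
  set g : H := Em h + (r : ℂ) • Ep h with hg
  have hnormP : ∀ n x, ‖P n x‖ ≤ ‖x‖ := by
    intro n x
    have := bessel P hsa hid hor {n} x
    simp only [Finset.sum_singleton] at this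
    exact le_of_sq_le_sq this (norm_nonneg x)
  -- one step
  have hstep : ∀ m : ℤ, ‖Em (P m h)‖ ≤ ‖P (m - 1) g‖ + r * ‖Em (P (m - 2) h)‖ := by
    intro m
    have h1 : P (m - 1) g = Em (P m h) + (r : ℂ) • Ep (P (m - 2) h) := by
      rw [hg, map_add, map_smul, hEm]
      have : P (m - 1) (Ep h) = Ep (P (m - 2) h) := by
        have := hEp (m - 2) h
        rwa [show m - 2 + 1 = m - 1 by ring] at this
      rw [this]
    have h2 : Em (P m h) = P (m - 1) g - (r : ℂ) • Ep (P (m - 2) h) := by rw [h1]; abel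
    calc ‖Em (P m h)‖ = ‖P (m - 1) g - (r : ℂ) • Ep (P (m - 2) h)‖ := by rw [← h2]
      _ ≤ ‖P (m - 1) g‖ + ‖(r : ℂ) • Ep (P (m - 2) h)‖ := norm_sub_le _ _
      _ = ‖P (m - 1) g‖ + r * ‖Em (P (m - 2) h)‖ := by
          rw [norm_smul, Complex.norm_real, Real.norm_of_nonneg hr0, heq]
  -- iterate
  have hiter : ∀ (J : ℕ) (m : ℤ), ‖Em (P m h)‖ ≤
      ∑ j ∈ Finset.range J, r ^ j * ‖P (m - 1 - 2 * j) g‖ + r ^ J * ‖Em (P (m - 2 * J) h)‖ := by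
    intro J
    induction J with
    | zero => intro m; simp
    | succ J ih =>
      intro m
      refine (ih m).trans ?_
      rw [Finset.sum_range_succ]
      have h3 := hstep (m - 2 * J)
      have h4 : r ^ J * ‖Em (P (m - 2 * J) h)‖ ≤
          r ^ J * ‖P (m - 1 - 2 * J) g‖ + r ^ (J + 1) * ‖Em (P (m - 2 * ((J + 1 : ℕ) : ℤ)) h)‖ := by
        have h5 := mul_le_mul_of_nonneg_left h3 (pow_nonneg hr0 J)
        rw [show m - 2 * (J : ℤ) - 1 = m - 1 - 2 * J by ring,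
          show m - 2 * (J : ℤ) - 2 = m - 2 * ((J + 1 : ℕ) : ℤ) by push_cast; ring] at h5
        calc _ ≤ _ := h5
          _ = _ := by ring
      linarith
  have hr2 : 0 < 1 - r ^ 2 := by nlinarith
  -- Cauchy-Schwarz
  have hcs : ∀ (J : ℕ), ∑ j ∈ Finset.range J, r ^ j * ‖P (n - 1 - 2 * j) g‖ ≤
      (Real.sqrt (1 - r ^ 2))⁻¹ * ‖g‖ := by
    intro J
    have h6 := Finset.sum_mul_sq_le_sq_mul_sq (Finset.range J) (fun j => r ^ j)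
      (fun j : ℕ => ‖P (n - 1 - 2 * (j : ℤ)) g‖)
    have h7 : ∑ j ∈ Finset.range J, (r ^ j) ^ 2 ≤ (1 - r ^ 2)⁻¹ := by
      have : ∀ j ∈ Finset.range J, (r ^ j) ^ 2 = (r ^ 2) ^ j := fun j _ => by ring
      rw [Finset.sum_congr rfl this]
      exact (Summable.sum_le_tsum _ (fun i _ => by positivity)
        (summable_geometric_of_lt_one (by positivity) (by linarith))).trans
        (tsum_geometric_of_lt_one (by positivity) (by linarith)).le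
    have h8 : ∑ j ∈ Finset.range J, ‖P (n - 1 - 2 * (j : ℤ)) g‖ ^ 2 ≤ ‖g‖ ^ 2 := by
      have hinj : Function.Injective (fun j : ℕ => n - 1 - 2 * (j : ℤ)) := by
        intro a b hab
        simp only at hab
        omega
      have := bessel P hsa hid hor ((Finset.range J).map ⟨_, hinj⟩) g
      rwa [Finset.sum_map] at this
    have h9 : (∑ j ∈ Finset.range J, r ^ j * ‖P (n - 1 - 2 * (j : ℤ)) g‖) ^ 2 ≤
        ((Real.sqrt (1 - r ^ 2))⁻¹ * ‖g‖) ^ 2 := by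
      refine h6.trans ?_
      have h10 : ((Real.sqrt (1 - r ^ 2))⁻¹ * ‖g‖) ^ 2 = (1 - r ^ 2)⁻¹ * ‖g‖ ^ 2 := by
        rw [mul_pow, inv_pow, Real.sq_sqrt hr2.le]
      rw [h10]
      exact mul_le_mul h7 h8 (Finset.sum_nonneg fun _ _ => by positivity) (by positivity)
    exact le_of_sq_le_sq h9 (by positivity)
  -- limit J → ∞
  have hlim : Filter.Tendsto (fun J : ℕ => (Real.sqrt (1 - r ^ 2))⁻¹ * ‖g‖ +
      r ^ J * (B * ‖h‖)) Filter.atTop (nhds ((Real.sqrt (1 - r ^ 2))⁻¹ * ‖g‖ + 0 * (B * ‖h‖))) :=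
    tendsto_const_nhds.add ((tendsto_pow_atTop_nhds_zero_of_lt_one hr0 hr1).mul_const _)
  rw [zero_mul, add_zero] at hlim
  refine ge_of_tendsto' hlim fun J => ?_
  refine (hiter J n).trans (add_le_add (hcs J) ?_)
  refine mul_le_mul_of_nonneg_left ?_ (pow_nonneg hr0 J)
  refine (hB _).trans ?_
  by_cases hB0 : 0 ≤ B
  · exact mul_le_mul_of_nonneg_left (hnormP _ _) hB0
  · push Not at hB0
    -- then all vectors vanish
    have hz : ∀ x : H, ‖x‖ = 0 := by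
      intro x
      by_contra hx
      have hx' : 0 < ‖x‖ := lt_of_le_of_ne (norm_nonneg x) (Ne.symm hx)
      have := hB x
      have h11 := norm_nonneg (Em x)
      nlinarith
    rw [hz, hz]

/-- The telescoping inequality in the form `‖E₋ h_n‖ ≤ ½ (L ‖Z_X h‖ + L⁻¹ ‖Z_Y h‖)`, `L ≥ 1`,
`Z_X = E₊ + E₋`, `Z_Y = E₋ - E₊`. -/
theorem teleL (P : ℤ → H →ₗ[ℂ] H) (hsa : ∀ n x y, ⟪P n x, y⟫_ℂ = ⟪x, P n y⟫_ℂ)
    (hid : ∀ n x, P n (P n x) = P n x) (hor : ∀ n m, n ≠ m → ∀ x, P n (P m x) = 0)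
    (Ep Em : H →ₗ[ℂ] H) (hEp : ∀ n x, P (n + 1) (Ep x) = Ep (P n x))
    (hEm : ∀ n x, P (n - 1) (Em x) = Em (P n x))
    (B : ℝ) (hB : ∀ x, ‖Em x‖ ≤ B * ‖x‖) (h : H)
    (heq : ∀ n, ‖Ep (P n h)‖ = ‖Em (P n h)‖) {L : ℝ} (hL : 1 ≤ L) (n : ℤ) :
    ‖Em (P n h)‖ ≤ 1 / 2 * (L * ‖Ep h + Em h‖ + L⁻¹ * ‖Em h - Ep h‖) := by
  have hL0 : 0 < L := by linarith
  have hL2 : 0 < L ^ 2 + 1 := by positivity
  set r : ℝ := (L ^ 2 - 1) / (L ^ 2 + 1) with hr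
  have hr0 : 0 ≤ r := div_nonneg (by nlinarith) hL2.le
  have hr1 : r < 1 := by rw [hr, div_lt_one hL2]; linarith
  have h1 := tele P hsa hid hor Ep Em hEp hEm B hB h heq hr0 hr1 n
  have h2 : 1 - r ^ 2 = (2 * L / (L ^ 2 + 1)) ^ 2 := by
    rw [hr]; field_simp; ring
  have h3 : Real.sqrt (1 - r ^ 2) = 2 * L / (L ^ 2 + 1) := by
    rw [h2, Real.sqrt_sq (by positivity)]
  have h4 : Em h + (r : ℂ) • Ep h =
      ((L ^ 2 / (L ^ 2 + 1) : ℝ) : ℂ) • (Ep h + Em h) +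
        ((1 / (L ^ 2 + 1) : ℝ) : ℂ) • (Em h - Ep h) := by
    have ha : (r : ℂ) = ((L ^ 2 / (L ^ 2 + 1) : ℝ) : ℂ) - ((1 / (L ^ 2 + 1) : ℝ) : ℂ) := by
      rw [← Complex.ofReal_sub]; congr 1; rw [hr]; field_simp
    have hb : ((L ^ 2 / (L ^ 2 + 1) : ℝ) : ℂ) + ((1 / (L ^ 2 + 1) : ℝ) : ℂ) = 1 := by
      rw [← Complex.ofReal_add, ← Complex.ofReal_one]; congr 1; field_simp
    rw [ha, smul_add, smul_sub, sub_smul]
    have hc : Em h = (((L ^ 2 / (L ^ 2 + 1) : ℝ) : ℂ) + ((1 / (L ^ 2 + 1) : ℝ) : ℂ)) • Em h := by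
      rw [hb, one_smul]
    rw [add_smul] at hc
    conv_lhs => rw [hc]
    abel
  have h5 : ‖Em h + (r : ℂ) • Ep h‖ ≤
      L ^ 2 / (L ^ 2 + 1) * ‖Ep h + Em h‖ + 1 / (L ^ 2 + 1) * ‖Em h - Ep h‖ := by
    rw [h4]
    refine (norm_add_le _ _).trans ?_
    rw [norm_smul, norm_smul, Complex.norm_real, Complex.norm_real,
      Real.norm_of_nonneg (by positivity), Real.norm_of_nonneg (by positivity)]
  refine h1.trans ?_
  rw [h3]
  calc (2 * L / (L ^ 2 + 1))⁻¹ * ‖Em h + (r : ℂ) • Ep h‖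
      ≤ (2 * L / (L ^ 2 + 1))⁻¹ *
        (L ^ 2 / (L ^ 2 + 1) * ‖Ep h + Em h‖ + 1 / (L ^ 2 + 1) * ‖Em h - Ep h‖) :=
        mul_le_mul_of_nonneg_left h5 (by positivity)
    _ = 1 / 2 * (L * ‖Ep h + Em h‖ + L⁻¹ * ‖Em h - Ep h‖) := by
        field_simp

end Crest.Agent.R103.Tele
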