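import Crest.Agent.R103.Iface
import Crest.Agent.R103.Tele

/-! # R103, A1: the telescoping lemma `StTele` (harmonic part; the Hilbert part is in `Tele`) -/

open MeasureTheory Filter Topology
open scoped InnerProductSpace

set_option linter.unusedSectionVars false
set_option linter.unusedTactic false

noncomputable section

namespace Crest.Agent.R103

namespace TeleSt

variable {H : Type*} [NormedAddCommGroup H] [InnerProductSpace ℂ H] [CompleteSpace H]

theorem cont_exp (k : ℤ) : Continuous fun α : ℝ => Complex.exp (k * α * Complex.I) := by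
  fun_prop

theorem ii_harm {F : ℝ → H} (hF : Continuous F) (k : ℤ) :
    IntervalIntegrable (fun α : ℝ => Complex.exp (k * α * Complex.I) • F α) volume 0
      (2 * Real.pi) :=
  ((cont_exp k).smul hF).intervalIntegrable _ _

theorem harm_add {F G : ℝ → H} (hF : Continuous F) (hG : Continuous G) (k : ℤ) :
    harm k (fun α => F α + G α) = harm k F + harm k G := by
  unfold harm
  rw [← smul_add, ← intervalIntegral.integral_add (ii_harm hF k) (ii_harm hG k)]
  simp only [smul_add]

theorem harm_smul (F : ℝ → H) (c : ℂ) (k : ℤ) :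
    harm k (fun α => c • F α) = c • harm k F := by
  unfold harm
  have h1 : ∀ α : ℝ, Complex.exp (k * α * Complex.I) • c • F α =
      c • Complex.exp (k * α * Complex.I) • F α := fun α => smul_comm _ _ _
  simp only [h1]
  rw [intervalIntegral.integral_smul]
  exact smul_comm _ _ _

theorem harm_clm {F : ℝ → H} (hF : Continuous F) (A : H →L[ℂ] H) (k : ℤ) :
    A (harm k F) = harm k (fun α => A (F α)) := by
  unfold harm
  have h1 := A.intervalIntegral_comp_comm (ii_harm hF k)
  simp only [map_smul] at h1
  rw [h1]
  have : A ((2 * Real.pi)⁻¹ • ∫ α in (0 : ℝ)..(2 * Real.pi), Complex.exp (k * α * Complex.I) • F α)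
      = (2 * Real.pi)⁻¹ • A (∫ α in (0 : ℝ)..(2 * Real.pi), Complex.exp (k * α * Complex.I) • F α) :=
    (A.restrictScalars ℝ).map_smul _ _
  rw [this]

theorem harm_inner_left {F : ℝ → H} (hF : Continuous F) (k : ℤ) (x : H) :
    ⟪x, harm k F⟫_ℂ = harm k (fun α => ⟪x, F α⟫_ℂ) := by
  unfold harm
  have h1 := (innerSL ℂ x).intervalIntegral_comp_comm (ii_harm hF k)
  simp only [innerSL_apply_apply, inner_smul_right] at h1
  rw [← Complex.coe_smul, inner_smul_right, ← h1]
  rw [← Complex.coe_smul]
  rfl

theorem harm_const (x : H) (k : ℤ) (hk : k ≠ 0) : harm k (fun _ => x) = 0 := by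
  unfold harm
  rw [intervalIntegral.integral_smul_const]
  have : ∫ α in (0 : ℝ)..(2 * Real.pi), Complex.exp (k * α * Complex.I) = 0 := by
    have hk' : (k : ℂ) * Complex.I ≠ 0 := mul_ne_zero (by exact_mod_cast hk) Complex.I_ne_zero
    have h2 : ∀ α : ℝ, Complex.exp (k * α * Complex.I) = Complex.exp ((k * Complex.I) * α) := by
      intro α; congr 1; ring
    simp only [h2]
    rw [integral_exp_mul_complex hk']
    have h3 : Complex.exp (↑k * Complex.I * ↑(2 * Real.pi)) = 1 := by
      have := Complex.exp_int_mul_two_pi_mul_I k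
      rw [← this]; congr 1; push_cast; ring
    rw [h3]
    simp
  rw [this, zero_smul, smul_zero]

theorem harm_zero_const (x : H) : harm 0 (fun _ => x) = x := by
  unfold harm
  simp only [Int.cast_zero, zero_mul, Complex.exp_zero, one_smul, intervalIntegral.integral_const,
    sub_zero, smul_smul]
  rw [inv_mul_cancel₀ (by positivity), one_smul]

theorem harm_mul_exp (F : ℝ → H) (k m : ℤ) :
    harm k (fun α => Complex.exp (m * α * Complex.I) • F α) = harm (k + m) F := by
  unfold harm
  congr 1
  refine intervalIntegral.integral_congr fun α _ => ?_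
  simp only [smul_smul, ← Complex.exp_add]
  congr 2
  push_cast; ring

end TeleSt

open TeleSt in
/-- **A1.** -/
theorem tele : StTele := by
  intro H _ _ _ rot hrot0 hadd h2pi hcont Ep Em hEp hEm h heq n r hr0 hr1
  -- periodicity
  have hper : ∀ f : H, Function.Periodic (fun α => rot α f) (2 * Real.pi) := by
    intro f α
    change rot (α + 2 * Real.pi) f = rot α f
    rw [hadd, h2pi]
  -- weight of the component
  have hrotP : ∀ (n : ℤ) (β : ℝ) (f : H), rot β (harm (-n) fun α => rot α f) =
      Complex.exp (n * β * Complex.I) • harm (-n) fun α => rot α f := by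
    intro n β f
    have h1 : rot β (harm (-n) fun α => rot α f) = harm (-n) fun α => rot (α + β) f := by
      have := harm_clm (hcont f) (rot β).toContinuousLinearMap (-n)
      rw [LinearIsometry.coe_toContinuousLinearMap] at this
      rw [this]
      congr 1
      funext α
      rw [add_comm, hadd]
    rw [h1]
    unfold harm
    rw [smul_comm (Complex.exp (n * β * Complex.I)), ← intervalIntegral.integral_smul]
    congr 1
    have h2 : ∀ α : ℝ, Complex.exp (((-n : ℤ) : ℂ) * α * Complex.I) • rot (α + β) f =
        Complex.exp (n * β * Complex.I) •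
          (fun γ : ℝ => Complex.exp (((-n : ℤ) : ℂ) * γ * Complex.I) • rot γ f) (α + β) := by
      intro α
      simp only [smul_smul, ← Complex.exp_add]
      congr 2
      push_cast; ring
    simp only [h2]
    rw [intervalIntegral.integral_smul, intervalIntegral.integral_smul]
    congr 1
    rw [intervalIntegral.integral_comp_add_right
      (fun γ : ℝ => Complex.exp (((-n : ℤ) : ℂ) * γ * Complex.I) • rot γ f) β]
    have hp : Function.Periodic
        (fun γ : ℝ => Complex.exp (((-n : ℤ) : ℂ) * γ * Complex.I) • rot γ f) (2 * Real.pi) := by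
      intro γ
      simp only
      rw [show rot (γ + 2 * Real.pi) f = rot γ f from hper f γ]
      congr 1
      have := Complex.exp_int_mul_two_pi_mul_I (-n)
      calc Complex.exp (((-n : ℤ) : ℂ) * ((γ + 2 * Real.pi : ℝ) : ℂ) * Complex.I)
          = Complex.exp (((-n : ℤ) : ℂ) * γ * Complex.I + ((-n : ℤ) : ℂ) * (2 * Real.pi * Complex.I)) := by
            congr 1; push_cast; ring
        _ = _ := by rw [Complex.exp_add, this, mul_one]
    have := hp.intervalIntegral_add_eq (0 + β) 0
    rw [zero_add] at this ⊢
    rw [add_comm (2 * Real.pi) β, this, zero_add]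
  -- the projections as linear maps
  let P : ℤ → H →ₗ[ℂ] H := fun n =>
    { toFun := fun f => harm (-n) fun α => rot α f
      map_add' := by
        intro f g
        simp only [map_add]
        exact harm_add (hcont f) (hcont g) _
      map_smul' := by
        intro c f
        simp only [map_smul, RingHom.id_apply]
        exact harm_smul _ _ _ }
  have hPdef : ∀ n f, P n f = harm (-n) fun α => rot α f := fun _ _ => rfl
  have hid : ∀ n x, P n (P n x) = P n x := by
    intro n x
    rw [hPdef n (P n x)]
    have : (fun α => rot α (P n x)) = fun α : ℝ => Complex.exp (n * α * Complex.I) • P n x := by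
      funext α
      rw [hPdef, hrotP]
    rw [this, harm_mul_exp, neg_add_cancel, harm_zero_const]
  have hor : ∀ n m, n ≠ m → ∀ x, P n (P m x) = 0 := by
    intro n m hnm x
    rw [hPdef n (P m x)]
    have : (fun α => rot α (P m x)) = fun α : ℝ => Complex.exp (m * α * Complex.I) • P m x := by
      funext α
      rw [hPdef, hrotP]
    rw [this, harm_mul_exp, harm_const]
    omega
  have hsa' : ∀ n x y, ⟪P n x, P n y⟫_ℂ = ⟪P n x, y⟫_ℂ := by
    intro n x y
    rw [hPdef n y, harm_inner_left (hcont y)]
    have : (fun α => ⟪P n x, rot α y⟫_ℂ) =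
        fun α : ℝ => Complex.exp (n * α * Complex.I) • ⟪P n x, y⟫_ℂ := by
      funext α
      have h1 : P n x = Complex.exp (-(n * α * Complex.I)) • rot α (P n x) := by
        rw [hPdef n x, hrotP, smul_smul, ← Complex.exp_add, neg_add_cancel, Complex.exp_zero,
          one_smul]
      have h2 : ⟪P n x, rot α y⟫_ℂ =
          ⟪Complex.exp (-(n * α * Complex.I)) • rot α (P n x), rot α y⟫_ℂ := by
        rw [← h1]
      rw [h2, inner_smul_left, LinearIsometry.inner_map_map, smul_eq_mul]
      congr 1
      rw [← Complex.exp_conj]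
      congr 1
      simp
    rw [this, harm_mul_exp, neg_add_cancel, harm_zero_const]
  have hsa : ∀ n x y, ⟪P n x, y⟫_ℂ = ⟪x, P n y⟫_ℂ := by
    intro n x y
    rw [← hsa' n x y, ← inner_conj_symm (P n x) (P n y), hsa' n y x, inner_conj_symm]
  have hEp' : ∀ n x, P (n + 1) (Ep x) = Ep (P n x) := by
    intro n x
    rw [hPdef, hPdef, harm_clm (hcont x) Ep]
    have : (fun α => rot α (Ep x)) =
        fun α : ℝ => Complex.exp (((1 : ℤ) : ℂ) * α * Complex.I) • Ep (rot α x) := by
      funext α
      rw [hEp]; simp
    rw [this, harm_mul_exp]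
    congr 1
    ring
  have hEm' : ∀ n x, P (n - 1) (Em x) = Em (P n x) := by
    intro n x
    rw [hPdef, hPdef, harm_clm (hcont x) Em]
    have : (fun α => rot α (Em x)) =
        fun α : ℝ => Complex.exp (((-1 : ℤ) : ℂ) * α * Complex.I) • Em (rot α x) := by
      funext α
      rw [hEm]; simp
    rw [this, harm_mul_exp]
    congr 1
    ring
  exact Tele.tele P hsa hid hor Ep.toLinearMap Em.toLinearMap hEp' hEm' ‖Em‖
    (fun x => Em.le_opNorm x) h heq hr0 hr1 n

end Crest.Agent.R103
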