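import Crest.Agent.R103.Iface

/-!
# R103, B3: theorem B (weak mixing) from the kernel operator and the finite dimensional statement
-/

open MeasureTheory Filter Topology
open scoped InnerProductSpace

noncomputable section

namespace Crest.Agent.R103

namespace PlaneSys

section aux

variable {Ω : Type} [TopologicalSpace Ω] [MeasurableSpace Ω] {μ : Measure Ω}
  (S : PlaneSys Ω μ)

lemma bU_U_neg (ζ : ℂ) (f : Lp ℂ 2 μ) : S.U ζ (S.U (-ζ) f) = f := by
  apply Lp.ext
  have h1 := S.U_coe ζ (S.U (-ζ) f)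
  have h2 := (S.T_mp ζ).quasiMeasurePreserving.ae (S.U_coe (-ζ) f)
  filter_upwards [h1, h2, S.T_neg ζ] with z h1 h2 h3
  rw [h1, h2, h3]

lemma bU_neg_U (ζ : ℂ) (f : Lp ℂ 2 μ) : S.U (-ζ) (S.U ζ f) = f := by
  have := S.bU_U_neg (-ζ) f
  rwa [neg_neg] at this

lemma binner_U_left (ζ : ℂ) (f g : Lp ℂ 2 μ) : ⟪S.U ζ f, g⟫_ℂ = ⟪f, S.U (-ζ) g⟫_ℂ := by
  conv_lhs => rw [← S.bU_U_neg ζ g]
  exact (S.U ζ).inner_map_map _ _

lemma binner_U_right (ζ : ℂ) (f g : Lp ℂ 2 μ) : ⟪f, S.U ζ g⟫_ℂ = ⟪S.U (-ζ) f, g⟫_ℂ := by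
  conv_lhs => rw [← S.bU_U_neg ζ f]
  exact (S.U ζ).inner_map_map _ _

/-- a bounded operator commuting with all `U ζ` has an adjoint commuting with all `U ζ` -/
lemma adjoint_comm (K : Lp ℂ 2 μ →L[ℂ] Lp ℂ 2 μ) (hK : ∀ ζ f, K (S.U ζ f) = S.U ζ (K f))
    (ζ : ℂ) (f : Lp ℂ 2 μ) :
    K.adjoint (S.U ζ f) = S.U ζ (K.adjoint f) := by
  apply ext_inner_left ℂ
  intro v
  rw [ContinuousLinearMap.adjoint_inner_right, S.binner_U_right, S.binner_U_right, ← hK,
    ContinuousLinearMap.adjoint_inner_right]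

end aux

/-- `K h = 0` for `h ⟂ 1` -/
lemma kernel_eq_zero (hfin : StFin) {Ω : Type} [TopologicalSpace Ω] [MeasurableSpace Ω]
    [BorelSpace Ω] [SecondCountableTopology Ω] [TopologicalSpace.PseudoMetrizableSpace Ω]
    (μ : Measure Ω) [IsFiniteMeasure μ] (S : PlaneSys Ω μ)
    (hconst : ∀ f : Lp ℂ 2 μ, (∀ ζ, S.U ζ f = f) → ∃ c : ℂ, f =ᵐ[μ] fun _ => c)
    (K : Lp ℂ 2 μ →L[ℂ] Lp ℂ 2 μ) (hKc : IsCompactOperator K)
    (hK : ∀ ζ f, K (S.U ζ f) = S.U ζ (K f)) (h : Lp ℂ 2 μ)
    (hh : ∀ f : Lp ℂ 2 μ, (∃ c : ℂ, f =ᵐ[μ] fun _ => c) → ⟪f, h⟫_ℂ = 0) : K h = 0 := by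
  set A : Lp ℂ 2 μ →L[ℂ] Lp ℂ 2 μ := K.adjoint.comp K with hA
  have hAc : IsCompactOperator A := hKc.clm_comp K.adjoint
  have hAs : A.IsSymmetric := by
    intro x y
    simp only [hA, ContinuousLinearMap.coe_coe, ContinuousLinearMap.comp_apply,
      ContinuousLinearMap.adjoint_inner_left, ContinuousLinearMap.adjoint_inner_right]
  have hAU : ∀ ζ f, A (S.U ζ f) = S.U ζ (A f) := by
    intro ζ f
    simp only [hA, ContinuousLinearMap.comp_apply, hK, S.adjoint_comm K hK]
  have key : A h ∈ (⨆ ν, Module.End.eigenspace (A : Module.End ℂ (Lp ℂ 2 μ)) ν)ᗮ := by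
    rw [Submodule.mem_orthogonal]
    intro v hv
    refine Submodule.iSup_induction (fun ν => Module.End.eigenspace
      (A : Module.End ℂ (Lp ℂ 2 μ)) ν) (motive := fun v => ⟪v, A h⟫_ℂ = 0) hv ?_ ?_ ?_
    · intro ν v hv
      have hv' : A v = ν • v := Module.End.mem_eigenspace_iff.1 hv
      have e : ⟪v, A h⟫_ℂ = ⟪A v, h⟫_ℂ := (hAs v h).symm
      rw [e, hv', inner_smul_left]
      by_cases hν : ν = 0
      · simp [hν]
      · have hfd := ContinuousLinearMap.finite_dimensional_eigenspace hAc ν hν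
        have := hfin Ω μ S (Module.End.eigenspace A.toLinearMap ν) hfd (by
          intro ζ f hf
          rw [Module.End.mem_eigenspace_iff] at hf ⊢
          have hf' : A f = ν • f := hf
          change A (S.U ζ f) = ν • S.U ζ f
          rw [hAU, hf', map_smul]) v hv
        rw [hh v (hconst v this), mul_zero]
    · simp
    · intro x y hx hy
      rw [inner_add_left, hx, hy, add_zero]
  rw [ContinuousLinearMap.orthogonalComplement_iSup_eigenspaces_eq_bot hAc hAs] at key
  have hz : A h = 0 := (Submodule.mem_bot ℂ).1 key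
  have : ⟪K h, K h⟫_ℂ = 0 := by
    rw [← ContinuousLinearMap.adjoint_inner_right]
    change ⟪h, A h⟫_ℂ = 0
    rw [hz, inner_zero_right]
  exact inner_self_eq_zero.1 this

theorem thmB : StKer → StFin → StThmB := by
  classical
  intro hker hfin Ω _ _ _ _ _ μ _ S hconst s hs hinv
  obtain ⟨K, hKc, hKi⟩ := hker Ω μ s hs
  have hK : ∀ ζ f, K (S.U ζ f) = S.U ζ (K f) := by
    intro ζ f
    apply ext_inner_left ℂ
    intro v
    -- it suffices to test against `U ζ g`
    obtain ⟨g, rfl⟩ : ∃ g, S.U ζ g = v := ⟨_, S.bU_U_neg ζ v⟩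
    rw [(S.U ζ).inner_map_map, hKi, hKi]
    have hmp : MeasurePreserving (fun z : Ω × Ω => (S.T ζ z.1, S.T ζ z.2)) (μ.prod μ)
        (μ.prod μ) := (S.T_mp ζ).prod (S.T_mp ζ)
    set F : Ω × Ω → ℂ := fun z => s.indicator
      (fun z : Ω × Ω => (starRingEnd ℂ) (g z.1) * f z.2) z with hF
    have hFm : AEStronglyMeasurable F (μ.prod μ) := by
      apply AEStronglyMeasurable.indicator _ hs
      have h1 : AEStronglyMeasurable (fun z : Ω × Ω => g z.1) (μ.prod μ) :=
        (Lp.aestronglyMeasurable g).comp_fst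
      have h2 : AEStronglyMeasurable (fun z : Ω × Ω => f z.2) (μ.prod μ) :=
        (Lp.aestronglyMeasurable f).comp_snd
      exact (Complex.continuous_conj.comp_aestronglyMeasurable h1).mul h2
    have e1 : ∫ z, F z ∂(μ.prod μ) = ∫ z, F (S.T ζ z.1, S.T ζ z.2) ∂(μ.prod μ) := by
      conv_lhs => rw [← hmp.map_eq]
      rw [integral_map hmp.aemeasurable]
      rwa [hmp.map_eq]
    rw [e1]
    apply integral_congr_ae
    have hg : ∀ᵐ z ∂(μ.prod μ), (S.U ζ g) z.1 = g (S.T ζ z.1) :=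
      Measure.quasiMeasurePreserving_fst.ae (S.U_coe ζ g)
    have hf : ∀ᵐ z ∂(μ.prod μ), (S.U ζ f) z.2 = f (S.T ζ z.2) :=
      Measure.quasiMeasurePreserving_snd.ae (S.U_coe ζ f)
    filter_upwards [hg, hf, (hinv ζ).mem_iff] with z hg hf hz
    simp only [hF, Set.indicator_apply]
    have : ((S.T ζ z.1, S.T ζ z.2) ∈ s) ↔ z ∈ s := hz
    simp only [this, hg, hf]
  -- the constant function
  set one : Lp ℂ 2 μ := indicatorConstLp 2 MeasurableSet.univ (measure_ne_top μ _) (1 : ℂ)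
    with hone
  have hone' : one =ᵐ[μ] fun _ => (1 : ℂ) := by
    refine (indicatorConstLp_coeFn (p := 2) (μ := μ) (hs := MeasurableSet.univ)
      (hμs := measure_ne_top μ _) (c := (1 : ℂ))).trans ?_
    rw [Set.indicator_univ]
  have honeU : ∀ ζ, S.U ζ one = one := by
    intro ζ
    apply Lp.ext
    have h2 := (S.T_mp ζ).quasiMeasurePreserving.ae hone'
    filter_upwards [S.U_coe ζ one, hone', h2] with z h1 h2 h3
    rw [h1, h2, h3]
  rcases eq_or_ne μ 0 with h0 | h0
  · left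
    rw [h0]; simp
  have hμpos : 0 < μ.real Set.univ := by
    rw [measureReal_def, ENNReal.toReal_pos_iff]
    exact ⟨by rwa [pos_iff_ne_zero, Ne, Measure.measure_univ_eq_zero], measure_lt_top _ _⟩
  -- `K one = c`
  obtain ⟨c, hc⟩ : ∃ c : ℂ, K one =ᵐ[μ] fun _ => c := by
    apply hconst
    intro ζ
    rw [← hK, honeU]
  have hc' : K one = c • one := by
    apply Lp.ext
    filter_upwards [hc, Lp.coeFn_smul c one, hone'] with z h1 h2 h3
    rw [h1, h2, Pi.smul_apply, h3]; simp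
  have hoo : ⟪one, one⟫_ℂ = (μ.real Set.univ : ℂ) := by
    rw [L2.inner_def]
    have : ∫ a, ⟪one a, one a⟫_ℂ ∂μ = ∫ _a, (1 : ℂ) ∂μ := by
      apply integral_congr_ae
      filter_upwards [hone'] with z hz
      rw [hz]; simp
    rw [this]; simp
  -- general formula for `K`
  have hKf : ∀ f : Lp ℂ 2 μ, K f = ((μ.real Set.univ : ℂ)⁻¹ * ⟪one, f⟫_ℂ * c) • one := by
    intro f
    set a : ℂ := (μ.real Set.univ : ℂ)⁻¹ * ⟪one, f⟫_ℂ with ha
    have hne : (μ.real Set.univ : ℂ) ≠ 0 := by exact_mod_cast hμpos.ne'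
    have h1 : K (f - a • one) = 0 := by
      apply kernel_eq_zero hfin μ S hconst K hKc hK
      rintro v ⟨b, hb⟩
      have hv : v = b • one := by
        apply Lp.ext
        filter_upwards [hb, Lp.coeFn_smul b one, hone'] with z h1 h2 h3
        rw [h1, h2, Pi.smul_apply, h3]; simp
      rw [hv, inner_smul_left, inner_sub_right, inner_smul_right, hoo, ha]
      field_simp
      simp
    rw [map_sub, sub_eq_zero, map_smul, hc', smul_smul] at h1
    exact h1
  -- value on rectangles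
  have hrect : ∀ A B : Set Ω, MeasurableSet A → MeasurableSet B →
      ((μ.prod μ).real (s ∩ A ×ˢ B) : ℂ)
        = (μ.real Set.univ : ℂ)⁻¹ * c * (μ.real A * μ.real B) := by
    intro A B hA hB
    set fA : Lp ℂ 2 μ := indicatorConstLp 2 hA (measure_ne_top μ _) (1 : ℂ)
    set fB : Lp ℂ 2 μ := indicatorConstLp 2 hB (measure_ne_top μ _) (1 : ℂ)
    have hfA : fA =ᵐ[μ] A.indicator fun _ => (1 : ℂ) := indicatorConstLp_coeFn
    have hfB : fB =ᵐ[μ] B.indicator fun _ => (1 : ℂ) := indicatorConstLp_coeFn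
    have h1 := hKi fB fA
    have e1 : ∫ z, s.indicator (fun z : Ω × Ω => (starRingEnd ℂ) (fA z.1) * fB z.2) z ∂(μ.prod μ)
        = ((μ.prod μ).real (s ∩ A ×ˢ B) : ℂ) := by
      have : ∫ z, s.indicator (fun z : Ω × Ω => (starRingEnd ℂ) (fA z.1) * fB z.2) z ∂(μ.prod μ)
          = ∫ z, (s ∩ A ×ˢ B).indicator (fun _ => (1 : ℂ)) z ∂(μ.prod μ) := by
        apply integral_congr_ae
        have hg : ∀ᵐ z ∂(μ.prod μ), fA z.1 = A.indicator (fun _ => (1 : ℂ)) z.1 :=
          Measure.quasiMeasurePreserving_fst.ae hfA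
        have hf : ∀ᵐ z ∂(μ.prod μ), fB z.2 = B.indicator (fun _ => (1 : ℂ)) z.2 :=
          Measure.quasiMeasurePreserving_snd.ae hfB
        filter_upwards [hg, hf] with z hg hf
        simp only [Set.indicator_apply, hg, hf, Set.mem_inter_iff, Set.mem_prod]
        by_cases h1 : z ∈ s <;> by_cases h2 : z.1 ∈ A <;> by_cases h3 : z.2 ∈ B <;>
          simp [h1, h2, h3]
      rw [this, integral_indicator_const _ (hs.inter (hA.prod hB))]
      simp
    rw [e1, hKf] at h1
    rw [← h1, inner_smul_right]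
    have hfAo : ⟪fA, one⟫_ℂ = (μ.real A : ℂ) := by
      rw [L2.inner_def]
      have : ∫ a, ⟪fA a, one a⟫_ℂ ∂μ = ∫ a, A.indicator (fun _ => (1 : ℂ)) a ∂μ := by
        apply integral_congr_ae
        filter_upwards [hone', hfA] with z hz hz'
        rw [hz, hz']
        by_cases h2 : z ∈ A <;> simp [h2]
      rw [this, integral_indicator_const _ hA]; simp
    have hofB : ⟪one, fB⟫_ℂ = (μ.real B : ℂ) := by
      rw [L2.inner_def]
      have : ∫ a, ⟪one a, fB a⟫_ℂ ∂μ = ∫ a, B.indicator (fun _ => (1 : ℂ)) a ∂μ := by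
        apply integral_congr_ae
        filter_upwards [hone', hfB] with z hz hz'
        rw [hz, hz']
        by_cases h2 : z ∈ B <;> simp [h2]
      rw [this, integral_indicator_const _ hB]; simp
    rw [hfAo, hofB]
    ring
  -- the real constant
  set k : ℝ := (μ.prod μ).real s / (μ.real Set.univ * μ.real Set.univ) with hk
  have hk0 : 0 ≤ k := by positivity
  have hkc : (k : ℂ) = (μ.real Set.univ : ℂ)⁻¹ * c := by
    have h1 := hrect Set.univ Set.univ MeasurableSet.univ MeasurableSet.univ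
    rw [Set.univ_prod_univ, Set.inter_univ] at h1
    have hne : (μ.real Set.univ : ℂ) ≠ 0 := by exact_mod_cast hμpos.ne'
    rw [hk]; push_cast; rw [h1]
    field_simp
  have hrect' : ∀ A B : Set Ω, MeasurableSet A → MeasurableSet B →
      (μ.prod μ).real (s ∩ A ×ˢ B) = k * (μ.real A * μ.real B) := by
    intro A B hA hB
    have h1 := hrect A B hA hB
    rw [← hkc] at h1
    exact_mod_cast h1
  have hprod : (ENNReal.ofReal k • μ).prod μ = (μ.prod μ).restrict s := by
    have : IsFiniteMeasure (ENNReal.ofReal k • μ) := by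
      constructor
      rw [Measure.smul_apply, smul_eq_mul]
      exact ENNReal.mul_lt_top ENNReal.ofReal_lt_top (measure_lt_top _ _)
    apply Measure.prod_eq
    intro A B hA hB
    rw [Measure.restrict_apply (hA.prod hB), Set.inter_comm]
    have h1 := hrect' A B hA hB
    rw [Measure.smul_apply, smul_eq_mul]
    rw [← ENNReal.ofReal_toReal (measure_ne_top (μ.prod μ) (s ∩ A ×ˢ B)),
      ← ENNReal.ofReal_toReal (measure_ne_top μ A), ← ENNReal.ofReal_toReal (measure_ne_top μ B),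
      ← ENNReal.ofReal_mul hk0, ← ENNReal.ofReal_mul (by positivity), mul_assoc]
    congr 1
  have hfinal : ENNReal.ofReal k * (μ.prod μ) sᶜ = 0 := by
    have h1 : ((ENNReal.ofReal k • μ).prod μ) sᶜ = ((μ.prod μ).restrict s) sᶜ := by rw [hprod]
    rw [Measure.restrict_apply hs.compl, Set.compl_inter_self, measure_empty] at h1
    rw [Measure.prod_smul_left, Measure.smul_apply, smul_eq_mul] at h1
    exact h1
  rcases mul_eq_zero.1 hfinal with h1 | h1
  · left
    have hk' : k = 0 := le_antisymm (ENNReal.ofReal_eq_zero.1 h1) hk0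
    have h2 := hrect' Set.univ Set.univ MeasurableSet.univ MeasurableSet.univ
    rw [Set.univ_prod_univ, Set.inter_univ, hk', zero_mul] at h2
    rw [measureReal_def, ENNReal.toReal_eq_zero_iff] at h2
    rcases h2 with h2 | h2
    · exact h2
    · exact absurd h2 (measure_ne_top _ _)
  · right; exact h1

end PlaneSys

end Crest.Agent.R103
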