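import Crest.Agent.R103.IfaceG

/-!
# R103, H12: local description of the translations `tr` in the moving frame (helper611)
-/

open MeasureTheory Filter Topology
open Crest.AnalysisR.Billiard

noncomputable section

namespace Crest.Agent.R103

namespace TrL

/-- the quarter turn as a linear map -/
def Jl : Plane →ₗ[ℝ] Plane where
  toFun := J
  map_add' := fun u v => by
    ext i; fin_cases i
    · show -((u + v) 1) = -(u 1) + -(v 1)
      simp [add_comm]
    · show (u + v) 0 = u 0 + v 0
      simp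
  map_smul' := fun c v => by
    ext i; fin_cases i
    · show -((c • v) 1) = c * -(v 1)
      simp
    · show (c • v) 0 = c * v 0
      simp

lemma continuous_J : Continuous J := Jl.continuous_of_finiteDimensional

lemma J_smul (c : ℝ) (v : Plane) : J (c • v) = c • J v := Jl.map_smul c v

lemma J_add (u v : Plane) : J (u + v) = J u + J v := Jl.map_add u v

lemma sgn_not (b : Bool) : sgn (!b) = - sgn b := by cases b <;> simp [sgn]

/-- the velocity part of `rotF` does not depend on the position -/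
lemma rotF_pos (α : ℝ) (x y : Plane) (v : ↥(Metric.sphere (0 : Plane) 1)) (b : Bool) :
    rotF α ((y, v), b) = ((y, (rotF α ((x, v), b)).1.2), b) := rfl

lemma rotF_vel (α : ℝ) (z : Phase × Bool) : ((rotF α z).1.2 : Plane)
    = Real.cos α • (z.1.2 : Plane) + (sgn z.2 * Real.sin α) • J (z.1.2 : Plane) := rfl

lemma rotF_fst (α : ℝ) (z : Phase × Bool) : (rotF α z).1.1 = z.1.1 := rfl

lemma rotF_snd (α : ℝ) (z : Phase × Bool) : (rotF α z).2 = z.2 := rfl

lemma frm_eq (z : Phase × Bool) (ζ : ℂ) :
    frm z ζ = ‖ζ‖ • ((rotF ζ.arg z).1.2 : Plane) := by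
  rw [rotF_vel, smul_add, smul_smul, smul_smul, frm]
  have h1 : ‖ζ‖ * Real.cos ζ.arg = ζ.re := Complex.norm_mul_cos_arg ζ
  have h2 : ‖ζ‖ * Real.sin ζ.arg = ζ.im := Complex.norm_mul_sin_arg ζ
  rw [h1, ← h2]
  congr 2; ring

variable {A : Fin 3 → Plane}

instance sfinite_phaseMeasure (A : Fin 3 → Plane) : SFinite (phaseMeasure A) := by
  have h1 : SFinite ((volume : Measure Plane).restrict
    (interior ((convexHull ℝ) (Set.range A)))) := inferInstance
  have h3 : SFinite ((volume : Measure Plane).toSphere) := inferInstance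
  unfold phaseMeasure
  exact Measure.prod.instSFinite

lemma ae_lift {P : Phase → Prop} (h : ∀ᵐ p ∂(phaseMeasure A), P p) :
    ∀ᵐ z ∂(μM A), P z.1 := by
  have : Measure.QuasiMeasurePreserving (Prod.fst : Phase × Bool → Phase) (μM A) (phaseMeasure A) :=
    Measure.quasiMeasurePreserving_fst
  exact this.ae h

lemma tr_mp (hR : StRot) (hMP : StMP) (hA : AffineIndependent ℝ A) (ζ : ℂ) :
    MeasurePreserving (tr (flowM A) rotF ζ) (μM A) (μM A) :=
  (hR.2.2.2.2.1 A _).comp ((hMP A hA _).comp (hR.2.2.2.2.1 A _))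

lemma measurable_frm (ζ : ℂ) : Measurable (fun z : Phase × Bool => frm z ζ) := by
  have h1 : Measurable (fun z : Phase × Bool => (z.1.2 : Plane)) :=
    measurable_subtype_coe.comp (measurable_snd.comp measurable_fst)
  have h2 : Measurable (fun z : Phase × Bool => J (z.1.2 : Plane)) :=
    continuous_J.measurable.comp h1
  have h3 : Measurable (fun z : Phase × Bool => sgn z.2 * ζ.im) :=
    ((Measurable.of_discrete (f := sgn)).comp measurable_snd).mul_const _
  exact (h1.const_smul ζ.re).add (h3.smul h2)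

lemma line_null (h1 : StG1) (hA : AffineIndependent ℝ A) (i : Fin 3) (c : Plane) :
    (volume : Measure Plane) {x | cd A i (x + c) = 0} = 0 := by
  obtain ⟨-, -, -, hcd, hv, -⟩ := h1 A hA
  have hld : ∀ x y, cd A i x - cd A i y = ld A i (x - y) := fun x y => by
    have := hcd i y 1 (x - y)
    rw [one_smul, one_mul, add_sub_cancel] at this
    linarith
  let s : AffineSubspace ℝ Plane :=
    { carrier := {x | cd A i x = 0}
      smul_vsub_vadd_mem' := by
        intro a p q r hp hq hr
        have hp' : cd A i p = 0 := hp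
        have hq' : cd A i q = 0 := hq
        have hr' : cd A i r = 0 := hr
        show cd A i (a • (p - q) + r) = 0
        rw [add_comm, hcd, ← hld, hp', hq', hr']
        simp }
  have hs : s ≠ ⊤ := by
    intro h
    have : A i ∈ s := by rw [h]; trivial
    have h2 : cd A i (A i) = 0 := this
    rw [hv] at h2
    simp at h2
  have h0 : (volume : Measure Plane) (s : Set Plane) = 0 := Measure.addHaar_affineSubspace _ s hs
  have h3 : {x | cd A i (x + c) = 0} = (fun x => x + c) ⁻¹' (s : Set Plane) := rfl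
  rw [h3, measure_preimage_add_right]
  exact h0

lemma end_ne (h1 : StG1) (hA : AffineIndependent ℝ A) (ζ : ℂ) (i : Fin 3) :
    ∀ᵐ z ∂(μM A), cd A i (z.1.1 + frm z ζ) ≠ 0 := by
  have hcont : Continuous (cd A i) := (h1 A hA).2.2.2.2.2.2.2.1 i
  have hm : MeasurableSet {z : Phase × Bool | cd A i (z.1.1 + frm z ζ) = 0} := by
    have : Measurable (fun z : Phase × Bool => cd A i (z.1.1 + frm z ζ)) :=
      hcont.measurable.comp
        ((measurable_fst.comp measurable_fst).add (measurable_frm ζ))
    exact this (measurableSet_singleton 0)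
  have key : (μM A) {z : Phase × Bool | cd A i (z.1.1 + frm z ζ) = 0} = 0 := by
    rw [μM, Measure.prod_apply_symm hm]
    have : ∀ b : Bool, (phaseMeasure A)
        ((fun p : Phase => (p, b)) ⁻¹' {z : Phase × Bool | cd A i (z.1.1 + frm z ζ) = 0}) = 0 := by
      intro b
      have hm2 : MeasurableSet ((fun p : Phase => (p, b)) ⁻¹'
          {z : Phase × Bool | cd A i (z.1.1 + frm z ζ) = 0}) := measurable_prodMk_right hm
      rw [phaseMeasure, Measure.prod_apply_symm hm2]
      have : ∀ v : ↥(Metric.sphere (0 : Plane) 1),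
          ((volume : Measure Plane).restrict (interior (convexHull ℝ (Set.range A))))
          ((fun x : Plane => (x, v)) ⁻¹' ((fun p : Phase => (p, b)) ⁻¹'
          {z : Phase × Bool | cd A i (z.1.1 + frm z ζ) = 0})) = 0 := by
        intro v
        refine nonpos_iff_eq_zero.1 ((Measure.restrict_apply_le _ _).trans ?_)
        exact (line_null h1 hA i (frm ((0, v), b) ζ)).le
      exact (lintegral_congr this).trans lintegral_zero
    exact (lintegral_congr this).trans lintegral_zero
  exact (measure_eq_zero_iff_ae_notMem.1 key).mono fun z hz => hz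

end TrL

open TrL in
/-- H12. -/
theorem trr : StG1 → StG2 → StRot → StLoc → StAe → StMP → StTr := by
  intro h1 h2 hR hL hAe hMP A hA ζ
  have hae : ∀ᵐ z ∂(μM A), OK A z.1 ∧ ∀ i, 0 < cd A i z.1.1 := ae_lift (hAe A hA).1
  have haeR : ∀ᵐ z ∂(μM A), OK A (rotF ζ.arg z).1 ∧ ∀ i, 0 < cd A i (rotF ζ.arg z).1.1 :=
    (hR.2.2.2.2.1 A ζ.arg).quasiMeasurePreserving.ae hae
  have hback : ∀ z, rotF (-ζ.arg) (rotF ζ.arg z) = z := fun z => by
    rw [← hR.2.2.1, neg_add_cancel, hR.2.1]
  refine ⟨?_, ?_, ?_, ?_⟩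
  · filter_upwards [haeR] with z hz hin hout
    have hL1 := (hL A hA).1 (rotF ζ.arg z).1 ‖ζ‖ (norm_nonneg _) hz.1 hz.2
      (by
        intro j
        have := hout j
        rw [frm_eq] at this
        exact this)
    obtain ⟨ha, hb⟩ := hL1
    show rotF (-ζ.arg) (flowM A ‖ζ‖ (rotF ζ.arg z)) = _
    have hf : flowM A ‖ζ‖ (rotF ζ.arg z)
        = ((z.1.1 + frm z ζ, (rotF ζ.arg z).1.2), z.2) := by
      rw [flowM, ha, hb, frm_eq, Bool.xor_false]
      rfl
    rw [hf, rotF_pos (-ζ.arg) (rotF ζ.arg z).1.1]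
    have hz2 : rotF (-ζ.arg) (((rotF ζ.arg z).1.1, (rotF ζ.arg z).1.2), z.2) = z := hback z
    rw [hz2]
  · intro i
    filter_upwards [haeR] with z hz hin hneg hside
    obtain ⟨-, -, -, -, hlin, -, -, -, -, hJ, -⟩ := h2 A hA i
    have hnorm : ‖((rotF ζ.arg z).1.2 : Plane)‖ = 1 := by simp
    have hL2 := (hL A hA).2 (rotF ζ.arg z).1 ‖ζ‖ i (norm_nonneg _) hz.1 hz.2
      (by
        have := hneg
        rw [frm_eq] at this
        exact this)
      (by
        intro j hj s hs0 hs1
        refine hside j hj _ ?_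
        rw [dist_eq_norm]
        have : z.1.1 - ((rotF ζ.arg z).1.1 + s • ((rotF ζ.arg z).1.2 : Plane))
            = -(s • ((rotF ζ.arg z).1.2 : Plane)) := by
          rw [rotF_fst]; abel
        rw [this, norm_neg, norm_smul, hnorm, mul_one, Real.norm_eq_abs, abs_of_nonneg hs0]
        exact hs1)
    obtain ⟨ha, hb, hc⟩ := hL2
    have hsnd : (flowM A ‖ζ‖ (rotF ζ.arg z)).2 = !z.2 := by
      rw [flowM, hc, Bool.xor_true]; rfl
    refine ⟨?_, ?_, hsnd⟩
    · show (flowP A ‖ζ‖ (rotF ζ.arg z).1).1 = _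
      rw [ha, frm_eq]; rfl
    · show ((rotF (-ζ.arg) (flowM A ‖ζ‖ (rotF ζ.arg z))).1.2 : Plane) = _
      rw [rotF_vel, hsnd, sgn_not]
      have hv : (((flowM A ‖ζ‖ (rotF ζ.arg z)).1.2 : ↥(Metric.sphere (0 : Plane) 1)) : Plane)
          = mirror (sideVec A i) ((rotF ζ.arg z).1.2 : Plane) := hb
      rw [hv, hJ, Real.cos_neg, Real.sin_neg, smul_neg, ← neg_smul]
      have e : -(-sgn z.2 * -Real.sin ζ.arg) = sgn z.2 * Real.sin (-ζ.arg) := by
        rw [Real.sin_neg]; ring
      rw [e]
      have hzz : (z.1.2 : Plane) = Real.cos (-ζ.arg) • ((rotF ζ.arg z).1.2 : Plane)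
          + (sgn z.2 * Real.sin (-ζ.arg)) • J ((rotF ζ.arg z).1.2 : Plane) := by
        have := congrArg (fun w : Phase × Bool => (w.1.2 : Plane)) (hback z)
        simp only [rotF_vel (-ζ.arg)] at this
        exact this.symm
      conv_rhs => rw [hzz]
      rw [hlin, Real.cos_neg]
  · have h := (tr_mp hR hMP hA ζ).quasiMeasurePreserving.ae hae
    filter_upwards [h] with z hz
    exact hz.2
  · rw [ae_all_iff]
    exact fun i => end_ne h1 hA ζ i

end Crest.Agent.R103
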