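import Crest.Agent.R103.IfaceG

/-!
# R103 H16: transfer from oriented frames to phase space
-/

open MeasureTheory Filter Topology
open Crest.AnalysisR.Billiard
open scoped symmDiff

noncomputable section

namespace Crest.Agent.R103.Transfer

instance sfinite_phaseMeasure (A : Fin 3 → Plane) : SFinite (phaseMeasure A) := by
  have h1 : SFinite ((volume : Measure Plane).restrict
    (interior ((convexHull ℝ) (Set.range A)))) := inferInstance
  have h3 : SFinite ((volume : Measure Plane).toSphere) := inferInstance
  unfold phaseMeasure
  exact Measure.prod.instSFinite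

instance sfinite_μM (A : Fin 3 → Plane) : SFinite (μM A) := by
  have h1 : SFinite (Measure.count : Measure Bool) := inferInstance
  unfold μM
  exact Measure.prod.instSFinite

/-- the projection of pairs of frames to pairs of states -/
def pr (z : (Phase × Bool) × (Phase × Bool)) : Phase × Phase := (z.1.1, z.2.1)

lemma measurable_pr : Measurable pr :=
  (measurable_fst.comp measurable_fst).prodMk (measurable_fst.comp measurable_snd)

lemma map_fst_μM (A : Fin 3 → Plane) :
    Measure.map Prod.fst (μM A) = (Measure.count (Set.univ : Set Bool)) • phaseMeasure A := by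
  unfold μM
  exact Measure.map_fst_prod

lemma count_ne_zero : Measure.count (Set.univ : Set Bool) ≠ 0 := by
  rw [Measure.count_univ]; simp

lemma map_pr (A : Fin 3 → Plane) :
    Measure.map pr ((μM A).prod (μM A)) =
      ((Measure.count (Set.univ : Set Bool)) • phaseMeasure A).prod
        ((Measure.count (Set.univ : Set Bool)) • phaseMeasure A) := by
  have h := Measure.map_prod_map (μM A) (μM A) (measurable_fst (α := Phase) (β := Bool))
    (measurable_fst (α := Phase) (β := Bool))
  rw [map_fst_μM] at h
  rw [h]
  rfl

lemma qmp_pr (A : Fin 3 → Plane) :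
    Measure.QuasiMeasurePreserving pr ((μM A).prod (μM A))
      ((phaseMeasure A).prod (phaseMeasure A)) := by
  refine ⟨measurable_pr, ?_⟩
  rw [map_pr]
  have h : (Measure.count (Set.univ : Set Bool)) • phaseMeasure A ≪ phaseMeasure A :=
    Measure.smul_absolutelyContinuous
  exact h.prod h

lemma ac_pr (A : Fin 3 → Plane) :
    (phaseMeasure A).prod (phaseMeasure A) ≪ Measure.map pr ((μM A).prod (μM A)) := by
  rw [map_pr]
  have h : phaseMeasure A ≪ (Measure.count (Set.univ : Set Bool)) • phaseMeasure A :=
    Measure.absolutelyContinuous_smul count_ne_zero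
  exact h.prod h

lemma null_of_null (A : Fin 3 → Plane) {s : Set (Phase × Phase)} (hs : MeasurableSet s)
    (h : ((μM A).prod (μM A)) (pr ⁻¹' s) = 0) :
    ((phaseMeasure A).prod (phaseMeasure A)) s = 0 := by
  apply ac_pr A
  rw [Measure.map_apply measurable_pr hs]
  exact h

theorem transfer : StG1 → StUniq → StExist → StAe → StFlow → StMP → StTransfer := by
  intro _ hU hE hAe _ _ A hA hErg
  have hu := hU A hA
  have he := hE A hA
  have ha := (hAe A hA).1
  refine ⟨?_, ?_⟩
  · filter_upwards [ha] with p hp
    refine ⟨he p hp.1, ?_⟩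
    intro c c' hc hc' τ y y' hy hy'
    have := hu c c' p hc hc'
    subst this
    rw [isStateAt_iff] at hy hy'
    rw [hy, hy']
  · intro Φ hΦ s hs hinv
    -- the flow `flowP` agrees with `Φ`
    have hflow : ∀ t, ∀ᵐ p ∂(phaseMeasure A), flowP A t p = Φ t p := by
      intro t
      filter_upwards [ha, hΦ] with p hp hp'
      obtain ⟨c, hc, hc'⟩ := hp'
      have hgood : OK A p ∧ Good A p := ⟨hp.1, he p hp.1⟩
      have h1 : flowP A t p = stateAt (chainOf A p hgood.2) t := by
        unfold flowP
        rw [dif_pos hgood]
      have h2 : (chainOf A p hgood.2).Through p := hgood.2.choose_spec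
      have h3 := hu _ _ p h2 hc
      rw [h1, h3]
      exact ((isStateAt_iff c t _).1 (hc' t)).symm
    have hflow2 : ∀ t, ∀ᵐ z ∂((phaseMeasure A).prod (phaseMeasure A)),
        (flowP A t z.1, flowP A t z.2) = (Φ t z.1, Φ t z.2) := by
      intro t
      have h1 := (Measure.quasiMeasurePreserving_fst (μ := phaseMeasure A)
        (ν := phaseMeasure A)).ae (hflow t)
      have h2 := (Measure.quasiMeasurePreserving_snd (μ := phaseMeasure A)
        (ν := phaseMeasure A)).ae (hflow t)
      filter_upwards [h1, h2] with z hz1 hz2
      rw [hz1, hz2]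
    have hkey : ∀ t : ℝ, (fun z : (Phase × Bool) × (Phase × Bool) =>
        (flowM A t z.1, flowM A t z.2)) ⁻¹' (pr ⁻¹' s) =ᵐ[(μM A).prod (μM A)] (pr ⁻¹' s) := by
      intro t
      have h1 := measure_symmDiff_eq_zero_iff.1 (hinv t)
      have h2 : ∀ᵐ z ∂((phaseMeasure A).prod (phaseMeasure A)),
          ((flowP A t z.1, flowP A t z.2) ∈ s ↔ z ∈ s) := by
        filter_upwards [hflow2 t, h1] with z hz hz'
        rw [hz]
        exact Iff.of_eq hz'
      have h3 := (qmp_pr A).ae h2
      filter_upwards [h3] with z hz
      exact propext hz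
    rcases hErg (pr ⁻¹' s) (measurable_pr hs) hkey with h | h
    · left; exact null_of_null A hs h
    · right
      rw [← Set.preimage_compl] at h
      exact null_of_null A hs.compl h

end Crest.Agent.R103.Transfer
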