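import Crest.Agent.R103.Wk
import Crest.Agent.R103.EOps

/-!
# R103: Theorem A from `StMain` (task A8)
-/

open MeasureTheory Filter Topology Metric Set
open scoped InnerProductSpace

noncomputable section

namespace Crest.Agent.R103.PlaneSys

variable {Ω : Type} [TopologicalSpace Ω] [MeasurableSpace Ω] {μ : Measure Ω}
variable (S : PlaneSys Ω μ)

/-- if `⟪v, ψ⟫ = 0` for all `ψ` supported in `{b ≤ ρ}` then `v = 0` a.e. on `{b ≤ ρ}` -/
lemma ae_zero_of_inner_suppGe {b : ℝ} {v : Lp ℂ 2 μ}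
    (h : ∀ ψ : Lp ℂ 2 μ, S.SuppGe b ψ → ⟪v, ψ⟫_ℂ = 0) : ∀ᵐ z ∂μ, b ≤ S.ρ z → v z = 0 := by
  have hs : MeasurableSet {z | b ≤ S.ρ z} := measurableSet_le measurable_const S.ρ_meas
  have hm : MemLp ({z | b ≤ S.ρ z}.indicator v) 2 μ := (Lp.memLp v).indicator hs
  set ψ : Lp ℂ 2 μ := hm.toLp _ with hψ
  have hψc : ψ =ᵐ[μ] {z | b ≤ S.ρ z}.indicator v := hm.coeFn_toLp
  have hsupp : S.SuppGe b ψ := by
    filter_upwards [hψc] with z hz hlt
    rw [hz, indicator_of_notMem]
    exact not_le.2 hlt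
  have h1 := h ψ hsupp
  rw [L2.inner_def] at h1
  have h2 : (fun z => ⟪v z, ψ z⟫_ℂ) =ᵐ[μ] fun z =>
      (({z | b ≤ S.ρ z}.indicator (fun z => ‖v z‖ ^ 2) z : ℝ) : ℂ) := by
    filter_upwards [hψc] with z hz
    rw [hz]
    by_cases hz' : b ≤ S.ρ z
    · rw [indicator_of_mem (show z ∈ {z | b ≤ S.ρ z} from hz'),
        indicator_of_mem (show z ∈ {z | b ≤ S.ρ z} from hz'), inner_self_eq_norm_sq_to_K]
      simp
    · rw [indicator_of_notMem (show z ∉ {z | b ≤ S.ρ z} from hz'),
        indicator_of_notMem (show z ∉ {z | b ≤ S.ρ z} from hz')]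
      simp
  rw [integral_congr_ae h2, integral_complex_ofReal] at h1
  have h3 : ∫ z, {z | b ≤ S.ρ z}.indicator (fun z => ‖v z‖ ^ 2) z ∂μ = 0 := by exact_mod_cast h1
  have hint : Integrable (fun z => ‖v z‖ ^ 2) μ := (Lp.memLp v).integrable_norm_pow (by norm_num)
  rw [integral_eq_zero_iff_of_nonneg (fun z => indicator_nonneg (fun _ _ => by positivity) z)
    (hint.indicator hs)] at h3
  filter_upwards [h3] with z hz hle
  rw [indicator_of_mem (show z ∈ {z | b ≤ S.ρ z} from hle)] at hz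
  simpa using hz

/-- local invariance implies global invariance -/
theorem U_eq_of_local [IsFiniteMeasure μ] (u : Lp ℂ 2 μ) {c : ℝ} (hc : 0 < c)
    (h : ∀ b : ℝ, 0 < b → ∀ ζ : ℂ, ‖ζ‖ < b / c → ∀ᵐ z ∂μ, b ≤ S.ρ z → u (S.T ζ z) = u z)
    (ζ : ℂ) : S.U ζ u = u := by
  obtain ⟨t, α, ht, -, rfl⟩ := exists_polar ζ
  rcases ht.eq_or_lt with rfl | ht
  · simp [S.U_zero]
  -- notation for the partial translations
  have hT : ∀ (N : ℕ) (k : ℕ) (z : Ω), S.T (((k + 1 : ℕ) * (t / N) : ℝ) * Complex.exp (α * Complex.I)) z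
      = S.T ((t / N : ℝ) * Complex.exp (α * Complex.I))
        (S.T ((k * (t / N) : ℝ) * Complex.exp (α * Complex.I)) z) := by
    intro N k z
    have h1 := S.T_ray (s := t / N) (t := k * (t / N)) (by positivity) (by positivity) α z
    rw [← h1]
    congr 2
    push_cast; ring
  refine Lp.ext ?_
  have hgood : ∀ᵐ z ∂μ, ∀ N : ℕ, 0 < N → ∀ k : ℕ,
      2 * c * (t / N) ≤ S.ρ (S.T ((k * (t / N) : ℝ) * Complex.exp (α * Complex.I)) z) →
      u (S.T (((k + 1 : ℕ) * (t / N) : ℝ) * Complex.exp (α * Complex.I)) z)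
        = u (S.T ((k * (t / N) : ℝ) * Complex.exp (α * Complex.I)) z) := by
    rw [ae_all_iff]; intro N
    by_cases hN : 0 < N
    swap
    · exact Eventually.of_forall fun z h => absurd h hN
    have hN' : (0 : ℝ) < N := by exact_mod_cast hN
    have : ∀ᵐ z ∂μ, ∀ k : ℕ,
        2 * c * (t / N) ≤ S.ρ (S.T ((k * (t / N) : ℝ) * Complex.exp (α * Complex.I)) z) →
        u (S.T (((k + 1 : ℕ) * (t / N) : ℝ) * Complex.exp (α * Complex.I)) z)
          = u (S.T ((k * (t / N) : ℝ) * Complex.exp (α * Complex.I)) z) := by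
      rw [ae_all_iff]; intro k
      have hb : 0 < 2 * c * (t / N) := by positivity
      have h1 := h (2 * c * (t / N)) hb ((t / N : ℝ) * Complex.exp (α * Complex.I)) (by
        rw [norm_mul, Complex.norm_exp_ofReal_mul_I, Complex.norm_real,
          Real.norm_of_nonneg (by positivity), mul_one]
        rw [mul_assoc, mul_comm c, ← mul_assoc, mul_div_assoc, div_self hc.ne', mul_one]
        have : 0 < t / N := by positivity
        linarith)
      have h2 := (S.T_mp ((k * (t / N) : ℝ) * Complex.exp (α * Complex.I))).quasiMeasurePreserving.ae h1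
      filter_upwards [h2] with z hz hle
      rw [hT N k z]
      exact hz hle
    filter_upwards [this] with z hz _ using hz
  -- the bad set has measure zero
  have hbad : μ {z | u (S.T ((t : ℂ) * Complex.exp (α * Complex.I)) z) ≠ u z} = 0 := by
    have hle : ∀ N : ℕ, 0 < N →
        μ {z | u (S.T ((t : ℂ) * Complex.exp (α * Complex.I)) z) ≠ u z}
          ≤ ENNReal.ofReal (S.Cv * (2 * c * t) ^ 2 / N) := by
      intro N hN
      have hN' : (0 : ℝ) < N := by exact_mod_cast hN
      have hsub : ∀ᵐ z ∂μ, z ∈ {z | u (S.T ((t : ℂ) * Complex.exp (α * Complex.I)) z) ≠ u z} →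
          z ∈ ⋃ k ∈ Finset.range N,
            (S.T ((k * (t / N) : ℝ) * Complex.exp (α * Complex.I))) ⁻¹'
              {z | S.ρ z < 2 * c * (t / N)} := by
        filter_upwards [hgood] with z hz hne
        by_contra hcon
        simp only [mem_iUnion, Finset.mem_range, mem_preimage, mem_ofPred_eq, exists_prop, not_exists,
          not_and, not_lt] at hcon
        have hall : ∀ k : ℕ, k ≤ N →
            u (S.T ((k * (t / N) : ℝ) * Complex.exp (α * Complex.I)) z) = u z := by
          intro k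
          induction k with
          | zero => intro _; simp [S.T_zero]
          | succ k ih =>
            intro hk
            rw [hz N hN k (hcon k (by omega)), ih (by omega)]
        have h1 := hall N le_rfl
        have h2 : ((N * (t / N) : ℝ) : ℂ) = (t : ℂ) := by
          rw [mul_div_cancel₀ t hN'.ne']
        rw [h2] at h1
        exact hne h1
      refine (measure_mono_ae hsub).trans ?_
      refine (measure_biUnion_finset_le _ _).trans ?_
      have h3 : ∀ k ∈ Finset.range N, μ ((S.T ((k * (t / N) : ℝ) * Complex.exp (α * Complex.I))) ⁻¹'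
              {z | S.ρ z < 2 * c * (t / N)}) ≤ ENNReal.ofReal (S.Cv * (2 * c * (t / N)) ^ 2) := by
        intro k _
        rw [(S.T_mp _).measure_preimage
          (measurableSet_lt S.ρ_meas measurable_const).nullMeasurableSet]
        exact S.vol _ (by positivity)
      refine (Finset.sum_le_sum h3).trans ?_
      rw [Finset.sum_const, Finset.card_range, nsmul_eq_mul, ← ENNReal.ofReal_natCast,
        ← ENNReal.ofReal_mul (by positivity)]
      refine ENNReal.ofReal_le_ofReal (le_of_eq ?_)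
      field_simp
    have hlim : Tendsto (fun N : ℕ => ENNReal.ofReal (S.Cv * (2 * c * t) ^ 2 / N)) atTop (𝓝 0) := by
      have h1 : Tendsto (fun N : ℕ => S.Cv * (2 * c * t) ^ 2 / (N : ℝ)) atTop (𝓝 0) :=
        tendsto_const_div_atTop_nhds_zero_nat _
      have h2 := ENNReal.tendsto_ofReal h1
      simpa using h2
    refine le_antisymm (ge_of_tendsto hlim ?_) bot_le
    filter_upwards [eventually_gt_atTop 0] with N hN using hle N hN
  have h1 : ∀ᵐ z ∂μ, u (S.T ((t : ℂ) * Complex.exp (α * Complex.I)) z) = u z := hbad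
  filter_upwards [S.U_coe ((t : ℂ) * Complex.exp (α * Complex.I)) u, h1] with z hz hz'
  rw [hz, hz']

/-- **Theorem A** from the main estimate. -/
theorem thmA_wk (hMain : StMain) (hCont : StCont) (hE : StE) (hP : StP) : StThmA := by
  intro Ω _ _ _ _ _ μ _ S u B hB hinv ζ
  have hmain := hMain Ω μ S u B hB hinv
  have hC : 0 < S.C₀ + 2 := by linarith [S.one_le_C₀]
  refine S.U_eq_of_local u (c := 4 * (S.C₀ + 2)) (by positivity) ?_ ζ
  intro b hb ξ hξ
  -- `⟪u, U (-ξ) ψ - ψ⟫ = 0`
  have h1 : ∀ ψ : Lp ℂ 2 μ, S.SuppGe b ψ → ⟪S.U ξ u - u, ψ⟫_ℂ = 0 := by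
    intro ψ hψ
    have h2 : ⟪u, S.U (-ξ) ψ - ψ⟫_ℂ = 0 := by
      refine (hP Ω μ S).2.2.2.1 u _ fun n => ?_
      rw [inner_sub_right, S.wk hCont hE hP u hmain hb hψ n (ζ := -ξ) (by rwa [norm_neg]), sub_self]
    rw [inner_sub_left, S.inner_U_left, ← inner_sub_right, h2]
  have h3 := S.ae_zero_of_inner_suppGe h1
  filter_upwards [h3, S.U_coe ξ u, Lp.coeFn_sub (S.U ξ u) u] with z hz h4 h5 hle
  have h6 := hz hle
  rw [h5, Pi.sub_apply, h4, sub_eq_zero] at h6
  exact h6

end Crest.Agent.R103.PlaneSys
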