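import Crest.Agent.R103.Final
import Crest.Agent.R103.Abs
import Crest.Agent.R103.TeleSt
import Crest.Agent.R103.EOps
import Crest.Agent.R103.POps
import Crest.Agent.R103.Comm
import Crest.Agent.R103.Rt
import Crest.Agent.R103.Eta
import Crest.Agent.R103.Main
import Crest.Agent.R103.Prod
import Crest.Agent.R103.Ker
import Crest.Agent.R103.Fin
import Crest.Agent.R103.ThmB
import Crest.Agent.R103.GeoBary
import Crest.Agent.R103.GeoRefl
import Crest.Agent.R103.ChainUniq
import Crest.Agent.R103.ChainShift
import Crest.Agent.R103.ChainState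
import Crest.Agent.R103.ChainAe
import Crest.Agent.R103.Flow
import Crest.Agent.R103.Rev
import Crest.Agent.R103.Rot
import Crest.Agent.R103.Loc
import Crest.Agent.R103.Tr
import Crest.Agent.R103.LC
import Crest.Agent.R103.Inst
import Crest.Agent.R103.Transfer
import Crest.Agent.R103.Cont
import Crest.Agent.R103.WkEnd
import Crest.Agent.R103.GeoVert
import Crest.Agent.R103.ChainExist
import Crest.Agent.R103.FlowMeas
import Crest.Agent.R103.FlowMP
import Crest.Agent.R103.Const

/-!
# R103: assembly of all modules: S0136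
-/

open MeasureTheory Filter Topology
open Crest.AnalysisR.Billiard
open scoped symmDiff

namespace Crest.Agent.R103

theorem assembly
    (A : Fin 3 → Plane) (hA : AffineIndependent ℝ A)
    (hirr : ∃ i : Fin 3,
      Irrational (EuclideanGeometry.angle (A (i + 1)) (A i) (A (i + 2)) / Real.pi)) :
    (∀ᵐ p ∂(phaseMeasure A), (∃ c : Chain A, c.Through p) ∧
        ∀ c c' : Chain A, c.Through p → c'.Through p →
          ∀ (τ : ℝ) (y y' : Phase), c.IsStateAt τ y → c'.IsStateAt τ y' → y = y') ∧
    ∀ Φ : ℝ → Phase → Phase,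
      (∀ᵐ p ∂(phaseMeasure A), ∃ c : Chain A, c.Through p ∧ ∀ τ : ℝ, c.IsStateAt τ (Φ τ p)) →
      ∀ s : Set (Phase × Phase), MeasurableSet s →
        (∀ τ : ℝ, ((phaseMeasure A).prod (phaseMeasure A))
            (((fun z : Phase × Phase => (Φ τ z.1, Φ τ z.2)) ⁻¹' s) ∆ s) = 0) →
        ((phaseMeasure A).prod (phaseMeasure A)) s = 0 ∨
          ((phaseMeasure A).prod (phaseMeasure A)) sᶜ = 0 := by
  have hE : PlaneSys.StE := PlaneSys.eops_of cont
  have hP : PlaneSys.StP := pops_of_cont cont
  have hComm : PlaneSys.StComm := comm cont hE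
  have hRt : PlaneSys.StRt := PlaneSys.rtfacts
  have hEta : PlaneSys.StEta := etafacts hRt
  have hMain : PlaneSys.StMain := main tele cont hE hP hComm hEta hRt
  have hA8 : PlaneSys.StThmA := PlaneSys.thmA_wk hMain cont hE hP
  have hB : PlaneSys.StThmB := PlaneSys.thmB PlaneSys.ker (PlaneSys.fin cont)
  have hAbs : PlaneSys.StAbs := PlaneSys.abs_ hA8 PlaneSys.prod hB
  have g1 : StG1 := GeoBary.g1
  have g3 : StG3 := g3 g1 g2
  have hu : StUniq := uniq g1 g2
  have exist : StExist := exist g1 g2
  have hst : StState := state g1 g2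
  have hae : StAe := ae_ g1 g2
  have hflow : StFlow := flow g1 g2 hu shift hst exist
  have meas : StMeas := meas g1 hst exist hae hflow
  have mp : StMP := mp g1 g2 hst exist hae hflow meas
  have hloc : StLoc := loc g1 g2 hu exist
  have htr : StTr := trr g1 g2 rot_ hloc hae mp
  have hlc : StLC := LCm.lc g1 g2 g3 rot_ hloc htr mp
  have hrev : StRev := rev g1 g2 hu exist hae mp
  have const_ : StConst := const_ g1 g2 htr hae rot_
  have hinst : StInst := inst g3 rot_ hflow meas mp hrev hlc
  exact final_M hAbs hinst const_ (Transfer.transfer g1 hu exist hae hflow mp) A hA hirr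

end Crest.Agent.R103
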