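import Crest.Agent.R103.Defs

open MeasureTheory Filter Topology

noncomputable section

namespace Crest.Agent.R103

namespace PlaneSys

variable {Ω : Type*} [TopologicalSpace Ω] [MeasurableSpace Ω] {μ : Measure Ω}
variable (S : PlaneSys Ω μ)

lemma φ_measurable (t : ℝ) : Measurable (S.φ t) :=
  S.φ_meas.comp (measurable_const.prodMk measurable_id)

lemma R_measurable (a : ℝ) : Measurable (S.R a) :=
  S.R_meas.comp (measurable_const.prodMk measurable_id)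

lemma T_def (ζ : ℂ) (z : Ω) : S.T ζ z = S.R (-ζ.arg) (S.φ ‖ζ‖ (S.R ζ.arg z)) := rfl

lemma R_neg_R (a : ℝ) (z : Ω) : S.R (-a) (S.R a z) = z := by
  rw [← S.R_add, neg_add_cancel, S.R_zero]

lemma R_R_neg (a : ℝ) (z : Ω) : S.R a (S.R (-a) z) = z := by
  rw [← S.R_add, add_neg_cancel, S.R_zero]

lemma φ_neg_φ (a : ℝ) (z : Ω) : S.φ (-a) (S.φ a z) = z := by
  rw [← S.φ_add, neg_add_cancel, S.φ_zero]

lemma φ_φ_neg (a : ℝ) (z : Ω) : S.φ a (S.φ (-a) z) = z := by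
  rw [← S.φ_add, add_neg_cancel, S.φ_zero]

lemma R_int_two_pi (k : ℤ) (z : Ω) : S.R (k * (2 * Real.pi)) z = z := by
  have hn : ∀ (n : ℕ) (z : Ω), S.R (n * (2 * Real.pi)) z = z := by
    intro n
    induction n with
    | zero => intro z; simp [S.R_zero]
    | succ n ih =>
      intro z
      have : ((n + 1 : ℕ) : ℝ) * (2 * Real.pi) = n * (2 * Real.pi) + 2 * Real.pi := by
        push_cast; ring
      rw [this, S.R_add, S.R_two_pi, ih]
  obtain ⟨n, rfl | rfl⟩ := k.eq_nat_or_neg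
  · simpa using hn n z
  · have h := S.R_neg_R ((n : ℝ) * (2 * Real.pi)) z
    rw [hn n z] at h
    have e : ((-(n : ℤ) : ℤ) : ℝ) * (2 * Real.pi) = -((n : ℝ) * (2 * Real.pi)) := by
      push_cast; ring
    rw [e]; exact h

lemma R_add_int_two_pi (a : ℝ) (k : ℤ) (z : Ω) : S.R (a + k * (2 * Real.pi)) z = S.R a z := by
  rw [S.R_add, S.R_int_two_pi]

/-- the rotation only depends on the angle mod `2π`. -/
lemma R_congr {a b : ℝ} (h : (a : Real.Angle) = (b : Real.Angle)) (z : Ω) :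
    S.R a z = S.R b z := by
  obtain ⟨k, hk⟩ := Real.Angle.angle_eq_iff_two_pi_dvd_sub.1 h
  have : a = b + k * (2 * Real.pi) := by linarith
  rw [this, S.R_add_int_two_pi]

lemma T_measurable_uncurry : Measurable (fun p : ℂ × Ω => S.T p.1 p.2) := by
  have h1 : Measurable (fun p : ℂ × Ω => S.R p.1.arg p.2) :=
    S.R_meas.comp ((Complex.measurable_arg.comp measurable_fst).prodMk measurable_snd)
  have h2 : Measurable (fun p : ℂ × Ω => S.φ ‖p.1‖ (S.R p.1.arg p.2)) :=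
    S.φ_meas.comp (((measurable_norm).comp measurable_fst).prodMk h1)
  exact S.R_meas.comp (((Complex.measurable_arg.comp measurable_fst).neg).prodMk h2)

lemma T_measurable (ζ : ℂ) : Measurable (S.T ζ) :=
  S.T_measurable_uncurry.comp (measurable_const.prodMk measurable_id)

lemma T_mp (ζ : ℂ) : MeasurePreserving (S.T ζ) μ μ :=
  (S.R_mp _).comp ((S.φ_mp _).comp (S.R_mp _))

lemma T_zero (z : Ω) : S.T 0 z = z := by
  rw [S.T_def]; simp [S.φ_zero, S.R_zero]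

/-- the polar form of `T` -/
lemma T_polar {t : ℝ} (ht : 0 ≤ t) (α : ℝ) (z : Ω) :
    S.T (t * Complex.exp (α * Complex.I)) z = S.R (-α) (S.φ t (S.R α z)) := by
  rcases ht.eq_or_lt with rfl | ht
  · simp [S.T_zero, S.φ_zero, S.R_neg_R]
  have hn : ‖(t : ℂ) * Complex.exp (α * Complex.I)‖ = t := by
    rw [norm_mul, Complex.norm_exp_ofReal_mul_I]; simp [abs_of_pos ht]
  have ha : (((t : ℂ) * Complex.exp (α * Complex.I)).arg : Real.Angle) = (α : Real.Angle) := by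
    have h := Complex.arg_mul_cos_add_sin_mul_I_coe_angle ht (α : Real.Angle)
    rw [Complex.exp_mul_I]
    simpa using h
  rw [S.T_def, hn, S.R_congr ha]
  have ha' : ((-((t : ℂ) * Complex.exp (α * Complex.I)).arg : ℝ) : Real.Angle)
      = ((-α : ℝ) : Real.Angle) := by
    rw [Real.Angle.coe_neg, ha, Real.Angle.coe_neg]
  rw [S.R_congr ha']

lemma T_ofReal_of_nonneg {t : ℝ} (ht : 0 ≤ t) (z : Ω) : S.T (t : ℂ) z = S.φ t z := by
  have := S.T_polar ht 0 z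
  simpa [S.R_zero] using this

lemma exists_polar (ζ : ℂ) : ∃ (t : ℝ) (α : ℝ), 0 ≤ t ∧ t = ‖ζ‖ ∧
    ζ = t * Complex.exp (α * Complex.I) :=
  ⟨‖ζ‖, ζ.arg, norm_nonneg _, rfl, (Complex.norm_mul_exp_arg_mul_I ζ).symm⟩

/-- `T ζ ∘ R α = R α ∘ T (e^{iα} ζ)` -/
lemma T_R (ζ : ℂ) (α : ℝ) (z : Ω) :
    S.T ζ (S.R α z) = S.R α (S.T (Complex.exp (α * Complex.I) * ζ) z) := by
  obtain ⟨t, β, ht, -, rfl⟩ := exists_polar ζ
  have e : Complex.exp (α * Complex.I) * ((t : ℂ) * Complex.exp (β * Complex.I))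
      = t * Complex.exp (((β + α : ℝ) : ℂ) * Complex.I) := by
    push_cast; rw [add_mul, Complex.exp_add]; ring
  rw [e, S.T_polar ht, S.T_polar ht]
  rw [← S.R_add β α z, ← S.R_add α]
  congr 1; ring

/-- translations in one direction form a semigroup -/
lemma T_ray {s t : ℝ} (hs : 0 ≤ s) (ht : 0 ≤ t) (α : ℝ) (z : Ω) :
    S.T (((s + t : ℝ) : ℂ) * Complex.exp (α * Complex.I)) z
      = S.T (s * Complex.exp (α * Complex.I)) (S.T (t * Complex.exp (α * Complex.I)) z) := by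
  rw [S.T_polar (add_nonneg hs ht), S.T_polar hs, S.T_polar ht, S.R_R_neg, ← S.φ_add]

lemma ρ_T (ζ : ℂ) (z : Ω) : S.ρ (S.T ζ z) ≤ S.ρ z + ‖ζ‖ := by
  rw [S.T_def, S.ρ_R]
  have := S.ρ_φ ‖ζ‖ (S.R ζ.arg z)
  rw [S.ρ_R, abs_of_nonneg (norm_nonneg ζ)] at this
  exact this

/-- `T (-ζ)` is the inverse of `T ζ` almost everywhere -/
lemma T_neg (ζ : ℂ) : ∀ᵐ z ∂μ, S.T (-ζ) (S.T ζ z) = z := by
  obtain ⟨t, α, ht, -, rfl⟩ := exists_polar ζ
  have e : -((t : ℂ) * Complex.exp (α * Complex.I))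
      = t * Complex.exp (((α + Real.pi : ℝ) : ℂ) * Complex.I) := by
    push_cast; rw [add_mul, Complex.exp_add, Complex.exp_pi_mul_I]; ring
  have h1 := S.rev t
  have h2 : ∀ᵐ z ∂μ, S.φ t (S.R Real.pi (S.φ t (S.R α z)))
      = S.R Real.pi (S.φ (-t) (S.φ t (S.R α z))) :=
    ((S.φ_mp t).comp (S.R_mp α)).quasiMeasurePreserving.ae h1
  filter_upwards [h2] with z hz
  rw [e, S.T_polar ht, S.T_polar ht]
  have : S.R (α + Real.pi) (S.R (-α) (S.φ t (S.R α z))) = S.R Real.pi (S.φ t (S.R α z)) := by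
    rw [add_comm, S.R_add, S.R_R_neg]
  rw [this, hz, S.φ_neg_φ, ← S.R_add, ← S.R_add]
  have : -(α + Real.pi) + Real.pi + α = 0 := by ring
  rw [this, S.R_zero]

/-- for real `t` (of any sign) `T t = φ t` a.e. -/
lemma T_ofReal (t : ℝ) : ∀ᵐ z ∂μ, S.T (t : ℂ) z = S.φ t z := by
  rcases le_or_gt 0 t with ht | ht
  · exact Eventually.of_forall fun z => S.T_ofReal_of_nonneg ht z
  · have ht' : 0 ≤ -t := by linarith
    have h := S.T_neg ((-t : ℝ) : ℂ)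
    have h2 : ∀ᵐ z ∂μ, S.T (-((-t : ℝ) : ℂ)) (S.T ((-t : ℝ) : ℂ) (S.φ t z)) = S.φ t z :=
      (S.φ_mp t).quasiMeasurePreserving.ae h
    filter_upwards [h2] with z hz
    rw [S.T_ofReal_of_nonneg ht', S.φ_neg_φ] at hz
    simpa using hz

section Koopman

/-- Koopman operator of `T ζ` on `L²` -/
def U (ζ : ℂ) : Lp ℂ 2 μ →ₗᵢ[ℂ] Lp ℂ 2 μ :=
  Lp.compMeasurePreservingₗᵢ ℂ (S.T ζ) (S.T_mp ζ)

/-- Koopman operator of the rotation `R α` -/
def rot (α : ℝ) : Lp ℂ 2 μ →ₗᵢ[ℂ] Lp ℂ 2 μ :=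
  Lp.compMeasurePreservingₗᵢ ℂ (S.R α) (S.R_mp α)

/-- Koopman operator of the flow `φ t` -/
def Uφ (t : ℝ) : Lp ℂ 2 μ →ₗᵢ[ℂ] Lp ℂ 2 μ :=
  Lp.compMeasurePreservingₗᵢ ℂ (S.φ t) (S.φ_mp t)

lemma U_coe (ζ : ℂ) (f : Lp ℂ 2 μ) : S.U ζ f =ᵐ[μ] fun z => f (S.T ζ z) :=
  Lp.coeFn_compMeasurePreserving f (S.T_mp ζ)

lemma rot_coe (α : ℝ) (f : Lp ℂ 2 μ) : S.rot α f =ᵐ[μ] fun z => f (S.R α z) :=
  Lp.coeFn_compMeasurePreserving f (S.R_mp α)

lemma Uφ_coe (t : ℝ) (f : Lp ℂ 2 μ) : S.Uφ t f =ᵐ[μ] fun z => f (S.φ t z) :=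
  Lp.coeFn_compMeasurePreserving f (S.φ_mp t)

end Koopman

end PlaneSys

end Crest.Agent.R103
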