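import Crest.Agent.R103.IfaceG

/-!
# R103: H3, states of a chain: admissibility, Lipschitz bound, unfolding words
-/

open MeasureTheory Filter Topology
open Crest.AnalysisR.Billiard

noncomputable section

namespace Crest.Agent.R103

section words
variable (A : Fin 3 → Plane)

lemma reflW_append (w w' : List (Fin 3)) (x : Plane) :
    reflW A (w ++ w') x = reflW A w' (reflW A w x) := by
  induction w generalizing x with
  | nil => rfl
  | cons i w ih => simp only [List.cons_append, reflW, ih]

lemma mirW_append (w w' : List (Fin 3)) (x : Plane) :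
    mirW A (w ++ w') x = mirW A w' (mirW A w x) := by
  induction w generalizing x with
  | nil => rfl
  | cons i w ih => simp only [List.cons_append, mirW, ih]

lemma reflW_add (h2 : StG2) (hA : AffineIndependent ℝ A) (w : List (Fin 3)) (x : Plane) (s : ℝ)
    (v : Plane) : reflW A w (x + s • v) = reflW A w x + s • mirW A w v := by
  induction w generalizing x v with
  | nil => rfl
  | cons i w ih =>
    have h := (h2 A hA i).2.2.2.2.2.1
    simp only [reflW, mirW, h, ih]

end words

section chain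
variable {A : Fin 3 → Plane} (c : Chain A)

/-- the line of flight `k`, parametrised by absolute time -/
def lineAt (k : ℤ) (r : ℝ) : Plane := c.q k + (r - c.t k) • c.vel k

lemma t_lt (k : ℤ) : 0 < c.t (k + 1) - c.t k := sub_pos.2 (c.strictMono_t (by omega))

lemma lineAt_left (k : ℤ) : lineAt c k (c.t k) = c.q k := by simp [lineAt]

lemma lineAt_right (k : ℤ) : lineAt c k (c.t (k + 1)) = c.q (k + 1) := by
  have h := (t_lt c k).ne'
  simp only [lineAt, Chain.vel, smul_smul]
  rw [mul_inv_cancel₀ h, one_smul]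
  abel

lemma lineAt_add (k : ℤ) (r s : ℝ) : lineAt c k (r + s) = lineAt c k r + s • c.vel k := by
  simp only [lineAt, add_sub_right_comm, add_smul]
  abel

lemma stateAt_fst (τ : ℝ) : (stateAt c τ).1 = lineAt c (idx c τ) τ := rfl

lemma stateAt_snd (τ : ℝ) : ((stateAt c τ).2 : Plane) = c.vel (idx c τ) := rfl

lemma dist_lineAt (k : ℤ) (r s : ℝ) : dist (lineAt c k r) (lineAt c k s) = |r - s| := by
  rw [dist_eq_norm]
  have : lineAt c k r - lineAt c k s = (r - s) • c.vel k := by
    simp only [lineAt]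
    rw [show (r - s) • c.vel k = (r - c.t k) • c.vel k - (s - c.t k) • c.vel k by
      rw [← sub_smul]; congr 1; ring]
    abel
  rw [this, norm_smul, norm_vel, mul_one, Real.norm_eq_abs]

lemma vel_succ (k : ℤ) : c.vel (k + 1) = mirror (sideVec A (c.side (k + 1))) (c.vel k) := by
  have h := c.reflect k
  simp only [Chain.vel]
  rw [show k + 1 + 1 = k + 2 by ring]
  exact h

lemma lineAt_succ (h1 : StG1) (h2 : StG2) (hA : AffineIndependent ℝ A) (k : ℤ) (r : ℝ) :
    lineAt c (k + 1) r = refl A (c.side (k + 1)) (lineAt c k r) := by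
  obtain ⟨-, -, -, -, -, hadd, -, -, hfix, -, -⟩ := h2 A hA (c.side (k + 1))
  have hm := c.mem_side (k + 1)
  rw [(h1 A hA).2.2.2.2.2.2.2.2.2.2 (c.side (k + 1))] at hm
  have e1 : lineAt c k r = lineAt c k (c.t (k + 1)) + (r - c.t (k + 1)) • c.vel k := by
    rw [← lineAt_add]; congr 1; ring
  rw [e1, hadd, lineAt_right, hfix _ hm.1, ← vel_succ]
  rfl

lemma lineAt_pred (h1 : StG1) (h2 : StG2) (hA : AffineIndependent ℝ A) (k : ℤ) (r : ℝ) :
    lineAt c k r = refl A (c.side (k + 1)) (lineAt c (k + 1) r) := by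
  rw [lineAt_succ c h1 h2 hA, (h2 A hA (c.side (k + 1))).1]

lemma vel_pred (h2 : StG2) (hA : AffineIndependent ℝ A) (k : ℤ) :
    c.vel k = mirror (sideVec A (c.side (k + 1))) (c.vel (k + 1)) := by
  rw [vel_succ, (h2 A hA (c.side (k + 1))).2.1]

lemma exists_word_add (h1 : StG1) (h2 : StG2) (hA : AffineIndependent ℝ A) (k : ℤ) (n : ℕ) :
    ∃ w : List (Fin 3), w.length = n ∧ (∀ r, lineAt c (k + n) r = reflW A w (lineAt c k r)) ∧
      c.vel (k + n) = mirW A w (c.vel k) := by
  induction n with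
  | zero => exact ⟨[], rfl, fun r => by simp [reflW], by simp [mirW]⟩
  | succ n ih =>
    obtain ⟨w, hl, hw, hv⟩ := ih
    refine ⟨w ++ [c.side (k + n + 1)], by simp [hl], fun r => ?_, ?_⟩
    · rw [reflW_append, ← hw, show (k + (n + 1 : ℕ) : ℤ) = k + n + 1 by push_cast; ring,
        lineAt_succ c h1 h2 hA]
      rfl
    · rw [mirW_append, ← hv, show (k + (n + 1 : ℕ) : ℤ) = k + n + 1 by push_cast; ring, vel_succ]
      rfl

lemma exists_word_sub (h1 : StG1) (h2 : StG2) (hA : AffineIndependent ℝ A) (k : ℤ) (n : ℕ) :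
    ∃ w : List (Fin 3), w.length = n ∧ (∀ r, lineAt c k r = reflW A w (lineAt c (k + n) r)) ∧
      c.vel k = mirW A w (c.vel (k + n)) := by
  induction n with
  | zero => exact ⟨[], rfl, fun r => by simp [reflW], by simp [mirW]⟩
  | succ n ih =>
    obtain ⟨w, hl, hw, hv⟩ := ih
    refine ⟨c.side (k + n + 1) :: w, by simp [hl], fun r => ?_, ?_⟩
    · rw [show (k + (n + 1 : ℕ) : ℤ) = k + n + 1 by push_cast; ring]
      simp only [reflW]
      rw [← lineAt_pred c h1 h2 hA, ← hw]
    · rw [show (k + (n + 1 : ℕ) : ℤ) = k + n + 1 by push_cast; ring]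
      simp only [mirW]
      rw [← vel_pred c h2 hA, ← hv]

lemma exists_word (h1 : StG1) (h2 : StG2) (hA : AffineIndependent ℝ A) (k l : ℤ) :
    ∃ w : List (Fin 3), (Odd (w.length : ℤ) ↔ Odd (l - k)) ∧
      (∀ r, lineAt c l r = reflW A w (lineAt c k r)) ∧ c.vel l = mirW A w (c.vel k) := by
  rcases le_total k l with h | h
  · obtain ⟨n, hn⟩ := Int.le.dest h
    obtain ⟨w, hl, hw, hv⟩ := exists_word_add c h1 h2 hA k n
    rw [hn] at hw hv
    refine ⟨w, ?_, hw, hv⟩
    rw [hl, show l - k = (n : ℤ) by omega]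
  · obtain ⟨n, hn⟩ := Int.le.dest h
    obtain ⟨w, hl, hw, hv⟩ := exists_word_sub c h1 h2 hA l n
    rw [hn] at hw hv
    refine ⟨w, ?_, hw, hv⟩
    rw [hl, show l - k = -(n : ℤ) by omega]
    exact odd_neg.symm

lemma adm_stateAt (h1 : StG1) (hA : AffineIndependent ℝ A) (τ : ℝ) : Adm A (stateAt c τ) := by
  obtain ⟨-, -, -, hadd, -, -, -, -, -, -, hside⟩ := h1 A hA
  set k := idx c τ with hk
  have ht := t_lt c k
  have hτ1 : c.t k ≤ τ := idx_le c τ
  have hτ2 : τ < c.t (k + 1) := lt_idx c τ
  have hq := c.mem_side k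
  have hq' := c.mem_side (k + 1)
  rw [hside] at hq hq'
  intro i
  have e1 : cd A i (stateAt c τ).1 = cd A i (c.q k) + (τ - c.t k) * ld A i (c.vel k) := by
    rw [stateAt_fst, lineAt, hadd]
  have e2 : cd A i (c.q (k + 1)) =
      cd A i (c.q k) + (c.t (k + 1) - c.t k) * ld A i (c.vel k) := by
    rw [← lineAt_right, lineAt, hadd]
  have hne := c.side_ne k
  by_cases hi : i = c.side k
  · have h0 : cd A i (c.q k) = 0 := by rw [hi]; exact hq.1
    have hp : 0 < cd A i (c.q (k + 1)) := hq'.2 i (by rw [hi]; exact hne.symm)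
    have hl : 0 < ld A i (c.vel k) := by
      rw [e2, h0, zero_add] at hp
      exact pos_of_mul_pos_right hp ht.le |> fun h => h
    rcases hτ1.eq_or_lt with h | h
    · right
      refine ⟨?_, ?_⟩
      · rw [e1, h0, ← h]; simp
      · rw [stateAt_snd]; exact hl
    · left
      rw [e1, h0, zero_add]
      exact mul_pos (by linarith) hl
  · left
    have hp : 0 < cd A i (c.q k) := hq.2 i hi
    have hp' : 0 ≤ cd A i (c.q (k + 1)) := by
      by_cases hi' : i = c.side (k + 1)
      · rw [hi']; exact hq'.1.ge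
      · exact (hq'.2 i hi').le
    rw [e1]
    rw [e2] at hp'
    rcases le_or_gt 0 (ld A i (c.vel k)) with hl | hl
    · have := mul_nonneg (sub_nonneg.2 hτ1) hl
      linarith
    · have : (c.t (k + 1) - c.t k) * ld A i (c.vel k) < (τ - c.t k) * ld A i (c.vel k) :=
        mul_lt_mul_of_neg_right (by linarith) hl
      linarith

lemma dist_q_le (s : ℝ) (n : ℕ) :
    dist (stateAt c s).1 (c.q (idx c s + 1 + n)) ≤ c.t (idx c s + 1 + n) - s := by
  induction n with
  | zero =>
    simp only [Nat.cast_zero, add_zero]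
    rw [stateAt_fst, ← lineAt_right, dist_lineAt, abs_sub_comm, abs_of_nonneg]
    exact sub_nonneg.2 (lt_idx c s).le
  | succ n ih =>
    have h := c.unit_speed (idx c s + 1 + n)
    rw [show (idx c s + 1 + (n + 1 : ℕ) : ℤ) = idx c s + 1 + n + 1 by push_cast; ring]
    calc dist (stateAt c s).1 (c.q (idx c s + 1 + n + 1))
        ≤ dist (stateAt c s).1 (c.q (idx c s + 1 + n)) +
          dist (c.q (idx c s + 1 + n)) (c.q (idx c s + 1 + n + 1)) := dist_triangle _ _ _
      _ ≤ (c.t (idx c s + 1 + n) - s) + (c.t (idx c s + 1 + n + 1) - c.t (idx c s + 1 + n)) := by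
          rw [h]; exact add_le_add ih le_rfl
      _ = _ := by ring

lemma dist_stateAt_le {s t : ℝ} (hst : s ≤ t) :
    dist (stateAt c s).1 (stateAt c t).1 ≤ t - s := by
  have hk : idx c s ≤ idx c t := by
    by_contra h
    push Not at h
    have h3 : c.t (idx c t + 1) ≤ c.t (idx c s) := c.strictMono_t.monotone (by omega)
    have := idx_le c s
    have := lt_idx c t
    linarith
  rcases hk.eq_or_lt with h | h
  · rw [stateAt_fst, stateAt_fst, ← h, dist_lineAt, abs_sub_comm, abs_of_nonneg (by linarith)]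
  · obtain ⟨n, hn⟩ := Int.le.dest (show idx c s + 1 ≤ idx c t by omega)
    have h1 := dist_q_le c s n
    rw [hn] at h1
    have h2 : dist (c.q (idx c t)) (stateAt c t).1 = t - c.t (idx c t) := by
      rw [stateAt_fst, ← lineAt_left c (idx c t), dist_lineAt, abs_sub_comm,
        abs_of_nonneg (sub_nonneg.2 (idx_le c t))]
    calc _ ≤ dist (stateAt c s).1 (c.q (idx c t)) + dist (c.q (idx c t)) (stateAt c t).1 :=
          dist_triangle _ _ _
      _ ≤ _ := by rw [h2]; linarith

end chain

/-- H3. -/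
theorem state (h1 : StG1) (h2 : StG2) : StState := by
  intro A hA c
  refine ⟨fun τ => adm_stateAt c h1 hA τ, fun s t => ?_, fun s t => ?_⟩
  · rcases le_total s t with h | h
    · rw [abs_sub_comm, abs_of_nonneg (by linarith)]
      exact dist_stateAt_le c h
    · rw [dist_comm, abs_of_nonneg (by linarith)]
      exact dist_stateAt_le c h
  · obtain ⟨w, hl, hw, hv⟩ := exists_word c h1 h2 hA (idx c s) (idx c t)
    refine ⟨w, fun r => ?_, ?_, hl⟩
    · rw [stateAt_fst, stateAt_snd, stateAt_fst, stateAt_snd, ← lineAt_add, ← lineAt_add, hw]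
      congr 2
      ring
    · rw [stateAt_snd, stateAt_snd, hv]

end Crest.Agent.R103
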