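import Crest.Agent.R103.Br1
import Crest.Prelude.Def_Billiard

/-!
# R103, H15 (first part): irrational rotations of the unit circle of the Euclidean plane
-/

open MeasureTheory Filter Topology
open Crest.AnalysisR.Billiard

noncomputable section

namespace Crest.Agent.R103
namespace Const

/-- a measurable function on the line, periodic, and a.e. invariant under a translation
incommensurable to the period is a.e. constant -/
lemma circle_const {H : ℝ → ℂ} (hm : Measurable H) (hper : Function.Periodic H (2 * Real.pi))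
    {θ₀ : ℝ} (hirr : Irrational (θ₀ / (2 * Real.pi))) (hinv : ∀ᵐ θ : ℝ, H (θ + θ₀) = H θ) :
    ∃ c, ∀ᵐ θ : ℝ, H θ = c := by
  have hT0 : Fact (0 < 2 * Real.pi) := ⟨by positivity⟩
  set T := 2 * Real.pi with hT
  let H' : AddCircle T → ℂ := hper.lift
  have hH' : ∀ y : ℝ, H' (y : AddCircle T) = H y := fun y => hper.lift_coe y
  have hmeas : Measurable H' := by
    have : H' = fun x => H (AddCircle.measurableEquivIoc T 0 x : ℝ) := by
      funext x
      rw [← hH']
      congr 1
      exact ((AddCircle.measurableEquivIoc T 0).symm_apply_apply x).symm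
    rw [this]
    exact hm.comp (measurable_subtype_coe.comp (AddCircle.measurableEquivIoc T 0).measurable)
  have herg : Ergodic (((θ₀ : ℝ) : AddCircle T) + ·) (volume : Measure (AddCircle T)) := by
    rw [AddCircle.ergodic_add_left, ← AddCircle.denseRange_zsmul_iff]
    exact AddCircle.denseRange_zsmul_coe_iff.2 hirr
  have hmp := AddCircle.measurePreserving_mk T 0
  have hinv' : H' ∘ (((θ₀ : ℝ) : AddCircle T) + ·) =ᵐ[volume] H' := by
    have hms : MeasurableSet {x : AddCircle T | (H' ∘ (((θ₀ : ℝ) : AddCircle T) + ·)) x = H' x} :=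
      measurableSet_eq_fun (hmeas.comp (measurable_const_add _)) hmeas
    have : ∀ᵐ x ∂(volume.restrict (Set.Ioc 0 (0 + T)) : Measure ℝ).map
        ((↑) : ℝ → AddCircle T), (H' ∘ (((θ₀ : ℝ) : AddCircle T) + ·)) x = H' x := by
      rw [ae_map_iff hmp.measurable.aemeasurable hms]
      filter_upwards [ae_restrict_of_ae hinv] with θ hθ
      simp only [Function.comp_apply]
      rw [← AddCircle.coe_add, hH', hH', add_comm, hθ]
    rw [hmp.map_eq] at this
    exact this
  obtain ⟨c, hc⟩ := herg.ae_eq_const_of_ae_eq_comp_ae hmeas.aestronglyMeasurable hinv'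
  refine ⟨c, ?_⟩
  have hU := iUnion_Ioc_zsmul hT0.out
  rw [← Measure.restrict_univ (μ := (volume : Measure ℝ)), ← hU, ae_restrict_iUnion_iff]
  intro n
  have h1 := (AddCircle.measurePreserving_mk T (n • T)).quasiMeasurePreserving.ae hc
  have h2 : (n + 1) • T = n • T + T := by rw [add_smul, one_smul]
  rw [h2]
  filter_upwards [h1] with θ hθ
  rw [← hH' θ]
  exact hθ

/-- the unit circle -/
abbrev Sph : Type := Metric.sphere (0 : Plane) 1

/-- the arc length measure -/
abbrev σ : Measure Sph := (volume : Measure Plane).toSphere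

lemma norm_sq_plane (v : Plane) : ‖v‖ ^ 2 = v 0 ^ 2 + v 1 ^ 2 := by
  rw [EuclideanSpace.norm_sq_eq]; simp [Fin.sum_univ_two]

/-- rotation by the angle `θ` as a linear isometry -/
def rotI (θ : ℝ) : Plane →ₗᵢ[ℝ] Plane where
  toFun v := !₂[Real.cos θ * v 0 - Real.sin θ * v 1, Real.sin θ * v 0 + Real.cos θ * v 1]
  map_add' u v := by
    ext i; fin_cases i <;> simp <;> ring
  map_smul' c v := by
    ext i; fin_cases i <;> simp <;> ring
  norm_map' v := by
    have h : ‖(!₂[Real.cos θ * v 0 - Real.sin θ * v 1,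
        Real.sin θ * v 0 + Real.cos θ * v 1] : Plane)‖ ^ 2 = ‖v‖ ^ 2 := by
      rw [norm_sq_plane, norm_sq_plane]
      have := Real.cos_sq_add_sin_sq θ
      simp
      nlinarith
    have h2 := congrArg Real.sqrt h
    rwa [Real.sqrt_sq (norm_nonneg _), Real.sqrt_sq (norm_nonneg _)] at h2

lemma rotI_zero_coord (θ : ℝ) (v : Plane) :
    rotI θ v 0 = Real.cos θ * v 0 - Real.sin θ * v 1 := rfl

lemma rotI_one_coord (θ : ℝ) (v : Plane) :
    rotI θ v 1 = Real.sin θ * v 0 + Real.cos θ * v 1 := rfl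

/-- rotation by the angle `θ` as a linear isometry equivalence -/
def rotE (θ : ℝ) : Plane ≃ₗᵢ[ℝ] Plane := (rotI θ).toLinearIsometryEquiv rfl

@[simp] lemma rotE_apply (θ : ℝ) (v : Plane) : rotE θ v = rotI θ v := rfl

lemma rotE_add (a b : ℝ) (v : Plane) : rotE (a + b) v = rotE a (rotE b v) := by
  ext i
  fin_cases i <;>
  simp [rotI_zero_coord, rotI_one_coord, Real.cos_add, Real.sin_add] <;> ring

lemma rotE_two_pi (v : Plane) : rotE (2 * Real.pi) v = v := by
  ext i
  fin_cases i <;> simp [rotI_zero_coord, rotI_one_coord]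

/-- rotation on the unit circle -/
def rS (θ : ℝ) (v : Sph) : Sph := Br.sphMap (rotE θ) v

lemma rS_coe (θ : ℝ) (v : Sph) : ((rS θ v : Sph) : Plane) = rotI θ v := rfl

lemma rS_add (a b : ℝ) (v : Sph) : rS (a + b) v = rS a (rS b v) :=
  Subtype.ext (rotE_add a b v)

lemma rS_two_pi (v : Sph) : rS (2 * Real.pi) v = v := Subtype.ext (rotE_two_pi v)

lemma rS_mp (θ : ℝ) : MeasurePreserving (rS θ) σ σ := Br.sphMap_mp (rotE θ)

lemma rS_continuous : Continuous fun p : ℝ × Sph => rS p.1 p.2 := by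
  refine Continuous.subtype_mk ?_ _
  have h0 : Continuous fun p : ℝ × Sph => ((p.2 : Sph) : Plane) 0 := by fun_prop
  have h1 : Continuous fun p : ℝ × Sph => ((p.2 : Sph) : Plane) 1 := by fun_prop
  show Continuous fun p : ℝ × Sph => (!₂[Real.cos p.1 * (p.2 : Plane) 0
    - Real.sin p.1 * (p.2 : Plane) 1,
    Real.sin p.1 * (p.2 : Plane) 0 + Real.cos p.1 * (p.2 : Plane) 1] : Plane)
  refine (PiLp.continuous_toLp 2 _).comp (continuous_pi fun i => ?_)
  fin_cases i
  · simp only; fun_prop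
  · simp only; fun_prop

lemma rS_measurable : Measurable fun p : ℝ × Sph => rS p.1 p.2 := rS_continuous.measurable

/-- the base point -/
def v₀ : Sph := ⟨!₂[1, 0], by simp [EuclideanSpace.norm_eq]⟩

lemma rS_transitive (v : Sph) : ∃ a : ℝ, rS a v₀ = v := by
  have hv : ‖((v : Plane) 0 : ℂ) + ((v : Plane) 1 : ℂ) * Complex.I‖ = 1 := by
    have h1 : ‖(v : Plane)‖ = 1 := by simp
    have h2 := norm_sq_plane (v : Plane)
    rw [h1] at h2
    rw [Complex.norm_add_mul_I, ← h2]; simp
  obtain ⟨θ, hθ⟩ := (Complex.norm_eq_one_iff _).1 hv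
  refine ⟨θ, Subtype.ext ?_⟩
  rw [Complex.exp_mul_I] at hθ
  have hre := congrArg Complex.re hθ
  have him := congrArg Complex.im hθ
  simp [Complex.cos_ofReal_re, Complex.sin_ofReal_re] at hre him
  ext i
  fin_cases i
  · simp [rS_coe, rotI_zero_coord, v₀, hre]
  · simp [rS_coe, rotI_one_coord, v₀, him]

lemma σ_neZero : (ae σ).NeBot := by
  rw [ae_neBot]
  exact Measure.toSphere_ne_zero _

/-- transfer of a.e. statements between the unit circle and the line -/
lemma ae_iff_rS {P : Sph → Prop} (hP : MeasurableSet {v | P v}) :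
    (∀ᵐ v ∂σ, P v) ↔ ∀ᵐ θ : ℝ, P (rS θ v₀) := by
  have hE : MeasurableSet {p : ℝ × Sph | P (rS p.1 p.2)} := rS_measurable hP
  have h1 := Measure.ae_ae_comm (μ := (volume : Measure ℝ)) (ν := σ)
    (p := fun θ v => P (rS θ v)) hE
  have h2 : (∀ᵐ θ : ℝ, ∀ᵐ v ∂σ, P (rS θ v)) ↔ ∀ᵐ v ∂σ, P v := by
    have : ∀ θ, (∀ᵐ v ∂σ, P (rS θ v)) ↔ ∀ᵐ v ∂σ, P v := by
      intro θ
      have := ae_map_iff (μ := σ) (f := rS θ) (rS_mp θ).measurable.aemeasurable hP
      rw [(rS_mp θ).map_eq] at this
      exact this.symm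
    simp_rw [this]
    exact Filter.eventually_const
  have h3 : (∀ᵐ v ∂σ, ∀ᵐ θ : ℝ, P (rS θ v)) ↔ ∀ᵐ θ : ℝ, P (rS θ v₀) := by
    have : ∀ v, (∀ᵐ θ : ℝ, P (rS θ v)) ↔ ∀ᵐ θ : ℝ, P (rS θ v₀) := by
      intro v
      obtain ⟨a, rfl⟩ := rS_transitive v
      have hmp := measurePreserving_add_right (volume : Measure ℝ) a
      have hms : MeasurableSet {θ : ℝ | P (rS θ v₀)} :=
        (rS_measurable.comp (measurable_id.prodMk measurable_const)) hP
      have := ae_map_iff (μ := (volume : Measure ℝ)) (f := fun x => x + a)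
        hmp.measurable.aemeasurable hms
      rw [hmp.map_eq] at this
      rw [this]
      simp_rw [rS_add]
    simp_rw [this]
    have := σ_neZero
    exact Filter.eventually_const
  rw [← h2, h1, h3]

/-- a measurable function on the circle invariant under an irrational rotation is constant -/
lemma sph_const {F : Sph → ℂ} (hF : Measurable F) {θ₀ : ℝ}
    (hirr : Irrational (θ₀ / (2 * Real.pi))) (hinv : ∀ᵐ v ∂σ, F (rS θ₀ v) = F v) :
    ∃ c, ∀ᵐ v ∂σ, F v = c := by
  have hrm : Measurable fun θ : ℝ => rS θ v₀ :=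
    Measurable.comp (g := fun p : ℝ × Sph => rS p.1 p.2) (f := fun θ : ℝ => (θ, v₀))
      rS_measurable (measurable_id.prodMk measurable_const)
  have hms : MeasurableSet {v : Sph | F (rS θ₀ v) = F v} :=
    measurableSet_eq_fun (hF.comp (rS_mp θ₀).measurable) hF
  have h1 : ∀ᵐ θ : ℝ, F (rS (θ + θ₀) v₀) = F (rS θ v₀) := by
    have := (ae_iff_rS hms).1 hinv
    filter_upwards [this] with θ hθ
    rw [add_comm, rS_add, hθ]
  obtain ⟨c, hc⟩ := circle_const (H := fun θ => F (rS θ v₀)) (hF.comp hrm)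
    (fun θ => by simp only; rw [rS_add, rS_two_pi]) hirr h1
  exact ⟨c, (ae_iff_rS (P := fun v => F v = c) (hF (measurableSet_singleton c))).2 hc⟩

/-! ### mirrors -/

lemma inner_plane (u v : Plane) : inner ℝ u v = u 0 * v 0 + u 1 * v 1 := by
  simp [PiLp.inner_apply, Fin.sum_univ_two, mul_comm]

lemma mirror_eq_reflection (e v : Plane) :
    mirror e v = (Submodule.span ℝ {e}).reflection v := by
  rw [Submodule.reflection_singleton_apply, mirror]
  congr 1
  rw [real_inner_self_eq_norm_sq, real_inner_comm, two_smul, ← add_smul]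
  congr 1
  simp
  ring

/-- mirror on the unit circle -/
def mS (e : Plane) (v : Sph) : Sph := Br.sphMap (Submodule.span ℝ {e}).reflection v

lemma mS_coe (e : Plane) (v : Sph) : ((mS e v : Sph) : Plane) = mirror e v := by
  rw [mirror_eq_reflection]; rfl

lemma mS_mp (e : Plane) : MeasurePreserving (mS e) σ σ := Br.sphMap_mp _

/-- the composition of two mirrors is a rotation by twice the angle -/
lemma mirror_mirror {u w : Plane} (hu : u ≠ 0) (hw : w ≠ 0) :
    ∃ θ₀ : ℝ, (θ₀ = 2 * InnerProductGeometry.angle u w ∨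
      θ₀ = -(2 * InnerProductGeometry.angle u w)) ∧
      ∀ v : Plane, mirror u (mirror w v) = rotI θ₀ v := by
  set E : ℝ := u 0 ^ 2 + u 1 ^ 2 with hE
  set W : ℝ := w 0 ^ 2 + w 1 ^ 2 with hW
  set p : ℝ := u 0 * w 0 + u 1 * w 1 with hp
  set q : ℝ := w 0 * u 1 - w 1 * u 0 with hq
  have hEn : ‖u‖ ^ 2 = E := norm_sq_plane u
  have hWn : ‖w‖ ^ 2 = W := norm_sq_plane w
  have hu' : 0 < ‖u‖ := norm_pos_iff.2 hu
  have hw' : 0 < ‖w‖ := norm_pos_iff.2 hw
  have hE0 : 0 < E := by rw [← hEn]; positivity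
  have hW0 : 0 < W := by rw [← hWn]; positivity
  have hlag : p ^ 2 + q ^ 2 = E * W := by rw [hp, hq, hE, hW]; ring
  set a := InnerProductGeometry.angle u w with ha
  have hcos : Real.cos a = p / (‖u‖ * ‖w‖) := by
    rw [ha, InnerProductGeometry.cos_angle, inner_plane]
  have hcos2 : Real.cos a ^ 2 = p ^ 2 / (E * W) := by
    rw [hcos, div_pow, mul_pow, hEn, hWn]
  have hsin0 : 0 ≤ Real.sin a := InnerProductGeometry.sin_angle_nonneg _ _
  have hsin : Real.sin a = |q| / (‖u‖ * ‖w‖) := by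
    have h1 : Real.sin a ^ 2 = (|q| / (‖u‖ * ‖w‖)) ^ 2 := by
      rw [div_pow, mul_pow, hEn, hWn, sq_abs, Real.sin_sq, hcos2]
      field_simp
      linarith
    exact (pow_left_inj₀ hsin0 (by positivity) two_ne_zero).1 h1
  have hc2 : Real.cos (2 * a) = (p ^ 2 - q ^ 2) / (E * W) := by
    rw [Real.cos_two_mul, hcos2]
    field_simp
    linarith
  have hs2 : Real.sin (2 * a) = 2 * p * |q| / (E * W) := by
    rw [Real.sin_two_mul, hsin, hcos, ← hEn, ← hWn]
    field_simp
  have key : ∀ v : Plane, mirror u (mirror w v)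
      = !₂[(p ^ 2 - q ^ 2) / (E * W) * v 0 - 2 * p * q / (E * W) * v 1,
        2 * p * q / (E * W) * v 0 + (p ^ 2 - q ^ 2) / (E * W) * v 1] := by
    intro v
    have hE' : u 0 ^ 2 + u 1 ^ 2 ≠ 0 := hE0.ne'
    have hW' : w 0 ^ 2 + w 1 ^ 2 ≠ 0 := hW0.ne'
    have hE'' : u 0 * u 0 + u 1 * u 1 ≠ 0 := by
      rw [← pow_two, ← pow_two]; exact hE'
    have hW'' : w 0 * w 0 + w 1 * w 1 ≠ 0 := by
      rw [← pow_two, ← pow_two]; exact hW'
    ext i
    fin_cases i
    · simp only [mirror, inner_plane, hp, hq, hE, hW]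
      simp
      field_simp
      ring
    · simp only [mirror, inner_plane, hp, hq, hE, hW]
      simp
      field_simp
      ring
  rcases le_total 0 q with h | h
  · refine ⟨2 * a, Or.inl rfl, fun v => ?_⟩
    rw [key]
    rw [abs_of_nonneg h] at hs2
    ext i
    fin_cases i
    · simp [rotI_zero_coord, hc2, hs2]
    · simp [rotI_one_coord, hc2, hs2]
  · refine ⟨-(2 * a), Or.inr rfl, fun v => ?_⟩
    rw [key]
    rw [abs_of_nonpos h] at hs2
    ext i
    fin_cases i
    · simp [rotI_zero_coord, hc2, hs2, Real.cos_neg, Real.sin_neg]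
      ring
    · simp [rotI_one_coord, hc2, hs2, Real.cos_neg, Real.sin_neg]
      ring

end Const
end Crest.Agent.R103
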