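import Crest.Agent.R103.Final
import Crest.Agent.R103.Const

set_option autoImplicit false

/-!
# Row 103, H15 in the generic form `StConstG` (proof of helper876, adapted to any `T` with `LocT`)
-/

namespace Crest.Agent.R103

open MeasureTheory Metric Set Module Crest.AnalysisR.Billiard Crest.Agent.R103.ThC

/-- H15, generic form: any `T` with the local description -/
theorem constG (h1 : StG1) (h2 : StG2) : StConstG := by
  intro A hA hirr T hT _ f hf hinv
  obtain ⟨-, hsum, -, hlin, hvert, -, -, hcont, -, hint, -⟩ := h1 A hA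
  set D : Set Plane := interior (convexHull ℝ (Set.range A)) with hD
  have hDmem : ∀ x, x ∈ D ↔ ∀ i, 0 < cd A i x := by
    intro x; rw [hint]; rfl
  have hDopen : IsOpen D := isOpen_interior
  have hμ : μM A = ((volume.restrict D).prod sg1).prod Measure.count := rfl
  have hpos : ∀ᵐ z ∂(μM A), ∀ i, 0 < cd A i z.1.1 := by
    have e1 : ∀ᵐ x ∂(volume.restrict D : Measure Plane), ∀ i, 0 < cd A i x := by
      filter_upwards [ae_restrict_mem hDopen.measurableSet] with x hx
      exact (hDmem x).1 hx
    have e2 : ∀ᵐ p ∂((volume.restrict D : Measure Plane).prod sg1), ∀ i, 0 < cd A i p.1 :=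
      Measure.quasiMeasurePreserving_fst.ae e1
    rw [hμ]
    exact Measure.quasiMeasurePreserving_fst.ae e2
  -- local crossing data
  have hloc : ∀ i : Fin 3, ∃ U ⊆ D, IsOpen U ∧ U.Nonempty ∧
      ∀ (z : Phase × Bool) (ζ : ℂ), z.1.1 ∈ U → refl A i (z.1.1 + frm z ζ) ∈ U →
        (∀ j, 0 < cd A j z.1.1) ∧ cd A i (z.1.1 + frm z ζ) < 0 ∧
        (∀ j, j ≠ i → ∀ y, dist z.1.1 y ≤ ‖ζ‖ → 0 < cd A j y ∧ 0 < cd A j (refl A i y)) := by
    intro i
    obtain ⟨hrr, -, hdist, -, -, -, hcr, -, hfix, -, hrc, -, -⟩ := h2 A hA i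
    -- the midpoint of side `i`
    set m : Plane := A (i + 1) + (1 / 2 : ℝ) • (A (i + 2) - A (i + 1)) with hm
    have hldv : ∀ j k l, ld A j (A k - A l) = cd A j (A k) - cd A j (A l) := by
      intro j k l
      have := hlin j (A l) 1 (A k - A l)
      rw [one_smul, add_sub_cancel, one_mul] at this
      linarith
    have hcdm : ∀ j, cd A j m = (1 / 2 : ℝ) * cd A j (A (i + 1)) + (1 / 2) * cd A j (A (i + 2)) := by
      intro j
      rw [hm, hlin, hldv]; ring
    have hi1 : i + 1 ≠ i := by fin_cases i <;> simp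
    have hi2 : i + 2 ≠ i := by fin_cases i <;> simp
    have h12 : i + 1 ≠ i + 2 := by fin_cases i <;> simp
    have hcases : ∀ j : Fin 3, j ≠ i → j = i + 1 ∨ j = i + 2 := by
      intro j hj
      fin_cases i <;> fin_cases j <;> simp_all
    have hcdmi : cd A i m = 0 := by
      rw [hcdm, hvert, hvert, if_neg hi1.symm, if_neg hi2.symm]; ring
    have hcdmj : ∀ j, j ≠ i → cd A j m = 1 / 2 := by
      intro j hj
      rcases hcases j hj with rfl | rfl
      · rw [hcdm, hvert, hvert, if_pos rfl, if_neg h12]; ring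
      · rw [hcdm, hvert, hvert, if_pos rfl, if_neg h12.symm]; ring
    have hreflm : refl A i m = m := hfix m hcdmi
    -- a small ball
    have hopen : IsOpen {y : Plane | ∀ j, j ≠ i → 0 < cd A j y ∧ 0 < cd A j (refl A i y)} := by
      have e : {y : Plane | ∀ j, j ≠ i → 0 < cd A j y ∧ 0 < cd A j (refl A i y)} =
          ⋂ j : Fin 3, {y | j ≠ i → 0 < cd A j y ∧ 0 < cd A j (refl A i y)} := by
        ext y; simp
      rw [e]
      refine isOpen_iInter_of_finite fun j => ?_
      by_cases hj : j = i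
      · simp [hj]
      · have e2 : {y | j ≠ i → 0 < cd A j y ∧ 0 < cd A j (refl A i y)} =
            {y | 0 < cd A j y} ∩ {y | 0 < cd A j (refl A i y)} := by
          ext y; simp [hj]
        rw [e2]
        exact (isOpen_lt continuous_const (hcont j)).inter
          (isOpen_lt continuous_const ((hcont j).comp hrc))
    obtain ⟨R, hR, hball⟩ := Metric.isOpen_iff.1 hopen m (by
      intro j hj
      rw [hreflm, hcdmj j hj]
      norm_num)
    set r := R / 3 with hr
    have hr0 : 0 < r := by positivity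
    refine ⟨ball m r ∩ D, Set.inter_subset_right, isOpen_ball.inter hDopen, ?_, ?_⟩
    · -- a point of the triangle near the midpoint
      have hc : Continuous (fun s : ℝ => m + s • (A i - m)) := by fun_prop
      have h0 : (fun s : ℝ => m + s • (A i - m)) 0 = m := by simp
      have hnhds : ∀ᶠ s : ℝ in nhds 0, (m + s • (A i - m)) ∈ ball m r := by
        have := hc.continuousAt (x := 0)
        apply this
        simp only [zero_smul, add_zero]
        exact isOpen_ball.mem_nhds (mem_ball_self hr0)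
      have hnhds2 : ∀ᶠ s : ℝ in nhdsWithin 0 (Set.Ioi 0), (m + s • (A i - m)) ∈ ball m r ∧
          s ∈ Set.Ioo (0 : ℝ) 1 := by
        have hn1 : ∀ᶠ s : ℝ in nhdsWithin 0 (Set.Ioi 0), (m + s • (A i - m)) ∈ ball m r :=
          nhdsWithin_le_nhds hnhds
        have hn2 : ∀ᶠ s : ℝ in nhdsWithin 0 (Set.Ioi 0), s ∈ Set.Ioo (0 : ℝ) 1 :=
          Ioo_mem_nhdsGT one_pos
        exact hn1.and hn2
      obtain ⟨s, hs1, hs2⟩ := hnhds2.exists
      refine ⟨_, hs1, (hDmem _).2 fun j => ?_⟩
      have hlj : ld A j (A i - m) = cd A j (A i) - cd A j m := by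
        have := hlin j m 1 (A i - m)
        rw [one_smul, add_sub_cancel, one_mul] at this
        linarith
      rw [hlin, hlj, hvert]
      by_cases hj : j = i
      · subst hj
        rw [if_pos rfl, hcdmi]
        have := hs2.1
        linarith
      · rw [if_neg hj, hcdmj j hj]
        have := hs2.2
        nlinarith
    · rintro z ζ ⟨hz1, hz2⟩ ⟨hw1, hw2⟩
      have hnear : dist (z.1.1 + frm z ζ) m < r := by
        have h3 := hdist (z.1.1 + frm z ζ) m
        rw [hreflm] at h3
        rw [← h3]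
        exact hw1
      have hζ : ‖ζ‖ < 2 * r := by
        rw [← norm_frm z ζ]
        have h4 : ‖frm z ζ‖ = dist (z.1.1 + frm z ζ) z.1.1 := by
          rw [dist_eq_norm, add_sub_cancel_left]
        rw [h4]
        have h5 := dist_triangle_right (z.1.1 + frm z ζ) z.1.1 m
        have h6 : dist z.1.1 m < r := hz1
        linarith
      refine ⟨(hDmem _).1 hz2, ?_, ?_⟩
      · have h3 := (hDmem _).1 hw2 i
        rw [hcr] at h3
        linarith
      · intro j hj y hy
        have h7 : y ∈ ball m R := by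
          have h8 := dist_triangle_left y m z.1.1
          have h6 : dist z.1.1 m < r := hz1
          rw [mem_ball]
          have h9 : R = 3 * r := by rw [hr]; ring
          linarith
        exact hball h7 j hj
  -- finite positive volume
  have hDne : volume D ≠ 0 := by
    obtain ⟨U, hUD, hUo, hUne, -⟩ := hloc 0
    exact (hDopen.measure_pos volume (hUne.mono hUD)).ne'
  have hDt : volume D ≠ ⊤ := by
    have hcomp : IsCompact (convexHull ℝ (Set.range A)) :=
      (Set.finite_range A).isCompact_convexHull ℝ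
    exact (measure_mono interior_subset |>.trans_lt hcomp.measure_lt_top).ne
  have hrefl : ∀ i, MeasurePreserving (refl A i) volume volume := fun i =>
    (h2 A hA i).2.2.2.2.2.2.2.2.2.2.2.2
  have H1 : ∀ ζ, ∀ᵐ z ∂(μM A),
      z.1.1 + frm z ζ ∈ D → f ((z.1.1 + frm z ζ, z.1.2), z.2) = f z := by
    intro ζ
    filter_upwards [hpos, (hT ζ).1, hinv ζ] with z hz1 hz2 hz3 hz4
    rw [hz2 hz1 ((hDmem _).1 hz4)] at hz3
    exact hz3
  have H2 : ∀ i : Fin 3, ∃ U ⊆ D, MeasurableSet U ∧ volume U ≠ 0 ∧
      ∀ ζ, ∀ᵐ z ∂(μM A), z.1.1 ∈ U →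
        refl A i (z.1.1 + frm z ζ) ∈ U →
          f ((refl A i (z.1.1 + frm z ζ),
            sphMap (mirE (sideVec A i) (sideVec_ne_zero hA i)) z.1.2), !z.2) = f z := by
    intro i
    obtain ⟨U, hUD, hUo, hUne, hU⟩ := hloc i
    refine ⟨U, hUD, hUo.measurableSet, (hUo.measure_pos volume hUne).ne', fun ζ => ?_⟩
    filter_upwards [(hT ζ).2.1 i, hinv ζ] with z hz2 hz3 hz4 hz5
    obtain ⟨ha, hb, hc⟩ := hU z ζ hz4 hz5
    obtain ⟨e1, e2, e3⟩ := hz2 ha hb hc
    have e : T ζ z = ((refl A i (z.1.1 + frm z ζ),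
        sphMap (mirE (sideVec A i) (sideVec_ne_zero hA i)) z.1.2), !z.2) := by
      refine Prod.ext (Prod.ext e1 (Subtype.ext ?_)) e3
      rw [e2]
      exact (mirE_apply _ _ _).symm
    rw [← e]
    exact hz3
  exact core hA hirr hDopen.measurableSet hDne hDt hf hrefl H1 H2


/-- the special case of the concrete flow -/
theorem const_of_constG (h : StConstG) (hTr : StTr)
    (hmp : ∀ A : Fin 3 → Plane, AffineIndependent ℝ A → ∀ ζ,
      MeasurePreserving (tr (flowM A) rotF ζ) (μM A) (μM A)) : StConst :=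
  fun A hA hirr f hf hinv => h A hA hirr _ (hTr A hA) (hmp A hA) f hf hinv

end Crest.Agent.R103
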