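import Crest.Agent.R103.Iface

/-!
# R103, A2 (second implementation): strong continuity of the representations
-/

open MeasureTheory Filter Topology
open scoped InnerProductSpace BoundedContinuousFunction

noncomputable section

namespace Crest.Agent.R103

namespace ContB

variable {Ω : Type} [TopologicalSpace Ω] [MeasurableSpace Ω] {μ : Measure Ω}

lemma norm_sq_eq (f : Lp ℂ 2 μ) : ‖f‖ ^ 2 = ∫ z, ‖f z‖ ^ 2 ∂μ := by
  have h := inner_self_eq_norm_sq_to_K (𝕜 := ℂ) f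
  rw [L2.inner_def] at h
  have h2 : (∫ z, ⟪f z, f z⟫_ℂ ∂μ) = ((∫ z, ‖f z‖ ^ 2 ∂μ : ℝ) : ℂ) := by
    rw [← integral_complex_ofReal]
    refine integral_congr_ae (Eventually.of_forall fun z => ?_)
    simp only
    rw [inner_self_eq_norm_sq_to_K]
    push_cast
    rfl
  rw [h2] at h
  have h3 : ((∫ z, ‖f z‖ ^ 2 ∂μ : ℝ) : ℂ) = ((‖f‖ ^ 2 : ℝ) : ℂ) := by
    rw [h]; push_cast; rfl
  exact (Complex.ofReal_injective h3).symm

theorem tendsto_of_ae [BorelSpace Ω]
    [SecondCountableTopology Ω] [TopologicalSpace.PseudoMetrizableSpace Ω] [IsFiniteMeasure μ]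
    {ι : Type} {l : Filter ι} [l.IsCountablyGenerated] (g : ι → Ω → Ω)
    (hg : ∀ i, MeasurePreserving (g i) μ μ)
    (h : ∀ᵐ z ∂μ, Tendsto (fun i => g i z) l (𝓝 z)) (f : Lp ℂ 2 μ) :
    Tendsto (fun i => Lp.compMeasurePreservingₗᵢ ℂ (g i) (hg i) f) l (𝓝 f) := by
  have hd : Dense (Lp.boundedContinuousFunction ℂ 2 μ : Set (Lp ℂ 2 μ)) :=
    Lp.boundedContinuousFunction_dense ℂ μ (by simp)
  rw [Metric.tendsto_nhds]
  intro ε hε
  obtain ⟨f₁, hf₁, hf₁d⟩ := Metric.mem_closure_iff.1 (hd f) (ε / 3) (by positivity)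
  obtain ⟨F, hF⟩ := Lp.mem_boundedContinuousFunction_iff.1 hf₁
  have hFae : (f₁ : Ω → ℂ) =ᵐ[μ] F := by
    rw [← hF]; exact AEEqFun.coeFn_mk _ _
  have key : Tendsto (fun i => ‖Lp.compMeasurePreservingₗᵢ ℂ (g i) (hg i) f₁ - f₁‖ ^ 2) l (𝓝 0) := by
    have e : ∀ i, ‖Lp.compMeasurePreservingₗᵢ ℂ (g i) (hg i) f₁ - f₁‖ ^ 2
        = ∫ z, ‖F (g i z) - F z‖ ^ 2 ∂μ := by
      intro i
      rw [norm_sq_eq]
      refine integral_congr_ae ?_
      have h1 : (Lp.compMeasurePreservingₗᵢ ℂ (g i) (hg i) f₁ : Ω → ℂ)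
          =ᵐ[μ] fun z => f₁ (g i z) := Lp.coeFn_compMeasurePreserving f₁ (hg i)
      filter_upwards [Lp.coeFn_sub (Lp.compMeasurePreservingₗᵢ ℂ (g i) (hg i) f₁) f₁,
        h1, hFae, (hg i).quasiMeasurePreserving.ae hFae] with z a b c d
      rw [a, Pi.sub_apply, b, c, d]
    simp_rw [e]
    have hlim : (0 : ℝ) = ∫ _z : Ω, (0 : ℝ) ∂μ := by simp
    rw [hlim]
    refine tendsto_integral_filter_of_dominated_convergence (fun _ => (‖F‖ + ‖F‖) ^ 2) ?_ ?_ ?_ ?_
    · refine Eventually.of_forall fun i => ?_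
      have m1 : AEStronglyMeasurable (fun z => F (g i z)) μ :=
        (F.continuous.aestronglyMeasurable).comp_measurePreserving (hg i)
      exact ((m1.sub F.continuous.aestronglyMeasurable).norm.pow 2)
    · refine Eventually.of_forall fun i => Eventually.of_forall fun z => ?_
      rw [Real.norm_eq_abs, abs_of_nonneg (by positivity)]
      gcongr
      exact (norm_sub_le _ _).trans (add_le_add (F.norm_coe_le_norm _) (F.norm_coe_le_norm _))
    · exact integrable_const _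
    · filter_upwards [h] with z hz
      have h2 : Tendsto (fun i => F (g i z)) l (𝓝 (F z)) := (F.continuous.tendsto z).comp hz
      have h3 : Tendsto (fun i => ‖F (g i z) - F z‖ ^ 2) l (𝓝 (‖F z - F z‖ ^ 2)) :=
        ((h2.sub tendsto_const_nhds).norm).pow 2
      simpa using h3
  have key2 : Tendsto (fun i => ‖Lp.compMeasurePreservingₗᵢ ℂ (g i) (hg i) f₁ - f₁‖) l (𝓝 0) := by
    have := key.sqrt
    simpa [Real.sqrt_sq (norm_nonneg _)] using this
  have key3 := (Metric.tendsto_nhds.1 key2) (ε / 3) (by positivity)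
  filter_upwards [key3] with i hi
  rw [Real.dist_eq, sub_zero, abs_of_nonneg (norm_nonneg _)] at hi
  have h5 : dist (Lp.compMeasurePreservingₗᵢ ℂ (g i) (hg i) f)
      (Lp.compMeasurePreservingₗᵢ ℂ (g i) (hg i) f₁) = dist f f₁ :=
    (Lp.compMeasurePreservingₗᵢ ℂ (g i) (hg i)).dist_map f f₁
  calc dist (Lp.compMeasurePreservingₗᵢ ℂ (g i) (hg i) f) f
      ≤ dist (Lp.compMeasurePreservingₗᵢ ℂ (g i) (hg i) f)
          (Lp.compMeasurePreservingₗᵢ ℂ (g i) (hg i) f₁)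
        + dist (Lp.compMeasurePreservingₗᵢ ℂ (g i) (hg i) f₁) f₁ + dist f₁ f :=
        dist_triangle4 _ _ _ _
    _ < ε / 3 + ε / 3 + ε / 3 := by
        rw [h5, dist_comm f₁ f]
        have : dist (Lp.compMeasurePreservingₗᵢ ℂ (g i) (hg i) f₁) f₁ < ε / 3 := by
          rw [dist_eq_norm]; exact hi
        gcongr
    _ = ε := by ring

end ContB

open PlaneSys in
theorem contB : StCont := by
  intro Ω _ _ _ _ _ μ _ S
  have hU0 : ∀ f : Lp ℂ 2 μ, Tendsto (fun ζ : ℂ => S.U ζ f) (𝓝 0) (𝓝 f) := fun f =>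
    ContB.tendsto_of_ae (fun ζ => S.T ζ) (fun ζ => S.T_mp ζ) S.cont f
  -- rotations
  have hrotadd : ∀ a b f, S.rot (a + b) f = S.rot a (S.rot b f) := by
    intro a b f
    apply Lp.ext
    filter_upwards [S.rot_coe (a + b) f, S.rot_coe a (S.rot b f),
      (S.R_mp a).quasiMeasurePreserving.ae (S.rot_coe b f)] with z h1 h2 h3
    rw [h1, h2, h3, add_comm, S.R_add]
  have hrot0 : ∀ f : Lp ℂ 2 μ, Tendsto (fun α : ℝ => S.rot α f) (𝓝 0) (𝓝 f) := fun f => by
    refine ContB.tendsto_of_ae (fun α => S.R α) (fun α => S.R_mp α) ?_ f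
    refine Eventually.of_forall fun z => ?_
    have := (S.R_cont z).tendsto 0
    simpa only [S.R_zero] using this
  have hφadd : ∀ a b f, S.Uφ (a + b) f = S.Uφ a (S.Uφ b f) := by
    intro a b f
    apply Lp.ext
    filter_upwards [S.Uφ_coe (a + b) f, S.Uφ_coe a (S.Uφ b f),
      (S.φ_mp a).quasiMeasurePreserving.ae (S.Uφ_coe b f)] with z h1 h2 h3
    rw [h1, h2, h3, add_comm, S.φ_add]
  have hφU : ∀ (t : ℝ) (f : Lp ℂ 2 μ), S.Uφ t f = S.U (t : ℂ) f := by
    intro t f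
    apply Lp.ext
    filter_upwards [S.Uφ_coe t f, S.U_coe (t : ℂ) f, S.T_ofReal t] with z h1 h2 h3
    rw [h1, h2, h3]
  have hφ0 : ∀ f : Lp ℂ 2 μ, Tendsto (fun t : ℝ => S.Uφ t f) (𝓝 0) (𝓝 f) := fun f => by
    have h1 : Tendsto (fun t : ℝ => (t : ℂ)) (𝓝 0) (𝓝 0) := by
      have := Complex.continuous_ofReal.tendsto 0
      simpa using this
    have := (hU0 f).comp h1
    refine this.congr fun t => ?_
    simp only [Function.comp]
    rw [hφU]
  -- one parameter groups continuous at zero are continuous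
  have grp : ∀ (W : ℝ → Lp ℂ 2 μ →ₗᵢ[ℂ] Lp ℂ 2 μ),
      (∀ a b f, W (a + b) f = W a (W b f)) →
      (∀ f, Tendsto (fun t => W t f) (𝓝 0) (𝓝 f)) → ∀ f, Continuous fun t => W t f := by
    intro W hadd h0 f
    rw [continuous_iff_continuousAt]
    intro a
    have h1 : Tendsto (fun t : ℝ => t - a) (𝓝 a) (𝓝 0) := by
      have : Continuous fun t : ℝ => t - a := by fun_prop
      simpa using this.tendsto a
    have h2 := (h0 (W a f)).comp h1
    have h3 : (fun t => W t f) = (fun t => W t (W a f)) ∘ fun t => t - a := by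
      funext t
      simp only [Function.comp]
      rw [← hadd, sub_add_cancel]
    rw [ContinuousAt, h3]
    exact h2
  have hrotc := grp S.rot hrotadd hrot0
  refine ⟨hU0, hrotc, grp S.Uφ hφadd hφ0, ?_⟩
  intro t f ht
  have e : (fun α : ℝ => S.U (t * Complex.exp (α * Complex.I)) f)
      = fun α => S.rot α (S.Uφ t (S.rot (-α) f)) := by
    funext α
    apply Lp.ext
    have hmp : MeasurePreserving (fun z => S.φ t (S.R α z)) μ μ := (S.φ_mp t).comp (S.R_mp α)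
    filter_upwards [S.U_coe (t * Complex.exp (α * Complex.I)) f,
      S.rot_coe α (S.Uφ t (S.rot (-α) f)),
      (S.R_mp α).quasiMeasurePreserving.ae (S.Uφ_coe t (S.rot (-α) f)),
      hmp.quasiMeasurePreserving.ae (S.rot_coe (-α) f)] with z h1 h2 h3 h4
    rw [h1, h2, h3, h4, S.T_polar ht]
  rw [e]
  rw [continuous_iff_continuousAt]
  intro a
  have hg : Tendsto (fun α : ℝ => S.Uφ t (S.rot (-α) f)) (𝓝 a) (𝓝 (S.Uφ t (S.rot (-a) f))) :=
    ((S.Uφ t).continuous.comp ((hrotc f).comp continuous_neg)).tendsto a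
  have hr : Tendsto (fun α : ℝ => S.rot α (S.Uφ t (S.rot (-a) f))) (𝓝 a)
      (𝓝 (S.rot a (S.Uφ t (S.rot (-a) f)))) := (hrotc _).tendsto a
  rw [ContinuousAt, tendsto_iff_norm_sub_tendsto_zero]
  have hg' := tendsto_iff_norm_sub_tendsto_zero.1 hg
  have hr' := tendsto_iff_norm_sub_tendsto_zero.1 hr
  refine squeeze_zero (fun _ => norm_nonneg _) (fun α => ?_) (by simpa using hg'.add hr')
  calc ‖S.rot α (S.Uφ t (S.rot (-α) f)) - S.rot a (S.Uφ t (S.rot (-a) f))‖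
      = ‖(S.rot α (S.Uφ t (S.rot (-α) f)) - S.rot α (S.Uφ t (S.rot (-a) f)))
        + (S.rot α (S.Uφ t (S.rot (-a) f)) - S.rot a (S.Uφ t (S.rot (-a) f)))‖ := by
        congr 1; abel
    _ ≤ ‖S.rot α (S.Uφ t (S.rot (-α) f)) - S.rot α (S.Uφ t (S.rot (-a) f))‖
        + ‖S.rot α (S.Uφ t (S.rot (-a) f)) - S.rot a (S.Uφ t (S.rot (-a) f))‖ :=
        norm_add_le _ _
    _ = ‖S.Uφ t (S.rot (-α) f) - S.Uφ t (S.rot (-a) f)‖
        + ‖S.rot α (S.Uφ t (S.rot (-a) f)) - S.rot a (S.Uφ t (S.rot (-a) f))‖ := by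
        rw [← map_sub, (S.rot α).norm_map]

end Crest.Agent.R103
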