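import Mathlib

/-!
# R103: abstract "plane systems"

A finite measure space `Ω` with a measure preserving flow `φ`, an action `R` of the circle
("rotation of the velocity", parametrised by angles in `ℝ`, `2π`-periodic) and a "distance to the
singular set" `ρ`, such that away from the singular set the maps `T ζ` (move by the displacement
`ζ ∈ ℂ` measured in the moving frame) form a local action of the additive group `ℂ`.
Instances: the frame bundle over the doubled triangle, and products of two such systems.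
-/

open MeasureTheory Filter Topology

noncomputable section

namespace Crest.Agent.R103

/-- The translation by `ζ` in the moving frame: rotate the velocity to the direction of `ζ`,
flow for the time `‖ζ‖`, rotate back. -/
def tr {Ω : Type*} (φ : ℝ → Ω → Ω) (R : ℝ → Ω → Ω) (ζ : ℂ) (z : Ω) : Ω :=
  R (-ζ.arg) (φ ‖ζ‖ (R ζ.arg z))

/-- Abstract plane system. -/
structure PlaneSys (Ω : Type*) [TopologicalSpace Ω] [MeasurableSpace Ω] (μ : Measure Ω) where
  /-- the flow (an honest action of `ℝ`, everywhere defined) -/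
  φ : ℝ → Ω → Ω
  /-- the rotations (an honest action of the circle `ℝ / 2πℤ`) -/
  R : ℝ → Ω → Ω
  /-- distance to the singular set -/
  ρ : Ω → ℝ
  /-- geometric constant: in `{C₀ ε ≤ ρ}` displacements of length `≤ ε` commute -/
  C₀ : ℝ
  /-- volume constant -/
  Cv : ℝ
  one_le_C₀ : 1 ≤ C₀
  Cv_nonneg : 0 ≤ Cv
  φ_meas : Measurable (fun p : ℝ × Ω => φ p.1 p.2)
  φ_zero : ∀ z, φ 0 z = z
  φ_add : ∀ s t z, φ (s + t) z = φ s (φ t z)
  φ_mp : ∀ t, MeasurePreserving (φ t) μ μ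
  R_meas : Measurable (fun p : ℝ × Ω => R p.1 p.2)
  R_zero : ∀ z, R 0 z = z
  R_add : ∀ a b z, R (a + b) z = R a (R b z)
  R_two_pi : ∀ z, R (2 * Real.pi) z = z
  R_mp : ∀ a, MeasurePreserving (R a) μ μ
  R_cont : ∀ z, Continuous (fun a => R a z)
  ρ_meas : Measurable ρ
  ρ_nonneg : ∀ z, 0 ≤ ρ z
  ρ_R : ∀ a z, ρ (R a z) = ρ z
  ρ_φ : ∀ t z, ρ (φ t z) ≤ ρ z + |t|
  vol : ∀ b : ℝ, 0 < b → μ {z | ρ z < b} ≤ ENNReal.ofReal (Cv * b ^ 2)
  /-- time reversal -/
  rev : ∀ t : ℝ, ∀ᵐ z ∂μ, φ t (R Real.pi z) = R Real.pi (φ (-t) z)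
  /-- local commutation / parallelogram law -/
  LC : ∀ ε : ℝ, 0 < ε → ∀ ζ ζ' : ℂ, ‖ζ‖ ≤ ε → ‖ζ'‖ ≤ ε →
    ∀ᵐ z ∂μ, C₀ * ε ≤ ρ z → tr φ R ζ' (tr φ R ζ z) = tr φ R (ζ + ζ') z
  /-- small translations move almost every point only a little -/
  cont : ∀ᵐ z ∂μ, Tendsto (fun ζ : ℂ => tr φ R ζ z) (𝓝 0) (𝓝 z)

namespace PlaneSys

variable {Ω : Type*} [TopologicalSpace Ω] [MeasurableSpace Ω] {μ : Measure Ω}

/-- translation by `ζ` in the moving frame -/
def T (S : PlaneSys Ω μ) (ζ : ℂ) (z : Ω) : Ω := tr S.φ S.R ζ z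

end PlaneSys

end Crest.Agent.R103
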