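import Crest.Agent.R103.IfaceG
import Crest.Agent.R103.Vol

/-!
# R103: final assembly (hypothesis style)
-/

open MeasureTheory Filter Topology
open Crest.AnalysisR.Billiard
open scoped symmDiff

noncomputable section

namespace Crest.Agent.R103

/-- local description of the translations `T` in the moving frame, for a.e. frame. -/
def LocT (A : Fin 3 → Plane) (T : ℂ → Phase × Bool → Phase × Bool) : Prop := ∀ ζ : ℂ,
  (∀ᵐ z ∂(μM A), (∀ j, 0 < cd A j z.1.1) → (∀ j, 0 < cd A j (z.1.1 + frm z ζ)) →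
    T ζ z = ((z.1.1 + frm z ζ, z.1.2), z.2)) ∧
  (∀ i, ∀ᵐ z ∂(μM A), (∀ j, 0 < cd A j z.1.1) → cd A i (z.1.1 + frm z ζ) < 0 →
    (∀ j, j ≠ i → ∀ y, dist z.1.1 y ≤ ‖ζ‖ → 0 < cd A j y ∧ 0 < cd A j (refl A i y)) →
    (T ζ z).1.1 = refl A i (z.1.1 + frm z ζ) ∧
    ((T ζ z).1.2 : Plane) = mirror (sideVec A i) (z.1.2 : Plane) ∧
    (T ζ z).2 = !z.2) ∧
  (∀ᵐ z ∂(μM A), ∀ j, 0 < cd A j (T ζ z).1.1) ∧
  (∀ᵐ z ∂(μM A), ∀ i, cd A i (z.1.1 + frm z ζ) ≠ 0)

/-- generic form of `StConst` (any `T` with the local description). -/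
def StConstG : Prop := ∀ A : Fin 3 → Plane, AffineIndependent ℝ A →
  (∃ i : Fin 3,
      Irrational (EuclideanGeometry.angle (A (i + 1)) (A i) (A (i + 2)) / Real.pi)) →
  ∀ T : ℂ → Phase × Bool → Phase × Bool, LocT A T →
  (∀ ζ, MeasurePreserving (T ζ) (μM A) (μM A)) →
  ∀ f : Phase × Bool → ℂ, Measurable f →
    (∀ ζ : ℂ, ∀ᵐ z ∂(μM A), f (T ζ z) = f z) →
    ∃ c : ℂ, ∀ᵐ z ∂(μM A), f z = c

/-- generic form of `StTransfer`: any flow on frames which projects to the chains. -/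
def StTransferG : Prop := ∀ A : Fin 3 → Plane, AffineIndependent ℝ A →
  ∀ φ : ℝ → Phase × Bool → Phase × Bool,
  (∀ t, MeasurePreserving (φ t) (μM A) (μM A)) →
  (∀ᵐ p ∂(phaseMeasure A), ∃ c : Chain A, c.Through p ∧
    ∀ (t : ℝ) (b : Bool), (φ t (p, b)).1 = stateAt c t) →
  (∀ s : Set ((Phase × Bool) × (Phase × Bool)), MeasurableSet s →
      (∀ t : ℝ, (fun z : (Phase × Bool) × (Phase × Bool) => (φ t z.1, φ t z.2)) ⁻¹' s
        =ᵐ[(μM A).prod (μM A)] s) →
      ((μM A).prod (μM A)) s = 0 ∨ ((μM A).prod (μM A)) sᶜ = 0) →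
    (∀ᵐ p ∂(phaseMeasure A), (∃ c : Chain A, c.Through p) ∧
        ∀ c c' : Chain A, c.Through p → c'.Through p →
          ∀ (τ : ℝ) (y y' : Phase), c.IsStateAt τ y → c'.IsStateAt τ y' → y = y') ∧
    ∀ Φ : ℝ → Phase → Phase,
      (∀ᵐ p ∂(phaseMeasure A), ∃ c : Chain A, c.Through p ∧ ∀ τ : ℝ, c.IsStateAt τ (Φ τ p)) →
      ∀ s : Set (Phase × Phase), MeasurableSet s →
        (∀ τ : ℝ, ((phaseMeasure A).prod (phaseMeasure A))
            (((fun z : Phase × Phase => (Φ τ z.1, Φ τ z.2)) ⁻¹' s) ∆ s) = 0) →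
        ((phaseMeasure A).prod (phaseMeasure A)) s = 0 ∨
          ((phaseMeasure A).prod (phaseMeasure A)) sᶜ = 0

/-- generic form of the concrete system: a plane system on frames that projects to the chains and
has the local description. -/
def StInstG : Prop := ∀ A : Fin 3 → Plane, AffineIndependent ℝ A →
  ∃ S : PlaneSys (Phase × Bool) (μM A),
    (∀ᵐ p ∂(phaseMeasure A), ∃ c : Chain A, c.Through p ∧
      ∀ (t : ℝ) (b : Bool), (S.φ t (p, b)).1 = stateAt c t) ∧ LocT A S.T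

instance instFiniteμM (A : Fin 3 → Plane) : IsFiniteMeasure (μM A) := by
  unfold μM; infer_instance

/-- conversion of the `L²` form of the constancy to the function form. -/
theorem const_Lp (A : Fin 3 → Plane) (S : PlaneSys (Phase × Bool) (μM A))
    (h : ∀ f : Phase × Bool → ℂ, Measurable f →
      (∀ ζ : ℂ, ∀ᵐ z ∂(μM A), f (S.T ζ z) = f z) → ∃ c : ℂ, ∀ᵐ z ∂(μM A), f z = c)
    (f : Lp ℂ 2 (μM A)) (hf : ∀ ζ, S.U ζ f = f) : ∃ c : ℂ, f =ᵐ[μM A] fun _ => c := by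
  have hm := (Lp.aestronglyMeasurable f).aemeasurable
  obtain ⟨c, hc⟩ := h (hm.mk f) hm.measurable_mk (by
    intro ζ
    have h1 : (S.U ζ f : Phase × Bool → ℂ) =ᵐ[μM A] fun z => f (S.T ζ z) := S.U_coe ζ f
    rw [hf ζ] at h1
    have h2 := (S.T_mp ζ).quasiMeasurePreserving.ae_eq_comp hm.ae_eq_mk
    filter_upwards [h1, h2, hm.ae_eq_mk] with z a b c
    simp only [Function.comp] at a b
    rw [← b, ← a, c])
  exact ⟨c, hm.ae_eq_mk.trans hc⟩

/-- FINAL ASSEMBLY, generic form: from a plane system with a local description. -/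
theorem final_G (habs : PlaneSys.StAbs) (hinst : StInstG) (hconst : StConstG)
    (htr : StTransferG)
    (A : Fin 3 → Plane) (hA : AffineIndependent ℝ A)
    (hirr : ∃ i : Fin 3,
      Irrational (EuclideanGeometry.angle (A (i + 1)) (A i) (A (i + 2)) / Real.pi)) :
    (∀ᵐ p ∂(phaseMeasure A), (∃ c : Chain A, c.Through p) ∧
        ∀ c c' : Chain A, c.Through p → c'.Through p →
          ∀ (τ : ℝ) (y y' : Phase), c.IsStateAt τ y → c'.IsStateAt τ y' → y = y') ∧
    ∀ Φ : ℝ → Phase → Phase,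
      (∀ᵐ p ∂(phaseMeasure A), ∃ c : Chain A, c.Through p ∧ ∀ τ : ℝ, c.IsStateAt τ (Φ τ p)) →
      ∀ s : Set (Phase × Phase), MeasurableSet s →
        (∀ τ : ℝ, ((phaseMeasure A).prod (phaseMeasure A))
            (((fun z : Phase × Phase => (Φ τ z.1, Φ τ z.2)) ⁻¹' s) ∆ s) = 0) →
        ((phaseMeasure A).prod (phaseMeasure A)) s = 0 ∨
          ((phaseMeasure A).prod (phaseMeasure A)) sᶜ = 0 := by
  obtain ⟨S, hS, hT⟩ := hinst A hA
  refine htr A hA S.φ S.φ_mp hS ?_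
  exact habs (Phase × Bool) (μM A) S
    (const_Lp A S (hconst A hA hirr S.T hT S.T_mp))

/-- FINAL ASSEMBLY, with the concrete flow `flowM`. -/
theorem final_M (habs : PlaneSys.StAbs) (hinst : StInst) (hconst : StConst)
    (htr : StTransfer)
    (A : Fin 3 → Plane) (hA : AffineIndependent ℝ A)
    (hirr : ∃ i : Fin 3,
      Irrational (EuclideanGeometry.angle (A (i + 1)) (A i) (A (i + 2)) / Real.pi)) :
    (∀ᵐ p ∂(phaseMeasure A), (∃ c : Chain A, c.Through p) ∧
        ∀ c c' : Chain A, c.Through p → c'.Through p →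
          ∀ (τ : ℝ) (y y' : Phase), c.IsStateAt τ y → c'.IsStateAt τ y' → y = y') ∧
    ∀ Φ : ℝ → Phase → Phase,
      (∀ᵐ p ∂(phaseMeasure A), ∃ c : Chain A, c.Through p ∧ ∀ τ : ℝ, c.IsStateAt τ (Φ τ p)) →
      ∀ s : Set (Phase × Phase), MeasurableSet s →
        (∀ τ : ℝ, ((phaseMeasure A).prod (phaseMeasure A))
            (((fun z : Phase × Phase => (Φ τ z.1, Φ τ z.2)) ⁻¹' s) ∆ s) = 0) →
        ((phaseMeasure A).prod (phaseMeasure A)) s = 0 ∨
          ((phaseMeasure A).prod (phaseMeasure A)) sᶜ = 0 := by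
  obtain ⟨S, hS, hT⟩ := hinst A hA
  refine htr A hA ?_
  have h := habs (Phase × Bool) (μM A) S
    (const_Lp A S (fun f hf hfT => hconst A hA hirr f hf (by
      intro ζ; filter_upwards [hfT ζ] with z hz; rw [← hT, hz])))
  intro s hs hsi
  refine h s hs ?_
  intro t
  simpa only [hS] using hsi t

/-- the concrete flow `flowM` gives the generic form. -/
theorem instG_of (hinst : StInst) (htr : StTr) (hae : StAe) (hex : StExist) : StInstG := by
  intro A hA
  obtain ⟨S, hS, hT⟩ := hinst A hA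
  refine ⟨S, ?_, ?_⟩
  · filter_upwards [(hae A hA).1] with p hp
    have hg := hex A hA p hp.1
    refine ⟨chainOf A p hg, hg.choose_spec, ?_⟩
    intro t b
    rw [hS]
    simp only [flowM, flowP]
    rw [dif_pos ⟨hp.1, hg⟩]
  · have : S.T = tr (flowM A) rotF := by funext ζ z; exact hT ζ z
    rw [this]
    exact htr A hA

end Crest.Agent.R103
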