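import Crest.Agent.R103.FlHalf

/-!
# R103: two-sided chains by gluing two half chains
-/

set_option autoImplicit false
open Crest.AnalysisR.Billiard Set Filter Topology

namespace Crest.Agent.R103.Fl

variable {A : Fin 3 → Plane}

/-- glue two sequences: index `n + 1` is `f n`, index `-n` is `b n` -/
def glue {α : Type*} (f b : ℕ → α) : ℤ → α
  | .ofNat 0 => b 0
  | .ofNat (n + 1) => f n
  | .negSucc n => b (n + 1)

theorem glue_pos {α : Type*} (f b : ℕ → α) (n : ℕ) : glue f b ((n : ℤ) + 1) = f n := rfl

theorem glue_neg {α : Type*} (f b : ℕ → α) (n : ℕ) : glue f b (-(n : ℤ)) = b n := by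
  cases n with
  | zero => rfl
  | succ n => rfl

/-- case analysis on integers adapted to `glue` -/
theorem int_cases (k : ℤ) : (∃ n : ℕ, k = (n : ℤ) + 1) ∨ (∃ n : ℕ, k = -(n : ℤ)) := by
  rcases lt_or_ge 0 k with h | h
  · left; exact ⟨(k - 1).toNat, by omega⟩
  · right; exact ⟨(-k).toNat, by omega⟩

/-- the gluing -/
noncomputable def mk {hA : AffineIndependent ℝ A} {x v : Plane} (hv1 : ‖v‖ = 1)
    (F : Half A hA x v) (hF : 0 < F.t 0) (B : Half A hA x (-v)) : Chain A := by
  have hnormF : ∀ n, ‖F.u n‖ = 1 := by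
    intro n
    induction n with
    | zero => rw [F.u0, norm_mirror, hv1]
    | succ n ih => rw [F.us, norm_mirror, ih]
  have hnormB : ∀ n, ‖B.u n‖ = 1 := by
    intro n
    induction n with
    | zero => rw [B.u0, norm_mirror, norm_neg, hv1]
    | succ n ih => rw [B.us, norm_mirror, ih]
  set t : ℤ → ℝ := glue F.t (fun n => - B.t n) with ht
  set q : ℤ → Plane := glue F.q B.q with hq
  set side : ℤ → Fin 3 := glue F.side B.side with hside
  set V : ℤ → Plane := fun k => glue F.u (fun n => if n = 0 then v else - B.u (n - 1)) k with hV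
  have tp : ∀ n : ℕ, t ((n : ℤ) + 1) = F.t n := fun n => glue_pos _ _ n
  have tn : ∀ n : ℕ, t (-(n : ℤ)) = - B.t n := fun n => glue_neg _ _ n
  have qp : ∀ n : ℕ, q ((n : ℤ) + 1) = F.q n := fun n => glue_pos _ _ n
  have qn : ∀ n : ℕ, q (-(n : ℤ)) = B.q n := fun n => glue_neg _ _ n
  have sp : ∀ n : ℕ, side ((n : ℤ) + 1) = F.side n := fun n => glue_pos _ _ n
  have sn : ∀ n : ℕ, side (-(n : ℤ)) = B.side n := fun n => glue_neg _ _ n
  have Vp : ∀ n : ℕ, V ((n : ℤ) + 1) = F.u n := fun n => glue_pos _ _ n
  have Vn : ∀ n : ℕ, V (-((n + 1 : ℕ) : ℤ)) = - B.u n := fun n => by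
    rw [hV]; simp only; rw [glue_neg]; simp
  have V0 : V 0 = v := by
    have : V (-((0 : ℕ) : ℤ)) = v := by rw [hV]; simp only; rw [glue_neg]; simp
    simpa using this
  have hVn : ∀ k, ‖V k‖ = 1 := by
    intro k
    rcases int_cases k with ⟨n, rfl⟩ | ⟨n, rfl⟩
    · rw [Vp, hnormF]
    · cases n with
      | zero => simp only [Nat.cast_zero, neg_zero]; rw [V0, hv1]
      | succ n => rw [Vn, norm_neg, hnormB]
  -- successor form of negative indices
  have nsucc : ∀ n : ℕ, -((n + 1 : ℕ) : ℤ) + 1 = -(n : ℤ) := by intro n; push_cast; ring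
  have hlt : ∀ k, t k < t (k + 1) := by
    intro k
    rcases int_cases k with ⟨n, rfl⟩ | ⟨n, rfl⟩
    · have e : (n : ℤ) + 1 + 1 = ((n + 1 : ℕ) : ℤ) + 1 := by push_cast; ring
      rw [e, tp, tp]; exact F.mono (by omega)
    · cases n with
      | zero =>
        have e : -((0 : ℕ) : ℤ) + 1 = ((0 : ℕ) : ℤ) + 1 := by simp
        rw [e, tp, tn]
        have := B.nonneg
        linarith
      | succ n =>
        rw [nsucc, tn, tn]
        have : B.t n < B.t (n + 1) := B.mono (by omega)
        linarith
  have hq1 : ∀ k, q (k + 1) = q k + (t (k + 1) - t k) • V k := by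
    intro k
    rcases int_cases k with ⟨n, rfl⟩ | ⟨n, rfl⟩
    · have e : (n : ℤ) + 1 + 1 = ((n + 1 : ℕ) : ℤ) + 1 := by push_cast; ring
      rw [e, qp, qp, tp, tp, Vp]; exact F.qs n
    · cases n with
      | zero =>
        have e : -((0 : ℕ) : ℤ) + 1 = ((0 : ℕ) : ℤ) + 1 := by simp
        rw [e, qp, qn, tp, tn]
        have e2 : V (-((0 : ℕ) : ℤ)) = v := by simpa using V0
        rw [e2, F.q0, B.q0, smul_neg, sub_neg_eq_add, add_smul]
        abel
      | succ n =>
        rw [nsucc, qn, qn, tn, tn, Vn, B.qs n, smul_neg, sub_neg_eq_add]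
        have : -B.t n + B.t (n + 1) = B.t (n + 1) - B.t n := by ring
        rw [this]
        abel
  have hV1 : ∀ k, V (k + 1) = mirror (sideVec A (side (k + 1))) (V k) := by
    intro k
    rcases int_cases k with ⟨n, rfl⟩ | ⟨n, rfl⟩
    · have e : (n : ℤ) + 1 + 1 = ((n + 1 : ℕ) : ℤ) + 1 := by push_cast; ring
      rw [e, Vp, Vp, sp]; exact F.us n
    · cases n with
      | zero =>
        have e : -((0 : ℕ) : ℤ) + 1 = ((0 : ℕ) : ℤ) + 1 := by simp
        have e2 : V (-((0 : ℕ) : ℤ)) = v := by simpa using V0
        rw [e, Vp, sp, e2]; exact F.u0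
      | succ n =>
        rw [nsucc, Vn, sn, mirror_neg]
        cases n with
        | zero =>
          have e2 : V (-((0 : ℕ) : ℤ)) = v := by simpa using V0
          rw [e2, B.u0, mirror_mirror, neg_neg]
        | succ n =>
          rw [Vn, B.us n, mirror_mirror]
  have hdt : ∀ k, 0 < t (k + 1) - t k := fun k => by linarith [hlt k]
  have hvel : ∀ k, (t (k + 1) - t k)⁻¹ • (q (k + 1) - q k) = V k := by
    intro k
    rw [hq1 k, add_sub_cancel_left, smul_smul, inv_mul_cancel₀ (hdt k).ne', one_smul]
  exact
    { t := t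
      q := q
      side := side
      strictMono_t := strictMono_int_of_lt_succ hlt
      t_zero_le := by
        have := tn 0
        simp only [Nat.cast_zero, neg_zero] at this
        rw [this]
        have := B.nonneg
        linarith
      t_one_pos := by
        have := tp 0
        simp only [Nat.cast_zero, zero_add] at this
        rw [this]; exact hF
      tendsto_atTop := by
        have hm : Monotone t := (strictMono_int_of_lt_succ hlt).monotone
        apply tendsto_atTop_atTop_of_monotone hm
        intro b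
        obtain ⟨n, hn⟩ := (F.tend.eventually (eventually_ge_atTop b)).exists
        exact ⟨(n : ℤ) + 1, by rw [tp]; exact hn⟩
      tendsto_atBot := by
        have hm : Monotone t := (strictMono_int_of_lt_succ hlt).monotone
        apply tendsto_atBot_atBot_of_monotone hm
        intro b
        obtain ⟨n, hn⟩ := (B.tend.eventually (eventually_ge_atTop (-b))).exists
        exact ⟨-(n : ℤ), by rw [tn]; linarith⟩
      mem_side := by
        intro k
        rcases int_cases k with ⟨n, rfl⟩ | ⟨n, rfl⟩
        · rw [qp, sp]; exact F.mem n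
        · rw [qn, sn]; exact B.mem n
      side_ne := by
        intro k
        rcases int_cases k with ⟨n, rfl⟩ | ⟨n, rfl⟩
        · have e : (n : ℤ) + 1 + 1 = ((n + 1 : ℕ) : ℤ) + 1 := by push_cast; ring
          rw [e, sp, sp]; exact F.ne n
        · cases n with
          | zero =>
            have e : -((0 : ℕ) : ℤ) + 1 = ((0 : ℕ) : ℤ) + 1 := by simp
            rw [e, sp, sn]
            intro h
            have h1 := F.D0
            have h2 := B.D0
            rw [← h, map_neg] at h2
            linarith
          | succ n =>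
            rw [nsucc, sn, sn]
            exact (B.ne n).symm
      unit_speed := by
        intro k
        rw [dist_comm, dist_eq_norm, hq1 k, add_sub_cancel_left, norm_smul, hVn, mul_one,
          Real.norm_eq_abs, abs_of_pos (hdt k)]
      reflect := by
        intro k
        rw [hvel k]
        have h1 := hvel (k + 1)
        have e : k + 1 + 1 = k + 2 := by ring
        rw [e] at h1
        rw [h1, hV1 k] }

theorem mk_t_one {hA : AffineIndependent ℝ A} {x v : Plane} (hv1 : ‖v‖ = 1)
    (F : Half A hA x v) (hF : 0 < F.t 0) (B : Half A hA x (-v)) :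
    (mk hv1 F hF B).t 1 = F.t 0 := rfl

theorem mk_t_zero {hA : AffineIndependent ℝ A} {x v : Plane} (hv1 : ‖v‖ = 1)
    (F : Half A hA x v) (hF : 0 < F.t 0) (B : Half A hA x (-v)) :
    (mk hv1 F hF B).t 0 = - B.t 0 := rfl

theorem mk_q_one {hA : AffineIndependent ℝ A} {x v : Plane} (hv1 : ‖v‖ = 1)
    (F : Half A hA x v) (hF : 0 < F.t 0) (B : Half A hA x (-v)) :
    (mk hv1 F hF B).q 1 = F.q 0 := rfl

theorem mk_q_zero {hA : AffineIndependent ℝ A} {x v : Plane} (hv1 : ‖v‖ = 1)
    (F : Half A hA x v) (hF : 0 < F.t 0) (B : Half A hA x (-v)) :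
    (mk hv1 F hF B).q 0 = B.q 0 := rfl

theorem mk_through {hA : AffineIndependent ℝ A} {x v : Plane} (hv1 : ‖v‖ = 1)
    (F : Half A hA x v) (hF : 0 < F.t 0) (B : Half A hA x (-v)) (p : Phase) (hp1 : p.1 = x)
    (hp2 : (p.2 : Plane) = v) : (mk hv1 F hF B).Through p := by
  have hvel : (mk hv1 F hF B).vel 0 = v := by
    rw [Chain.vel, zero_add, mk_t_one, mk_t_zero, mk_q_one, mk_q_zero, F.q0, B.q0, smul_neg,
      sub_neg_eq_add]
    have e : x + F.t 0 • v - (x + -(B.t 0 • v)) = (F.t 0 + B.t 0) • v := by
      rw [add_smul]; abel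
    have h : F.t 0 + B.t 0 ≠ 0 := by
      have := B.nonneg
      positivity
    rw [e, smul_smul, inv_mul_cancel₀ h, one_smul]
  refine ⟨0, (mk hv1 F hF B).t_zero_le, by rw [zero_add]; exact (mk hv1 F hF B).t_one_pos, ?_, ?_⟩
  · rw [hvel, mk_q_zero, mk_t_zero, B.q0, hp1, smul_neg]
    simp
  · rw [hvel, hp2]

/-- Existence of a chain through an interior state. -/
theorem exists_chain_of_interior (hA : AffineIndependent ℝ A) (p : Phase)
    (hn : NV A p.1 (p.2 : Plane)) (hp : ∀ i, 0 < L hA i p.1) : ∃ c : Chain A, c.Through p := by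
  have hv1 : ‖(p.2 : Plane)‖ = 1 := by simp
  obtain ⟨F, hF⟩ := exists_fwd hA hv1 hn (fun i => Or.inl (hp i))
  have hv2 : ‖-(p.2 : Plane)‖ = 1 := by rw [norm_neg, hv1]
  have hn2 : NV A p.1 (-(p.2 : Plane)) := by
    intro w s k
    have := hn w (-s) k
    rwa [neg_smul, ← smul_neg] at this
  obtain ⟨B, _⟩ := exists_fwd hA hv2 hn2 (fun i => Or.inl (hp i))
  exact ⟨mk hv1 F hF B, mk_through hv1 F hF B p rfl rfl⟩

/-- A backward half chain starting at a boundary state. -/
theorem exists_bwd_boundary (hA : AffineIndependent ℝ A) {x v : Plane} (hv1 : ‖v‖ = 1)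
    (hn : NV A x v) (i : Fin 3) (hi : L hA i x = 0) (hDi : 0 < D hA i v)
    (hp : ∀ j, j ≠ i → 0 < L hA j x) : ∃ _ : Half A hA x (-v), True := by
  set v' : Plane := mirror (sideVec A i) (-v) with hv'
  have hx : x ∈ openSide A i := (mem_openSide hA).mpr ⟨hi, hp⟩
  have hfold : ∀ s : ℝ, sigma A i (x + s • v') = x + (-s) • v := by
    intro s
    have h1 := fold_add_smul (A := A) [i] x v' s
    simp only [fold_cons, fold_nil, lin_cons, lin_nil] at h1
    rw [h1, sigma_eq_self hA hi, hv', mirror_mirror, smul_neg, neg_smul]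
  have hfold2 : ∀ (w : List (Fin 3)) (y : Plane), fold A (w ++ [i]) y = fold A w (sigma A i y) := by
    intro w y
    induction w with
    | nil => rfl
    | cons j w ih => rw [List.cons_append, fold_cons, fold_cons, ih]
  have hn' : NV A x v' := by
    intro w s k hk
    apply hn (w ++ [i]) (-s) k
    rw [hfold2, ← hfold, sigma_sigma]
    exact hk
  have hv'1 : ‖v'‖ = 1 := by rw [hv', norm_mirror, norm_neg, hv1]
  have hDv' : D hA i v' = D hA i v := by rw [hv', D_mirror, map_neg, neg_neg]
  obtain ⟨H, hH⟩ := exists_fwd hA hv'1 hn' (by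
    intro j
    by_cases hj : j = i
    · right; rw [hj, hi, hDv']; exact ⟨le_rfl, hDi⟩
    · left; exact hp j hj)
  have hne0 : H.side 0 ≠ i := by
    intro h
    have := H.D0
    rw [h, hDv'] at this
    linarith
  refine ⟨?_, trivial⟩
  exact
    { t := fun n => if n = 0 then 0 else H.t (n - 1)
      q := fun n => if n = 0 then x else H.q (n - 1)
      side := fun n => if n = 0 then i else H.side (n - 1)
      u := fun n => if n = 0 then v' else H.u (n - 1)
      nonneg := by simp
      mono := by
        apply strictMono_nat_of_lt_succ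
        intro n
        cases n with
        | zero => simpa using hH
        | succ n => simpa using H.mono (by omega : n < n + 1)
      tend := by
        have h := H.tend
        rw [← tendsto_add_atTop_iff_nat 1]
        refine h.congr (fun n => ?_)
        simp
      mem := by
        intro n
        cases n with
        | zero => simpa using hx
        | succ n => simpa using H.mem n
      ne := by
        intro n
        cases n with
        | zero => simpa using hne0
        | succ n => simpa using H.ne n
      q0 := by simp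
      u0 := by simp [hv']
      qs := by
        intro n
        cases n with
        | zero => simpa using H.q0
        | succ n => simpa using H.qs n
      us := by
        intro n
        cases n with
        | zero => simpa using H.u0
        | succ n => simpa using H.us n
      D0 := by simpa using hDi }

/-- Existence of a chain through every admissible state whose line avoids the unfolded vertices. -/
theorem exists_chain (hA : AffineIndependent ℝ A) (p : Phase)
    (hn : NV A p.1 (p.2 : Plane))
    (hp : ∀ i, 0 < L hA i p.1 ∨ (L hA i p.1 = 0 ∧ 0 < D hA i (p.2 : Plane))) :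
    ∃ c : Chain A, c.Through p := by
  by_cases hint : ∀ i, 0 < L hA i p.1
  · exact exists_chain_of_interior hA p hn hint
  push Not at hint
  obtain ⟨i, hi⟩ := hint
  have hi' : L hA i p.1 = 0 ∧ 0 < D hA i (p.2 : Plane) := by
    rcases hp i with h | h
    · exact absurd h (not_lt.mpr hi)
    · exact h
  have hj : ∀ j, j ≠ i → 0 < L hA j p.1 := by
    intro j hj
    rcases hp j with h | h
    · exact h
    · exfalso
      obtain ⟨k, hk⟩ := vertex_of_two_zero hA hj h.1 hi'.1
      have := hn [] 0 k
      simp only [zero_smul, add_zero, fold_nil] at this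
      exact this hk
  have hv1 : ‖(p.2 : Plane)‖ = 1 := by simp
  obtain ⟨F, hF⟩ := exists_fwd hA hv1 hn (by
    intro l
    rcases hp l with h | h
    · exact Or.inl h
    · exact Or.inr ⟨h.1.ge, h.2⟩)
  obtain ⟨B, _⟩ := exists_bwd_boundary hA hv1 hn i hi'.1 hi'.2 hj
  exact ⟨mk hv1 F hF B, mk_through hv1 F hF B p rfl rfl⟩

end Crest.Agent.R103.Fl
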