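import Crest.Agent.R103.Geo

/-!
# R103: interface of the concrete part (triangle billiard), statements `St...`
-/

open MeasureTheory Filter Topology
open Crest.AnalysisR.Billiard
open scoped symmDiff

noncomputable section

namespace Crest.Agent.R103

/-- G1. barycentric coordinates -/
def StG1 : Prop := ∀ A : Fin 3 → Plane, AffineIndependent ℝ A →
  Dt A ≠ 0 ∧
  (∀ x, cd A 0 x + cd A 1 x + cd A 2 x = 1) ∧
  (∀ v, ld A 0 v + ld A 1 v + ld A 2 v = 0) ∧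
  (∀ i x (s : ℝ) v, cd A i (x + s • v) = cd A i x + s * ld A i v) ∧
  (∀ i j, cd A i (A j) = if i = j then 1 else 0) ∧
  (∀ v, (∀ i, ld A i v = 0) → v = 0) ∧
  (∀ x y, (∀ i, cd A i x = cd A i y) → x = y) ∧
  (∀ i, Continuous (cd A i)) ∧ (∀ i, Continuous (ld A i)) ∧
  interior (convexHull ℝ (Set.range A)) = {x | ∀ i, 0 < cd A i x} ∧
  (∀ i, openSide A i = {x | cd A i x = 0 ∧ ∀ j, j ≠ i → 0 < cd A j x})

/-- G2. reflections -/
def StG2 : Prop := ∀ A : Fin 3 → Plane, AffineIndependent ℝ A → ∀ i : Fin 3,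
  (∀ x, refl A i (refl A i x) = x) ∧
  (∀ v, mirror (sideVec A i) (mirror (sideVec A i) v) = v) ∧
  (∀ x y, dist (refl A i x) (refl A i y) = dist x y) ∧
  (∀ v, ‖mirror (sideVec A i) v‖ = ‖v‖) ∧
  (∀ (a b : ℝ) (u v : Plane), mirror (sideVec A i) (a • u + b • v)
      = a • mirror (sideVec A i) u + b • mirror (sideVec A i) v) ∧
  (∀ x (s : ℝ) v, refl A i (x + s • v) = refl A i x + s • mirror (sideVec A i) v) ∧
  (∀ x, cd A i (refl A i x) = - cd A i x) ∧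
  (∀ v, ld A i (mirror (sideVec A i) v) = - ld A i v) ∧
  (∀ x, cd A i x = 0 → refl A i x = x) ∧
  (∀ v, J (mirror (sideVec A i) v) = - mirror (sideVec A i) (J v)) ∧
  Continuous (refl A i) ∧ Continuous (mirror (sideVec A i)) ∧
  MeasurePreserving (refl A i) volume volume

/-- G3. at most one side is near a point far from the vertices; volume of the neighbourhood of
the vertices. -/
def StG3 : Prop := ∀ A : Fin 3 → Plane, AffineIndependent ℝ A →
  (∃ C₀ : ℝ, 1 ≤ C₀ ∧ ∀ (x : Plane) (ε : ℝ), 0 < ε → C₀ * ε ≤ vd A x → (∀ i, 0 ≤ cd A i x) →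
    ∃ i : Fin 3, ∀ j, j ≠ i → ∀ y, dist x y ≤ 2 * ε → 0 < cd A j y ∧ 0 < cd A j (refl A i y)) ∧
  (∃ C : ℝ, 0 ≤ C ∧ ∀ b : ℝ, 0 < b →
    (μM A) {z | vd A z.1.1 < b} ≤ ENNReal.ofReal (C * b ^ 2))

/-- H1. uniqueness of chains -/
def StUniq : Prop := ∀ A : Fin 3 → Plane, AffineIndependent ℝ A →
  ∀ (c c' : Chain A) (p : Phase), c.Through p → c'.Through p → c = c'

/-- H2. shifting a chain in time -/
def StShift : Prop := ∀ (A : Fin 3 → Plane) (c : Chain A) (s : ℝ), ∃ c' : Chain A,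
  (∀ k, c'.t k = c.t (k + idx c s) - s) ∧ (∀ k, c'.q k = c.q (k + idx c s)) ∧
  (∀ k, c'.side k = c.side (k + idx c s)) ∧
  (∀ τ, idx c' τ = idx c (τ + s) - idx c s) ∧ (∀ τ, stateAt c' τ = stateAt c (τ + s))

/-- H3. admissibility of states, unfolding, Lipschitz -/
def StState : Prop := ∀ A : Fin 3 → Plane, AffineIndependent ℝ A → ∀ (c : Chain A),
  (∀ τ, Adm A (stateAt c τ)) ∧
  (∀ s t, dist (stateAt c s).1 (stateAt c t).1 ≤ |s - t|) ∧
  (∀ s t, ∃ w : List (Fin 3),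
    (∀ r : ℝ, (stateAt c t).1 + r • ((stateAt c t).2 : Plane)
      = reflW A w ((stateAt c s).1 + (t - s + r) • ((stateAt c s).2 : Plane))) ∧
    ((stateAt c t).2 : Plane) = mirW A w ((stateAt c s).2 : Plane) ∧
    (Odd (w.length : ℤ) ↔ Odd (idx c t - idx c s)))

/-- H4. existence of chains through good states -/
def StExist : Prop := ∀ A : Fin 3 → Plane, AffineIndependent ℝ A → ∀ p, OK A p → Good A p

/-- H5. almost every state is good; the set of good states is measurable -/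
def StAe : Prop := ∀ A : Fin 3 → Plane, AffineIndependent ℝ A →
  (∀ᵐ p ∂(phaseMeasure A), OK A p ∧ ∀ i, 0 < cd A i p.1) ∧ MeasurableSet {p | OK A p}

/-- H6. the flow `flowM` is an action of `ℝ` preserving good states -/
def StFlow : Prop := ∀ A : Fin 3 → Plane, AffineIndependent ℝ A →
  (∀ z, flowM A 0 z = z) ∧ (∀ s t z, flowM A (s + t) z = flowM A s (flowM A t z)) ∧
  (∀ t p, OK A p → OK A (flowP A t p)) ∧
  (∀ t z, vd A (flowM A t z).1.1 ≤ vd A z.1.1 + |t|)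

/-- H7. joint measurability of the flow -/
def StMeas : Prop := ∀ A : Fin 3 → Plane, AffineIndependent ℝ A →
  Measurable (fun p : ℝ × (Phase × Bool) => flowM A p.1 p.2)

/-- H8. the flow preserves the measure -/
def StMP : Prop := ∀ A : Fin 3 → Plane, AffineIndependent ℝ A → ∀ t,
  MeasurePreserving (flowM A t) (μM A) (μM A)

/-- H9. time reversal -/
def StRev : Prop := ∀ A : Fin 3 → Plane, AffineIndependent ℝ A → ∀ t : ℝ,
  ∀ᵐ z ∂(μM A), flowM A t (rotF Real.pi z) = rotF Real.pi (flowM A (-t) z)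

/-- H10. rotations -/
def StRot : Prop :=
  Measurable (fun p : ℝ × (Phase × Bool) => rotF p.1 p.2) ∧ (∀ z, rotF 0 z = z) ∧
  (∀ a b z, rotF (a + b) z = rotF a (rotF b z)) ∧ (∀ z, rotF (2 * Real.pi) z = z) ∧
  (∀ (A : Fin 3 → Plane) a, MeasurePreserving (rotF a) (μM A) (μM A)) ∧
  (∀ z, Continuous fun a => rotF a z) ∧
  (∀ (A : Fin 3 → Plane), IsFiniteMeasure (μM A)) ∧
  (∀ α z ζ, frm (rotF α z) ζ = frm z (Complex.exp (α * Complex.I) * ζ))

/-- H11. short time behaviour of the flow -/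
def StLoc : Prop := ∀ A : Fin 3 → Plane, AffineIndependent ℝ A →
  (∀ (p : Phase) (t : ℝ), 0 ≤ t → OK A p → (∀ j, 0 < cd A j p.1) →
    (∀ j, 0 < cd A j (p.1 + t • (p.2 : Plane))) →
    flowP A t p = (p.1 + t • (p.2 : Plane), p.2) ∧ par A t p = false) ∧
  (∀ (p : Phase) (t : ℝ) (i : Fin 3), 0 ≤ t → OK A p → (∀ j, 0 < cd A j p.1) →
    cd A i (p.1 + t • (p.2 : Plane)) < 0 →
    (∀ j, j ≠ i → ∀ s, 0 ≤ s → s ≤ t → 0 < cd A j (p.1 + s • (p.2 : Plane)) ∧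
      0 < cd A j (refl A i (p.1 + s • (p.2 : Plane)))) →
    (flowP A t p).1 = refl A i (p.1 + t • (p.2 : Plane)) ∧
    ((flowP A t p).2 : Plane) = mirror (sideVec A i) (p.2 : Plane) ∧ par A t p = true)

/-- H12. local description of the translations `tr` in the moving frame, for a.e. frame. -/
def StTr : Prop := ∀ A : Fin 3 → Plane, AffineIndependent ℝ A → ∀ ζ : ℂ,
  (∀ᵐ z ∂(μM A), (∀ j, 0 < cd A j z.1.1) → (∀ j, 0 < cd A j (z.1.1 + frm z ζ)) →
    tr (flowM A) rotF ζ z = ((z.1.1 + frm z ζ, z.1.2), z.2)) ∧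
  (∀ i, ∀ᵐ z ∂(μM A), (∀ j, 0 < cd A j z.1.1) → cd A i (z.1.1 + frm z ζ) < 0 →
    (∀ j, j ≠ i → ∀ y, dist z.1.1 y ≤ ‖ζ‖ → 0 < cd A j y ∧ 0 < cd A j (refl A i y)) →
    (tr (flowM A) rotF ζ z).1.1 = refl A i (z.1.1 + frm z ζ) ∧
    ((tr (flowM A) rotF ζ z).1.2 : Plane) = mirror (sideVec A i) (z.1.2 : Plane) ∧
    (tr (flowM A) rotF ζ z).2 = !z.2) ∧
  (∀ᵐ z ∂(μM A), ∀ j, 0 < cd A j (tr (flowM A) rotF ζ z).1.1) ∧
  (∀ᵐ z ∂(μM A), ∀ i, cd A i (z.1.1 + frm z ζ) ≠ 0)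

/-- H13. local commutation and continuity -/
def StLC : Prop := ∀ A : Fin 3 → Plane, AffineIndependent ℝ A →
  (∃ C₀ : ℝ, 1 ≤ C₀ ∧ ∀ ε : ℝ, 0 < ε → ∀ ζ ζ' : ℂ, ‖ζ‖ ≤ ε → ‖ζ'‖ ≤ ε →
    ∀ᵐ z ∂(μM A), C₀ * ε ≤ vd A z.1.1 →
      tr (flowM A) rotF ζ' (tr (flowM A) rotF ζ z) = tr (flowM A) rotF (ζ + ζ') z) ∧
  (∀ᵐ z ∂(μM A), Tendsto (fun ζ : ℂ => tr (flowM A) rotF ζ z) (𝓝 0) (𝓝 z))

/-- H14. the plane system of a triangle -/
def StInst : Prop := ∀ A : Fin 3 → Plane, AffineIndependent ℝ A →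
  ∃ S : PlaneSys (Phase × Bool) (μM A),
    (∀ t z, S.φ t z = flowM A t z) ∧ (∀ ζ z, S.T ζ z = tr (flowM A) rotF ζ z)

/-- H15. functions invariant under all translations are constant (irrational angle) -/
def StConst : Prop := ∀ A : Fin 3 → Plane, AffineIndependent ℝ A →
  (∃ i : Fin 3,
      Irrational (EuclideanGeometry.angle (A (i + 1)) (A i) (A (i + 2)) / Real.pi)) →
  ∀ f : Phase × Bool → ℂ, Measurable f →
    (∀ ζ : ℂ, ∀ᵐ z ∂(μM A), f (tr (flowM A) rotF ζ z) = f z) →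
    ∃ c : ℂ, ∀ᵐ z ∂(μM A), f z = c

/-- H16. transfer: product ergodicity on frames implies the statement S0136 -/
def StTransfer : Prop := ∀ A : Fin 3 → Plane, AffineIndependent ℝ A →
  (∀ s : Set ((Phase × Bool) × (Phase × Bool)), MeasurableSet s →
      (∀ t : ℝ, (fun z : (Phase × Bool) × (Phase × Bool) => (flowM A t z.1, flowM A t z.2)) ⁻¹' s
        =ᵐ[(μM A).prod (μM A)] s) →
      ((μM A).prod (μM A)) s = 0 ∨ ((μM A).prod (μM A)) sᶜ = 0) →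
    (∀ᵐ p ∂(phaseMeasure A), (∃ c : Chain A, c.Through p) ∧
        ∀ c c' : Chain A, c.Through p → c'.Through p →
          ∀ (τ : ℝ) (y y' : Phase), c.IsStateAt τ y → c'.IsStateAt τ y' → y = y') ∧
    ∀ Φ : ℝ → Phase → Phase,
      (∀ᵐ p ∂(phaseMeasure A), ∃ c : Chain A, c.Through p ∧ ∀ τ : ℝ, c.IsStateAt τ (Φ τ p)) →
      ∀ s : Set (Phase × Phase), MeasurableSet s →
        (∀ τ : ℝ, ((phaseMeasure A).prod (phaseMeasure A))
            (((fun z : Phase × Phase => (Φ τ z.1, Φ τ z.2)) ⁻¹' s) ∆ s) = 0) →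
        ((phaseMeasure A).prod (phaseMeasure A)) s = 0 ∨
          ((phaseMeasure A).prod (phaseMeasure A)) sᶜ = 0

end Crest.Agent.R103
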