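import Crest.Agent.R103.FlEx
import Crest.Agent.R103.IfaceG

/-!
# R103: task H4 (existence of chains through good states) in the form of `IfaceG`
-/

set_option autoImplicit false
open Crest.AnalysisR.Billiard Set Filter Topology

namespace Crest.Agent.R103.Fl

variable {A : Fin 3 → Plane}

theorem cd_eq_L (g1 : StG1) (hA : AffineIndependent ℝ A) (i : Fin 3) (x : Plane) :
    cd A i x = L hA i x := by
  obtain ⟨-, -, -, haff, hvert, -⟩ := g1 A hA
  have hld : ∀ j k, ld A i (A j - A k) = cd A i (A j) - cd A i (A k) := by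
    intro j k
    have h := haff i (A k) 1 (A j - A k)
    rw [one_smul, add_sub_cancel, one_mul] at h
    linarith
  have hx : x = A 0 + L hA 1 x • (A 1 - A 0) + L hA 2 x • (A 2 - A 0) := by
    apply eq_of_L hA
    intro j
    rw [L_add_smul, L_add_smul, D_sub, D_sub]
    have h0 := L_sum hA x
    fin_cases j
    · have e1 := L_self hA 0
      have e2 := L_ne hA (show (0 : Fin 3) ≠ 1 by decide)
      have e3 := L_ne hA (show (0 : Fin 3) ≠ 2 by decide)
      simp only [Fin.zero_eta, e1, e2, e3]; linarith
    · have e1 := L_self hA 1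
      have e2 := L_ne hA (show (1 : Fin 3) ≠ 0 by decide)
      have e3 := L_ne hA (show (1 : Fin 3) ≠ 2 by decide)
      simp only [Fin.mk_one, e1, e2, e3]; linarith
    · have e1 := L_self hA 2
      have e2 := L_ne hA (show (2 : Fin 3) ≠ 0 by decide)
      have e3 := L_ne hA (show (2 : Fin 3) ≠ 1 by decide)
      simp only [Fin.reduceFinMk, e1, e2, e3]; linarith
  have h1 : cd A i x = cd A i (A 0) + L hA 1 x * (cd A i (A 1) - cd A i (A 0)) +
      L hA 2 x * (cd A i (A 2) - cd A i (A 0)) := by
    nth_rewrite 1 [hx]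
    rw [haff, haff, hld, hld]
  rw [h1, hvert, hvert, hvert]
  have h0 := L_sum hA x
  fin_cases i
  · simp; linarith
  · simp
  · simp

theorem ld_eq_D (g1 : StG1) (hA : AffineIndependent ℝ A) (i : Fin 3) (v : Plane) :
    ld A i v = D hA i v := by
  obtain ⟨-, -, -, haff, -⟩ := g1 A hA
  have h1 := haff i 0 1 v
  rw [one_smul, one_mul, cd_eq_L g1 hA, cd_eq_L g1 hA, L_add] at h1
  linarith

theorem refl_eq_sigma (i : Fin 3) (x : Plane) : refl A i x = sigma A i x := by
  rw [refl, sigma_apply, add_comm]

theorem fold_append (w w' : List (Fin 3)) (y : Plane) :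
    fold A (w ++ w') y = fold A w (fold A w' y) := by
  induction w with
  | nil => rfl
  | cons j w ih => rw [List.cons_append, fold_cons, fold_cons, ih]

theorem reflW_eq_fold (w : List (Fin 3)) (x : Plane) : reflW A w x = fold A w.reverse x := by
  induction w generalizing x with
  | nil => rfl
  | cons i w ih =>
    rw [reflW, ih, List.reverse_cons, fold_append, refl_eq_sigma]
    rfl

theorem NV_of_LineOK {p : Phase} (h : LineOK A p) : NV A p.1 (p.2 : Plane) := by
  intro w s k
  have := h w.reverse s k
  rwa [reflW_eq_fold, List.reverse_reverse] at this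

theorem LineOK_iff_NV {p : Phase} : LineOK A p ↔ NV A p.1 (p.2 : Plane) := by
  refine ⟨NV_of_LineOK, fun h w s k => ?_⟩
  rw [reflW_eq_fold]
  exact h _ s k

/-- H4 -/
theorem exist (g1 : StG1) : StExist := by
  intro A hA p hp
  refine exists_chain hA p (NV_of_LineOK hp.2) ?_
  intro i
  rcases hp.1 i with h | h
  · left; rwa [cd_eq_L g1 hA] at h
  · right; rwa [cd_eq_L g1 hA, ld_eq_D g1 hA] at h

end Crest.Agent.R103.Fl
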