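import Mathlib
import Crest.Prelude.Def_Billiard

/-!
# R103: geometry of one triangle

Barycentric coordinates `L`, their linear parts `D`, side reflections `sigma`, unfolding maps
`fold`, the exit lemma.
-/

set_option autoImplicit false
open Crest.AnalysisR.Billiard Set

namespace Crest.Agent.R103.Fl

theorem fin3_a : ∀ i j : Fin 3, j ≠ i → j = i + 1 ∨ j = i + 2 := by decide
theorem fin3_b : ∀ i j : Fin 3, j = i ∨ j = i + 1 ∨ j = i + 2 := by decide
theorem fin3_1 : ∀ i : Fin 3, i ≠ i + 1 := by decide
theorem fin3_2 : ∀ i : Fin 3, i ≠ i + 2 := by decide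
theorem fin3_3 : ∀ i : Fin 3, i + 1 ≠ i + 2 := by decide

variable {A : Fin 3 → Plane}

/-- the vertices as an affine basis of the plane -/
noncomputable def bas (hA : AffineIndependent ℝ A) : AffineBasis (Fin 3) ℝ Plane :=
  ⟨A, hA, by rw [hA.affineSpan_eq_top_iff_card_eq_finrank_add_one]; simp⟩

/-- barycentric coordinates -/
noncomputable def L (hA : AffineIndependent ℝ A) (i : Fin 3) : Plane →ᵃ[ℝ] ℝ := (bas hA).coord i

/-- linear parts of the barycentric coordinates -/
noncomputable def D (hA : AffineIndependent ℝ A) (i : Fin 3) : Plane →ₗ[ℝ] ℝ := (L hA i).linear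

variable (hA : AffineIndependent ℝ A)

theorem L_self (i : Fin 3) : L hA i (A i) = 1 := (bas hA).coord_apply_eq i

theorem L_ne {i j : Fin 3} (h : i ≠ j) : L hA i (A j) = 0 := (bas hA).coord_apply_ne h

theorem L_add_smul (i : Fin 3) (x w : Plane) (s : ℝ) :
    L hA i (x + s • w) = L hA i x + s * D hA i w := by
  have h := (L hA i).map_vadd x (s • w)
  rw [vadd_eq_add, vadd_eq_add, add_comm (s • w) x] at h
  rw [h, D, map_smul, smul_eq_mul, add_comm]

theorem L_add (i : Fin 3) (x w : Plane) : L hA i (x + w) = L hA i x + D hA i w := by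
  have h := L_add_smul hA i x w 1
  simpa using h

theorem D_sub (i : Fin 3) (x y : Plane) : D hA i (x - y) = L hA i x - L hA i y := by
  have h := L_add hA i y (x - y)
  rw [add_sub_cancel] at h
  linarith

theorem L_sum (x : Plane) : L hA 0 x + L hA 1 x + L hA 2 x = 1 := by
  have h := (bas hA).sum_coord_apply_eq_one x
  rw [Fin.sum_univ_three] at h
  exact h

theorem L_comb (x : Plane) : L hA 0 x • A 0 + L hA 1 x • A 1 + L hA 2 x • A 2 = x := by
  have h := (bas hA).linear_combination_coord_eq_self x
  rw [Fin.sum_univ_three] at h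
  exact h

theorem D_sum (w : Plane) : D hA 0 w + D hA 1 w + D hA 2 w = 0 := by
  have h1 := L_sum hA (0 + w)
  have h2 := L_sum hA 0
  rw [L_add, L_add, L_add] at h1
  linarith

theorem eq_of_L {x y : Plane} (h : ∀ i, L hA i x = L hA i y) : x = y := by
  rw [← L_comb hA x, ← L_comb hA y, h 0, h 1, h 2]

theorem eq_zero_of_D {w : Plane} (h : ∀ i, D hA i w = 0) : w = 0 := by
  have : (0 : Plane) + w = 0 := by
    apply eq_of_L hA
    intro i
    rw [L_add, h i, add_zero]
  simpa using this

theorem L_continuous (i : Fin 3) : Continuous (L hA i) := (L hA i).continuous_of_finiteDimensional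

theorem D_continuous (i : Fin 3) : Continuous (D hA i) :=
  (D hA i).continuous_of_finiteDimensional

/-- the open triangle -/
def T (A : Fin 3 → Plane) : Set Plane := interior (convexHull ℝ (Set.range A))

theorem mem_T {x : Plane} : x ∈ T A ↔ ∀ i, 0 < L hA i x := by
  have h := (bas hA).interior_convexHull
  have h2 : x ∈ interior (convexHull ℝ (range (bas hA))) ↔ ∀ i, 0 < (bas hA).coord i x := by
    rw [h]; rfl
  exact h2

theorem isOpen_T : IsOpen (T A) := isOpen_interior

theorem mem_openSide {x : Plane} {i : Fin 3} :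
    x ∈ openSide A i ↔ L hA i x = 0 ∧ ∀ j, j ≠ i → 0 < L hA j x := by
  have key : ∀ s : ℝ, ∀ j, L hA j (AffineMap.lineMap (A (i + 1)) (A (i + 2)) s) =
      (1 - s) * L hA j (A (i + 1)) + s * L hA j (A (i + 2)) := by
    intro s j
    rw [AffineMap.lineMap_apply_module']
    have e : s • (A (i + 2) - A (i + 1)) + A (i + 1) = A (i + 1) + s • (A (i + 2) - A (i + 1)) := by
      abel
    rw [e, L_add_smul, D_sub]
    ring
  have n1 : i ≠ i + 1 := by fin_cases i <;> decide
  have n2 : i ≠ i + 2 := by fin_cases i <;> decide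
  have n3 : i + 1 ≠ i + 2 := by fin_cases i <;> decide
  constructor
  · rintro ⟨s, ⟨hs0, hs1⟩, rfl⟩
    refine ⟨?_, ?_⟩
    · show L hA i (AffineMap.lineMap (A (i + 1)) (A (i + 2)) s) = 0
      rw [key, L_ne hA n1, L_ne hA n2]; ring
    · intro j hj
      show 0 < L hA j (AffineMap.lineMap (A (i + 1)) (A (i + 2)) s)
      rw [key]
      have hj' : j = i + 1 ∨ j = i + 2 := fin3_a i j hj
      rcases hj' with rfl | rfl
      · rw [L_self, L_ne hA n3]; linarith
      · rw [L_self, L_ne hA n3.symm]; linarith
  · rintro ⟨h0, hp⟩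
    have hs : L hA i x + L hA (i + 1) x + L hA (i + 2) x = 1 := by
      have := L_sum hA x
      fin_cases i
      · simpa using this
      · have e1 : (1 : Fin 3) + 1 = 2 := rfl
        have e2 : (1 : Fin 3) + 2 = 0 := rfl
        simp only [Fin.mk_one, e1, e2]; linarith
      · have e1 : (2 : Fin 3) + 1 = 0 := rfl
        have e2 : (2 : Fin 3) + 2 = 1 := rfl
        simp only [Fin.reduceFinMk, e1, e2]; linarith
    have hp1 := hp (i + 1) n1.symm
    have hp2 := hp (i + 2) n2.symm
    refine ⟨L hA (i + 2) x, ⟨hp2, by linarith⟩, ?_⟩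
    show AffineMap.lineMap (A (i + 1)) (A (i + 2)) (L hA (i + 2) x) = x
    apply eq_of_L hA
    intro j
    rw [key]
    have hj' : j = i ∨ j = i + 1 ∨ j = i + 2 := fin3_b i j
    rcases hj' with rfl | rfl | rfl
    · rw [L_ne hA n1, L_ne hA n2, h0]; ring
    · rw [L_self, L_ne hA n3]; linarith
    · rw [L_self, L_ne hA n3.symm]; ring

theorem L_nonneg_of_openSide {x : Plane} {i : Fin 3} (h : x ∈ openSide A i) (j : Fin 3) :
    0 ≤ L hA j x := by
  rw [mem_openSide hA] at h
  by_cases hj : j = i
  · rw [hj, h.1]
  · exact (h.2 j hj).le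

theorem openSide_disjoint {x : Plane} {i j : Fin 3} (hA : AffineIndependent ℝ A)
    (h : x ∈ openSide A i) (h' : x ∈ openSide A j) : i = j := by
  by_contra hij
  rw [mem_openSide hA] at h h'
  have := h.2 j (Ne.symm hij)
  rw [h'.1] at this
  exact lt_irrefl _ this

/-! ### mirror reflections -/

theorem D_sideVec (i : Fin 3) : D hA i (sideVec A i) = 0 := by
  have n1 : i ≠ i + 1 := by fin_cases i <;> decide
  have n2 : i ≠ i + 2 := by fin_cases i <;> decide
  rw [sideVec, D_sub, L_ne hA n1, L_ne hA n2, sub_zero]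

theorem sideVec_ne_zero (hA : AffineIndependent ℝ A) (i : Fin 3) : sideVec A i ≠ 0 := by
  have n3 : i + 2 ≠ i + 1 := by fin_cases i <;> decide
  rw [sideVec, sub_ne_zero]
  intro h
  exact n3 (hA.injective h)

theorem mirror_eq_reflection (e v : Plane) : mirror e v = (ℝ ∙ e).reflection v := by
  rw [Submodule.reflection_singleton_apply, mirror]
  have h2 : ((‖e‖ : ℝ) : ℝ) ^ 2 = inner ℝ e e := by
    rw [real_inner_self_eq_norm_sq]
  congr 1
  rw [← h2, real_inner_comm, two_smul, mul_div_assoc, two_mul, add_smul]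
  rfl

theorem norm_mirror (e v : Plane) : ‖mirror e v‖ = ‖v‖ := by
  rw [mirror_eq_reflection]; exact LinearIsometryEquiv.norm_map _ _

theorem mirror_mirror (e v : Plane) : mirror e (mirror e v) = v := by
  rw [mirror_eq_reflection, mirror_eq_reflection]; exact Submodule.reflection_reflection _ _

theorem mirror_neg (e v : Plane) : mirror e (-v) = -mirror e v := by
  rw [mirror_eq_reflection, mirror_eq_reflection]; exact map_neg _ _

theorem mirror_smul (e v : Plane) (c : ℝ) : mirror e (c • v) = c • mirror e v := by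
  rw [mirror_eq_reflection, mirror_eq_reflection]; exact map_smul _ _ _

theorem mirror_add (e v w : Plane) : mirror e (v + w) = mirror e v + mirror e w := by
  rw [mirror_eq_reflection, mirror_eq_reflection, mirror_eq_reflection]; exact map_add _ _ _

theorem D_mirror (i : Fin 3) (w : Plane) :
    D hA i (mirror (sideVec A i) w) = - D hA i w := by
  rw [mirror, map_sub, map_smul, D_sideVec]
  simp

/-- reflection of the plane in the line of side `i` -/
noncomputable def sigma (A : Fin 3 → Plane) (i : Fin 3) : Plane ≃ᵃⁱ[ℝ] Plane :=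
  AffineIsometryEquiv.mk' (fun x => mirror (sideVec A i) (x - A (i + 1)) + A (i + 1))
    ((ℝ ∙ sideVec A i).reflection) (A (i + 1)) (by
      intro p'
      show mirror (sideVec A i) (p' - A (i + 1)) + A (i + 1) =
        (ℝ ∙ sideVec A i).reflection (p' - A (i + 1)) +
          (mirror (sideVec A i) (A (i + 1) - A (i + 1)) + A (i + 1))
      rw [sub_self, mirror_eq_reflection, mirror_eq_reflection, map_zero, zero_add])

theorem sigma_apply (i : Fin 3) (x : Plane) :
    sigma A i x = mirror (sideVec A i) (x - A (i + 1)) + A (i + 1) := rfl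

theorem sigma_lin (i : Fin 3) (v : Plane) :
    (sigma A i).linearIsometryEquiv v = mirror (sideVec A i) v := by
  rw [sigma, AffineIsometryEquiv.linearIsometryEquiv_mk', mirror_eq_reflection]

theorem L_sigma (i : Fin 3) (x : Plane) : L hA i (sigma A i x) = - L hA i x := by
  have n1 : i ≠ i + 1 := by fin_cases i <;> decide
  rw [sigma_apply, add_comm, L_add, D_mirror, D_sub, L_ne hA n1]
  ring

theorem sigma_eq_self {i : Fin 3} {x : Plane} (hA : AffineIndependent ℝ A) (h : L hA i x = 0) :
    sigma A i x = x := by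
  have n1 : i ≠ i + 1 := by fin_cases i <;> decide
  have n2 : i ≠ i + 2 := by fin_cases i <;> decide
  have n3 : i + 1 ≠ i + 2 := by fin_cases i <;> decide
  have key : x - A (i + 1) = L hA (i + 2) x • sideVec A i := by
    have hs : L hA i x + L hA (i + 1) x + L hA (i + 2) x = 1 := by
      have := L_sum hA x
      fin_cases i
      · simpa using this
      · have e1 : (1 : Fin 3) + 1 = 2 := rfl
        have e2 : (1 : Fin 3) + 2 = 0 := rfl
        simp only [Fin.mk_one, e1, e2]; linarith
      · have e1 : (2 : Fin 3) + 1 = 0 := rfl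
        have e2 : (2 : Fin 3) + 2 = 1 := rfl
        simp only [Fin.reduceFinMk, e1, e2]; linarith
    have : x = A (i + 1) + L hA (i + 2) x • sideVec A i := by
      apply eq_of_L hA
      intro j
      rw [L_add_smul, sideVec, D_sub]
      have hj' : j = i ∨ j = i + 1 ∨ j = i + 2 := fin3_b i j
      rcases hj' with rfl | rfl | rfl
      · rw [L_ne hA n1, L_ne hA n2, h]; ring
      · rw [L_self, L_ne hA n3]; linarith
      · rw [L_self, L_ne hA n3.symm]; ring
    nth_rewrite 1 [this]
    abel
  rw [sigma_apply, key, mirror_smul]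
  have hm : mirror (sideVec A i) (sideVec A i) = sideVec A i := by
    rw [mirror_eq_reflection]
    exact Submodule.reflection_mem_subspace_eq_self (Submodule.mem_span_singleton_self _)
  rw [hm, ← key]
  abel

theorem sigma_sigma (i : Fin 3) (x : Plane) : sigma A i (sigma A i x) = x := by
  rw [sigma_apply, sigma_apply, add_sub_cancel_right, mirror_mirror]
  abel

/-! ### unfolding -/

/-- The folding isometry of a word of sides (last letter first). -/
noncomputable def fold (A : Fin 3 → Plane) : List (Fin 3) → (Plane ≃ᵃⁱ[ℝ] Plane)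
  | [] => AffineIsometryEquiv.refl ℝ Plane
  | j :: w => (fold A w).trans (sigma A j)

/-- linear part of the folding isometry -/
noncomputable def lin (A : Fin 3 → Plane) (w : List (Fin 3)) : Plane ≃ₗᵢ[ℝ] Plane :=
  (fold A w).linearIsometryEquiv

@[simp] theorem fold_nil (x : Plane) : fold A [] x = x := rfl

@[simp] theorem fold_cons (j : Fin 3) (w : List (Fin 3)) (x : Plane) :
    fold A (j :: w) x = sigma A j (fold A w x) := rfl

@[simp] theorem lin_nil (x : Plane) : lin A [] x = x := by
  rw [lin, fold]; rfl

@[simp] theorem lin_cons (j : Fin 3) (w : List (Fin 3)) (v : Plane) :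
    lin A (j :: w) v = mirror (sideVec A j) (lin A w v) := by
  rw [← sigma_lin]; rfl

theorem fold_add (w : List (Fin 3)) (x v : Plane) : fold A w (x + v) = fold A w x + lin A w v := by
  have h := (fold A w).map_vadd x v
  rw [vadd_eq_add, vadd_eq_add, add_comm v x] at h
  rw [h, add_comm]; rfl

theorem fold_add_smul (w : List (Fin 3)) (x v : Plane) (s : ℝ) :
    fold A w (x + s • v) = fold A w x + s • lin A w v := by
  rw [fold_add, map_smul]

/-! ### exit and hitting lemmas -/

theorem vertex_of_two_zero {y : Plane} {i j : Fin 3} (hij : i ≠ j) (hi : L hA i y = 0)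
    (hj : L hA j y = 0) : ∃ k, y = A k := by
  have hs := L_sum hA y
  have : ∃ k, k ≠ i ∧ k ≠ j ∧ ∀ l, l = i ∨ l = j ∨ l = k := by
    revert hij; clear hi hj hs; revert i j; decide
  obtain ⟨k, hki, hkj, hl⟩ := this
  refine ⟨k, eq_of_L hA ?_⟩
  have hk : L hA k y = 1 := by
    have hsum : ∀ l : Fin 3, l ≠ k → L hA l y = 0 := by
      intro l hlk
      rcases hl l with rfl | rfl | rfl
      · exact hi
      · exact hj
      · exact absurd rfl hlk
    fin_cases k
    · have h1 := hsum 1 (by decide); have h2 := hsum 2 (by decide)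
      simp only [Fin.zero_eta]; linarith
    · have h1 := hsum 0 (by decide); have h2 := hsum 2 (by decide)
      simp only [Fin.mk_one]; linarith
    · have h1 := hsum 0 (by decide); have h2 := hsum 1 (by decide)
      simp only [Fin.reduceFinMk]; linarith
  intro l
  rcases hl l with rfl | rfl | rfl
  · rw [hi, L_ne hA hki.symm]
  · rw [hj, L_ne hA hkj.symm]
  · rw [hk, L_self]

/-- The exit lemma. -/
theorem exit {x w : Plane} (hw : w ≠ 0)
    (he : ∀ i, 0 < L hA i x ∨ (0 ≤ L hA i x ∧ 0 < D hA i w))
    (hv : ∀ s : ℝ, 0 < s → ∀ k, x + s • w ≠ A k) :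
    ∃ s : ℝ, 0 < s ∧ ∃ j, x + s • w ∈ openSide A j ∧ D hA j w < 0 ∧
      ∀ s', 0 < s' → s' < s → x + s' • w ∈ T A := by
  classical
  set N : Finset (Fin 3) := Finset.univ.filter (fun i => D hA i w < 0) with hN
  have hNe : N.Nonempty := by
    by_contra hne
    rw [Finset.not_nonempty_iff_eq_empty] at hne
    have hall : ∀ i, 0 ≤ D hA i w := by
      intro i
      by_contra hi
      have : i ∈ N := by rw [hN]; simp; linarith
      rw [hne] at this
      simp at this
    apply hw
    apply eq_zero_of_D hA
    have h0 := hall 0; have h1 := hall 1; have h2 := hall 2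
    have hs := D_sum hA w
    intro i
    fin_cases i
    · simp only [Fin.zero_eta]; linarith
    · simp only [Fin.mk_one]; linarith
    · simp only [Fin.reduceFinMk]; linarith
  obtain ⟨j, hjN, hmin⟩ := N.exists_min_image (fun i => L hA i x / (- D hA i w)) hNe
  have hDj : D hA j w < 0 := by rw [hN] at hjN; simpa using hjN
  have hLpos : ∀ i, D hA i w < 0 → 0 < L hA i x := by
    intro i hi
    rcases he i with h | h
    · exact h
    · exact absurd h.2 (not_lt.mpr hi.le)
  have hLj := hLpos j hDj
  have hspos : 0 < L hA j x / (- D hA j w) := div_pos hLj (by linarith)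
  set s := L hA j x / (- D hA j w) with hs
  have hsj : L hA j (x + s • w) = 0 := by
    rw [L_add_smul, hs]
    have : D hA j w ≠ 0 := hDj.ne
    field_simp
    ring
  have hin : ∀ s', 0 < s' → s' < s → ∀ i, 0 < L hA i (x + s' • w) := by
    intro s' h0 h1 i
    rw [L_add_smul]
    by_cases hi : D hA i w < 0
    · have hiN : i ∈ N := by rw [hN]; simpa using hi
      have h2 : s' < L hA i x / (- D hA i w) := lt_of_lt_of_le h1 (hmin i hiN)
      rw [lt_div_iff₀ (by linarith)] at h2
      linarith
    · push Not at hi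
      rcases he i with h | h
      · have := mul_nonneg h0.le hi; linarith
      · have := mul_pos h0 h.2; linarith [h.1]
  refine ⟨s, hspos, j, ?_, hDj, fun s' h0 h1 => (mem_T hA).mpr (hin s' h0 h1)⟩
  rw [mem_openSide hA]
  refine ⟨hsj, ?_⟩
  intro i hij
  rw [L_add_smul]
  by_cases hi : D hA i w < 0
  · have hiN : i ∈ N := by rw [hN]; simpa using hi
    have h2 := hmin i hiN
    rw [le_div_iff₀ (by linarith)] at h2
    have h3 : 0 ≤ L hA i x + s * D hA i w := by linarith
    rcases h3.lt_or_eq with h | h
    · exact h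
    · exfalso
      have h4 : L hA i (x + s • w) = 0 := by rw [L_add_smul]; exact h.symm
      obtain ⟨k, hk⟩ := vertex_of_two_zero hA hij h4 hsj
      exact hv s hspos k hk
  · push Not at hi
    rcases he i with h | h
    · have := mul_nonneg hspos.le hi; linarith
    · have := mul_pos hspos h.2; linarith [h.1]

/-- Uniqueness of the point where a ray hits the sides which it does not start on. -/
theorem hit_unique {x w : Plane} {s s' : ℝ} {j j' : Fin 3} (hA : AffineIndependent ℝ A)
    (hj : 0 < L hA j x) (hj' : 0 < L hA j' x)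
    (hs : 0 < s) (hs' : 0 < s') (h : x + s • w ∈ openSide A j) (h' : x + s' • w ∈ openSide A j') :
    s = s' ∧ j = j' := by
  have aux : ∀ {s s' : ℝ} {j j' : Fin 3}, 0 < L hA j x → 0 < s → s < s' →
      x + s • w ∈ openSide A j → x + s' • w ∈ openSide A j' → False := by
    intro s s' j j' hj hs hss h h'
    have h1 := ((mem_openSide hA).mp h).1
    have h2 := L_nonneg_of_openSide hA h' j
    rw [L_add_smul] at h1 h2
    have hD : D hA j w < 0 := by
      by_contra hD
      push Not at hD
      have := mul_nonneg hs.le hD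
      linarith
    have : (s' - s) * D hA j w < 0 := mul_neg_of_pos_of_neg (by linarith) hD
    nlinarith
  have hss : s = s' := by
    rcases lt_trichotomy s s' with h1 | h1 | h1
    · exact (aux hj hs h1 h h').elim
    · exact h1
    · exact (aux hj' hs' h1 h' h).elim
  refine ⟨hss, ?_⟩
  rw [← hss] at h'
  exact openSide_disjoint hA h h'

end Crest.Agent.R103.Fl
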