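import Crest.Agent.R103.FlGeo

/-!
# R103: forward half chains: existence of the sequence of collisions and no accumulation
-/

set_option autoImplicit false
open Crest.AnalysisR.Billiard Set Filter Topology

namespace Crest.Agent.R103.Fl

variable {A : Fin 3 → Plane}

/-- A one-sided sequence of collisions starting from the phase point `(x, v)`. -/
structure Half (A : Fin 3 → Plane) (hA : AffineIndependent ℝ A) (x v : Plane) where
  t : ℕ → ℝ
  q : ℕ → Plane
  side : ℕ → Fin 3
  u : ℕ → Plane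
  nonneg : 0 ≤ t 0
  mono : StrictMono t
  tend : Tendsto t atTop atTop
  mem : ∀ n, q n ∈ openSide A (side n)
  ne : ∀ n, side (n + 1) ≠ side n
  q0 : q 0 = x + t 0 • v
  u0 : u 0 = mirror (sideVec A (side 0)) v
  qs : ∀ n, q (n + 1) = q n + (t (n + 1) - t n) • u n
  us : ∀ n, u (n + 1) = mirror (sideVec A (side (n + 1))) (u n)
  D0 : D hA (side 0) v < 0

/-- entering states -/
def Ent (hA : AffineIndependent ℝ A) (x v : Plane) (p : List (Fin 3) × ℝ) : Prop :=
  ∀ i, 0 < L hA i (fold A p.1 (x + p.2 • v)) ∨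
    (0 ≤ L hA i (fold A p.1 (x + p.2 • v)) ∧ 0 < D hA i (lin A p.1 v))

/-- the line through `x` in the direction `v` avoids all unfolded vertices -/
def NV (A : Fin 3 → Plane) (x v : Plane) : Prop :=
  ∀ (w : List (Fin 3)) (s : ℝ) (k : Fin 3), fold A w (x + s • v) ≠ A k

theorem step (hA : AffineIndependent ℝ A) {x v : Plane} (hv : v ≠ 0) (hn : NV A x v)
    (p : {p // Ent hA x v p}) :
    ∃ (p' : {p // Ent hA x v p}) (j : Fin 3), p'.1.1 = j :: p.1.1 ∧ p.1.2 < p'.1.2 ∧
      fold A p.1.1 (x + p'.1.2 • v) ∈ openSide A j ∧ D hA j (lin A p.1.1 v) < 0 ∧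
      ∀ s, p.1.2 < s → s < p'.1.2 → fold A p.1.1 (x + s • v) ∈ T A := by
  obtain ⟨⟨w, τ⟩, hp⟩ := p
  have hlin : lin A w v ≠ 0 := by
    intro h
    apply hv
    rw [← norm_eq_zero, ← LinearIsometryEquiv.norm_map (lin A w) v, h, norm_zero]
  have hf : ∀ s : ℝ, fold A w (x + τ • v) + s • lin A w v = fold A w (x + (τ + s) • v) := by
    intro s
    rw [fold_add_smul, fold_add_smul, add_smul, add_assoc]
  obtain ⟨s, hs, j, hj, hD, hin⟩ := exit hA hlin hp (by
    intro s _ k
    rw [hf]
    exact hn w (τ + s) k)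
  rw [hf] at hj
  have hL0 := ((mem_openSide hA).mp hj).1
  have hfix : fold A (j :: w) (x + (τ + s) • v) = fold A w (x + (τ + s) • v) := by
    rw [fold_cons, sigma_eq_self hA hL0]
  refine ⟨⟨(j :: w, τ + s), ?_⟩, j, rfl, by simp; exact hs, hj, hD, ?_⟩
  · intro i
    show 0 < L hA i (fold A (j :: w) (x + (τ + s) • v)) ∨
      (0 ≤ L hA i (fold A (j :: w) (x + (τ + s) • v)) ∧ 0 < D hA i (lin A (j :: w) v))
    rw [hfix]
    by_cases hij : i = j
    · right
      refine ⟨by rw [hij, hL0], ?_⟩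
      rw [lin_cons, hij, D_mirror]
      linarith
    · left
      exact ((mem_openSide hA).mp hj).2 i hij
  · intro s' h1 h2
    have h3 := hin (s' - τ) (by simp at h1; linarith) (by simp at h2; linarith)
    rw [hf] at h3
    simpa using h3

section seq
variable (hA : AffineIndependent ℝ A) {x v : Plane} (hv : v ≠ 0) (hn : NV A x v)
  (h0 : Ent hA x v ([], 0))

/-- the sequence of (word, time) of the forward orbit -/
noncomputable def sq : ℕ → {p // Ent hA x v p}
  | 0 => ⟨([], 0), h0⟩
  | n + 1 => (step hA hv hn (sq n)).choose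

/-- the sides hit -/
noncomputable def sd (n : ℕ) : Fin 3 := (step hA hv hn (sq hA hv hn h0 n)).choose_spec.choose

theorem sq_spec (n : ℕ) :
    (sq hA hv hn h0 (n + 1)).1.1 = sd hA hv hn h0 n :: (sq hA hv hn h0 n).1.1 ∧
    (sq hA hv hn h0 n).1.2 < (sq hA hv hn h0 (n + 1)).1.2 ∧
      fold A (sq hA hv hn h0 n).1.1 (x + (sq hA hv hn h0 (n + 1)).1.2 • v) ∈
        openSide A (sd hA hv hn h0 n) ∧
      D hA (sd hA hv hn h0 n) (lin A (sq hA hv hn h0 n).1.1 v) < 0 ∧
      ∀ s, (sq hA hv hn h0 n).1.2 < s → s < (sq hA hv hn h0 (n + 1)).1.2 →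
        fold A (sq hA hv hn h0 n).1.1 (x + s • v) ∈ T A :=
  (step hA hv hn (sq hA hv hn h0 n)).choose_spec.choose_spec

/-- word -/
noncomputable def wd (n : ℕ) : List (Fin 3) := (sq hA hv hn h0 n).1.1
/-- time -/
noncomputable def tm (n : ℕ) : ℝ := (sq hA hv hn h0 n).1.2

theorem wd_zero : wd hA hv hn h0 0 = [] := rfl
theorem tm_zero : tm hA hv hn h0 0 = 0 := rfl
theorem wd_succ (n : ℕ) : wd hA hv hn h0 (n + 1) = sd hA hv hn h0 n :: wd hA hv hn h0 n :=
  (sq_spec hA hv hn h0 n).1
theorem tm_lt (n : ℕ) : tm hA hv hn h0 n < tm hA hv hn h0 (n + 1) := (sq_spec hA hv hn h0 n).2.1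
theorem mem_sd (n : ℕ) : fold A (wd hA hv hn h0 n) (x + tm hA hv hn h0 (n + 1) • v) ∈
    openSide A (sd hA hv hn h0 n) := (sq_spec hA hv hn h0 n).2.2.1
theorem D_sd (n : ℕ) : D hA (sd hA hv hn h0 n) (lin A (wd hA hv hn h0 n) v) < 0 :=
  (sq_spec hA hv hn h0 n).2.2.2.1
theorem mem_T_of (n : ℕ) {s : ℝ} (h1 : tm hA hv hn h0 n < s) (h2 : s < tm hA hv hn h0 (n + 1)) :
    fold A (wd hA hv hn h0 n) (x + s • v) ∈ T A := (sq_spec hA hv hn h0 n).2.2.2.2 s h1 h2

theorem tm_mono : StrictMono (tm hA hv hn h0) := strictMono_nat_of_lt_succ (tm_lt hA hv hn h0)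

theorem fold_eq (n : ℕ) : fold A (wd hA hv hn h0 (n + 1)) (x + tm hA hv hn h0 (n + 1) • v) =
    fold A (wd hA hv hn h0 n) (x + tm hA hv hn h0 (n + 1) • v) := by
  rw [wd_succ, fold_cons, sigma_eq_self hA ((mem_openSide hA).mp (mem_sd hA hv hn h0 n)).1]

theorem sd_ne (n : ℕ) : sd hA hv hn h0 (n + 1) ≠ sd hA hv hn h0 n := by
  intro h
  have h1 := D_sd hA hv hn h0 (n + 1)
  have h2 := D_sd hA hv hn h0 n
  rw [h, wd_succ, lin_cons, D_mirror] at h1
  linarith

/-- collision points -/
noncomputable def qq (n : ℕ) : Plane :=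
  fold A (wd hA hv hn h0 n) (x + tm hA hv hn h0 (n + 1) • v)

theorem qq_succ (n : ℕ) : qq hA hv hn h0 (n + 1) = qq hA hv hn h0 n +
    (tm hA hv hn h0 (n + 2) - tm hA hv hn h0 (n + 1)) • lin A (wd hA hv hn h0 (n + 1)) v := by
  have e1 : qq hA hv hn h0 n =
      fold A (wd hA hv hn h0 (n + 1)) (x + tm hA hv hn h0 (n + 1) • v) :=
    (fold_eq hA hv hn h0 n).symm
  rw [e1]
  show fold A (wd hA hv hn h0 (n + 1)) (x + tm hA hv hn h0 (n + 2) • v) = _
  rw [fold_add_smul, fold_add_smul, sub_smul]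
  abel

/-- No accumulation of collision times. -/
theorem tm_tendsto (hv1 : ‖v‖ = 1) : Tendsto (tm hA hv hn h0) atTop atTop := by
  have hmono := (tm_mono hA hv hn h0).monotone
  rcases tendsto_atTop_of_monotone hmono with h | ⟨tl, htl⟩
  · exact h
  exfalso
  set t := tm hA hv hn h0 with ht
  set q := qq hA hv hn h0 with hq
  set sdd := sd hA hv hn h0 with hsd
  have hdist : ∀ n, dist (q n) (q (n + 1)) ≤ t (n + 2) - t (n + 1) := by
    intro n
    rw [dist_comm, dist_eq_norm, hq, qq_succ, add_sub_cancel_left, norm_smul,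
      LinearIsometryEquiv.norm_map, hv1, mul_one, Real.norm_eq_abs, abs_of_nonneg]
    have := tm_lt hA hv hn h0 (n + 1)
    linarith
  have hle : ∀ n, t n ≤ tl := fun n => hmono.ge_of_tendsto htl n
  have hcau : CauchySeq q := by
    apply cauchySeq_of_dist_le_of_summable (fun n => t (n + 2) - t (n + 1)) hdist
    refine summable_of_sum_range_le (c := tl - t 1) ?_ ?_
    · intro n
      have := tm_lt hA hv hn h0 (n + 1)
      linarith
    · intro n
      rw [Finset.sum_range_sub (fun n => t (n + 1)) n]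
      have := hle (n + 1)
      simp only [zero_add]
      linarith
  obtain ⟨ql, hql⟩ := cauchySeq_tendsto_of_complete hcau
  have hLq : ∀ i, Tendsto (fun n => L hA i (q n)) atTop (𝓝 (L hA i ql)) := fun i =>
    ((L_continuous hA i).tendsto ql).comp hql
  have hmem : ∀ n, q n ∈ openSide A (sdd n) := fun n => mem_sd hA hv hn h0 n
  have hne : ∀ i, 0 < L hA i ql → ∀ᶠ n in atTop, sdd n ≠ i := by
    intro i hi
    filter_upwards [(hLq i).eventually (lt_mem_nhds hi)] with n hn' hcon
    have := ((mem_openSide hA).mp (hmem n)).1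
    rw [hcon] at this
    rw [this] at hn'
    exact lt_irrefl _ hn'
  have hnn : ∀ i, 0 ≤ L hA i ql := by
    intro i
    refine ge_of_tendsto (hLq i) (Eventually.of_forall (fun n => ?_))
    exact L_nonneg_of_openSide hA (hmem n) i
  obtain ⟨k, hk⟩ : ∃ k, 0 < L hA k ql := by
    by_contra hcon
    push Not at hcon
    have h1 := L_sum hA ql
    have := hcon 0; have := hcon 1; have := hcon 2
    linarith
  have hzero : ∀ l, l ≠ k → L hA l ql = 0 := by
    intro l hl
    by_contra hcon
    have hpos : 0 < L hA l ql := lt_of_le_of_ne (hnn l) (Ne.symm hcon)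
    obtain ⟨N, hN⟩ := eventually_atTop.mp ((hne l hpos).and (hne k hk))
    have h1 := hN N le_rfl
    have h2 := hN (N + 1) (by omega)
    have h3 := sd_ne hA hv hn h0 N
    have : ∀ a b l k : Fin 3, l ≠ k → a ≠ l → a ≠ k → b ≠ l → b ≠ k → a = b := by decide
    exact h3 (this _ _ l k hl h2.1 h2.2 h1.1 h1.2)
  have hqk : ql = A k := by
    apply eq_of_L hA
    intro l
    by_cases hl : l = k
    · rw [hl, L_self]
      have h1 := L_sum hA ql
      clear hl
      fin_cases k
      · have := hzero 1 (by decide); have := hzero 2 (by decide)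
        simp only [Fin.zero_eta]; linarith
      · have := hzero 0 (by decide); have := hzero 2 (by decide)
        simp only [Fin.mk_one]; linarith
      · have := hzero 0 (by decide); have := hzero 1 (by decide)
        simp only [Fin.reduceFinMk]; linarith
    · rw [hzero l hl, L_ne hA hl]
  obtain ⟨N, hN⟩ := eventually_atTop.mp (hne k hk)
  set a := (fold A (wd hA hv hn h0 N)).symm (A k) with ha
  have hconst : ∀ m, fold A (wd hA hv hn h0 (N + m)) a = A k := by
    intro m
    induction m with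
    | zero => rw [ha]; exact AffineIsometryEquiv.apply_symm_apply _ _
    | succ m ih =>
      rw [← add_assoc, wd_succ, fold_cons, ih]
      exact sigma_eq_self hA (L_ne hA (hN (N + m) (by omega)))
  have hd : ∀ m, dist (x + t (N + m + 1) • v) a = dist (q (N + m)) (A k) := by
    intro m
    rw [← (fold A (wd hA hv hn h0 (N + m))).dist_map (x + t (N + m + 1) • v) a, hconst]
    rfl
  have l1 : Tendsto (fun m => dist (x + t (N + m + 1) • v) a) atTop (𝓝 0) := by
    simp_rw [hd]
    have h1 : Tendsto (fun m => q (N + m)) atTop (𝓝 ql) := by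
      have := hql.comp (tendsto_add_atTop_nat N)
      refine this.congr (fun m => ?_)
      simp [add_comm]
    have h2 := h1.dist (tendsto_const_nhds (x := A k))
    rw [hqk, dist_self] at h2
    exact h2
  have l2 : Tendsto (fun m => dist (x + t (N + m + 1) • v) a) atTop (𝓝 (dist (x + tl • v) a)) := by
    have h1 : Tendsto (fun m => t (N + m + 1)) atTop (𝓝 tl) := by
      have := htl.comp (tendsto_add_atTop_nat (N + 1))
      refine this.congr (fun m => ?_)
      show t (m + (N + 1)) = t (N + m + 1)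
      congr 1
      ring
    exact ((h1.smul_const v).const_add x).dist tendsto_const_nhds
  have h3 : dist (x + tl • v) a = 0 := tendsto_nhds_unique l2 l1
  rw [dist_eq_zero] at h3
  have h4 := hn (wd hA hv hn h0 N) tl k
  apply h4
  rw [h3, ha]
  exact AffineIsometryEquiv.apply_symm_apply _ _

/-- The forward half chain. -/
noncomputable def fwd (hv1 : ‖v‖ = 1) : Half A hA x v where
  t n := tm hA hv hn h0 (n + 1)
  q n := qq hA hv hn h0 n
  side n := sd hA hv hn h0 n
  u n := lin A (wd hA hv hn h0 (n + 1)) v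
  nonneg := by
    have := tm_lt hA hv hn h0 0
    rw [tm_zero] at this
    exact this.le
  mono := by
    intro a b hab
    exact tm_mono hA hv hn h0 (by omega)
  tend := (tm_tendsto hA hv hn h0 hv1).comp (tendsto_add_atTop_nat 1)
  mem n := mem_sd hA hv hn h0 n
  ne n := sd_ne hA hv hn h0 n
  q0 := by
    show qq hA hv hn h0 0 = _
    rw [qq, wd_zero, fold_nil]
  u0 := by
    show lin A (wd hA hv hn h0 1) v = _
    rw [wd_succ, lin_cons, wd_zero, lin_nil]
  qs n := qq_succ hA hv hn h0 n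
  us n := by
    show lin A (wd hA hv hn h0 (n + 1 + 1)) v = _
    rw [wd_succ, lin_cons]
  D0 := by
    have := D_sd hA hv hn h0 0
    rw [wd_zero, lin_nil] at this
    exact this

theorem fwd_pos (hv1 : ‖v‖ = 1) : 0 < (fwd hA hv hn h0 hv1).t 0 := by
  show 0 < tm hA hv hn h0 1
  have := tm_lt hA hv hn h0 0
  rwa [tm_zero] at this

end seq

/-- existence of forward half chains -/
theorem exists_fwd (hA : AffineIndependent ℝ A) {x v : Plane} (hv1 : ‖v‖ = 1) (hn : NV A x v)
    (h0 : ∀ i, 0 < L hA i x ∨ (0 ≤ L hA i x ∧ 0 < D hA i v)) :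
    ∃ H : Half A hA x v, 0 < H.t 0 := by
  have hv : v ≠ 0 := by
    intro h; rw [h, norm_zero] at hv1; exact zero_ne_one hv1
  have h0' : Ent hA x v ([], 0) := by
    intro i
    have := h0 i
    simpa using this
  exact ⟨fwd hA hv hn h0' hv1, fwd_pos hA hv hn h0' hv1⟩

end Crest.Agent.R103.Fl
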