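import Crest.Agent.R103.IfaceG
import Crest.Agent.R103.Br1

/-!
# R103: base for H7 / H8: reflections of frames, straight translation
-/

open MeasureTheory Filter Topology
open Crest.AnalysisR.Billiard

noncomputable section

namespace Crest.Agent.R103

namespace FB

lemma mirror_zero_left (v : Plane) : mirror 0 v = -v := by
  simp [mirror]

lemma mirror_mirror {e : Plane} (he : e ≠ 0) (v : Plane) : mirror e (mirror e v) = v := by
  have h0 : inner ℝ e e ≠ (0 : ℝ) := by
    simpa using he
  unfold mirror
  rw [inner_sub_left, inner_smul_left]
  simp only [conj_trivial]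
  have : (2 * (2 * inner ℝ v e / inner ℝ e e * inner ℝ e e - inner ℝ v e) / inner ℝ e e : ℝ)
      = 2 * inner ℝ v e / inner ℝ e e := by
    field_simp
    ring
  rw [this]; abel

/-- `mirror e` as a linear isometry equivalence (also for `e = 0`, where it is `-id`) -/
def mirL (e : Plane) : Plane →ₗ[ℝ] Plane where
  toFun := mirror e
  map_add' v w := by
    unfold mirror; rw [inner_add_left, mul_add, add_div, add_smul]; abel
  map_smul' c v := by
    unfold mirror
    rw [inner_smul_left]
    simp only [conj_trivial, RingHom.id_apply]
    rw [smul_sub, smul_smul]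
    congr 2
    ring

lemma norm_mirror (e v : Plane) : ‖mirror e v‖ = ‖v‖ := by
  by_cases he : e = 0
  · subst he; rw [mirror_zero_left, norm_neg]
  have h0 : inner ℝ e e ≠ (0 : ℝ) := by simpa using he
  have h1 : ‖mirror e v‖ ^ 2 = ‖v‖ ^ 2 := by
    rw [← real_inner_self_eq_norm_sq, ← real_inner_self_eq_norm_sq]
    unfold mirror
    rw [inner_sub_left, inner_sub_right, inner_sub_right, inner_smul_left, inner_smul_right,
      inner_smul_left, inner_smul_right]
    simp only [conj_trivial]
    rw [real_inner_comm v e]
    field_simp
    ring
  exact (sq_eq_sq₀ (norm_nonneg _) (norm_nonneg _)).1 h1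

lemma mir_invol (e v : Plane) : mirror e (mirror e v) = v := by
  by_cases he : e = 0
  · subst he; simp [mirror_zero_left]
  · exact mirror_mirror he v

def mirE (e : Plane) : Plane ≃ₗᵢ[ℝ] Plane where
  toLinearEquiv := LinearEquiv.ofInvolutive (mirL e) (fun v => mir_invol e v)
  norm_map' v := norm_mirror e v

@[simp] lemma mirE_apply (e v : Plane) : mirE e v = mirror e v := rfl

/-- mirror image on the unit sphere -/
def mirS (e : Plane) (v : ↥(Metric.sphere (0 : Plane) 1)) : ↥(Metric.sphere (0 : Plane) 1) :=
  Br.sphMap (mirE e) v

@[simp] lemma coe_mirS (e : Plane) (v : ↥(Metric.sphere (0 : Plane) 1)) :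
    ((mirS e v : ↥(Metric.sphere (0 : Plane) 1)) : Plane) = mirror e v := rfl

lemma mirS_mirS (e : Plane) (v : ↥(Metric.sphere (0 : Plane) 1)) : mirS e (mirS e v) = v := by
  ext1; exact mir_invol e v

lemma mirS_continuous (e : Plane) : Continuous (mirS e) := Br.sphMap_continuous _

lemma mirS_mp (e : Plane) :
    MeasurePreserving (mirS e) (volume : Measure Plane).toSphere
      (volume : Measure Plane).toSphere := Br.sphMap_mp _

/-- straight translation of a frame -/
def Str (t : ℝ) (z : Phase × Bool) : Phase × Bool :=
  ((z.1.1 + t • (z.1.2 : Plane), z.1.2), z.2)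

/-- reflection of a frame in side `i` -/
def Rf (A : Fin 3 → Plane) (i : Fin 3) (z : Phase × Bool) : Phase × Bool :=
  ((refl A i z.1.1, mirS (sideVec A i) z.1.2), !z.2)

/-- reflections along a word -/
def RW (A : Fin 3 → Plane) : List (Fin 3) → Phase × Bool → Phase × Bool
  | [], z => z
  | i :: w, z => RW A w (Rf A i z)

lemma RW_pos (A : Fin 3 → Plane) (w : List (Fin 3)) (z : Phase × Bool) :
    (RW A w z).1.1 = reflW A w z.1.1 := by
  induction w generalizing z with
  | nil => rfl
  | cons i w ih => rw [RW, ih]; rfl

lemma RW_vel (A : Fin 3 → Plane) (w : List (Fin 3)) (z : Phase × Bool) :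
    ((RW A w z).1.2 : Plane) = mirW A w (z.1.2 : Plane) := by
  induction w generalizing z with
  | nil => rfl
  | cons i w ih => rw [RW, ih]; rfl

lemma RW_par (A : Fin 3 → Plane) (w : List (Fin 3)) (z : Phase × Bool) :
    (RW A w z).2 = xor z.2 (decide (Odd (w.length : ℤ))) := by
  induction w generalizing z with
  | nil => simp [RW]
  | cons i w ih =>
    rw [RW, ih]
    simp only [Rf, List.length_cons, Nat.cast_add, Nat.cast_one]
    have : decide (Odd ((w.length : ℤ) + 1)) = !decide (Odd (w.length : ℤ)) := by
      by_cases h : Odd (w.length : ℤ)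
      · have h' : ¬ Odd ((w.length : ℤ) + 1) := by
          rw [Int.not_odd_iff_even]; exact h.add_one
        simp only [h, h', decide_true, decide_false, Bool.not_true]
      · have h' : Odd ((w.length : ℤ) + 1) := (Int.not_odd_iff_even.1 h).add_one
        simp only [h, h', decide_true, decide_false, Bool.not_false]
    rw [this]
    cases z.2 <;> cases decide (Odd (w.length : ℤ)) <;> rfl

/-! ### measures -/

instance sfp : SigmaFinite ((volume : Measure Plane).prod (volume : Measure Plane).toSphere) :=
  Measure.prod.instSigmaFinite

/-- Lebesgue × arc length × counting on all frames of the plane -/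
def lam : Measure (Phase × Bool) :=
  ((volume : Measure Plane).prod (volume : Measure Plane).toSphere).prod Measure.count

instance : SFinite lam := by unfold lam; infer_instance

lemma not_mp : MeasurePreserving (fun b : Bool => !b) Measure.count Measure.count := by
  refine ⟨measurable_of_countable _, ?_⟩
  ext s hs
  rw [Measure.map_apply (measurable_of_countable _) hs]
  have : (fun b : Bool => !b) ⁻¹' s = (fun b : Bool => !b) '' s := by
    ext b
    constructor
    · intro h; exact ⟨!b, h, by simp⟩
    · rintro ⟨c, hc, rfl⟩; simpa using hc
  rw [this, Measure.count_apply (MeasurableSet.of_discrete), Measure.count_apply hs]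
  congr 1
  have hi : Function.Injective (fun b : Bool => !b) := fun a b h => by simpa using h
  exact hi.encard_image s

lemma Rf_mp (hG : StG2) {A : Fin 3 → Plane} (hA : AffineIndependent ℝ A) (i : Fin 3) :
    MeasurePreserving (Rf A i) lam lam := by
  obtain ⟨-, -, -, -, -, -, -, -, -, -, -, -, h⟩ := hG A hA i
  exact (h.prod (mirS_mp (sideVec A i))).prod not_mp

lemma RW_mp (hG : StG2) {A : Fin 3 → Plane} (hA : AffineIndependent ℝ A) (w : List (Fin 3)) :
    MeasurePreserving (RW A w) lam lam := by
  induction w with
  | nil => exact MeasurePreserving.id _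
  | cons i w ih => exact ih.comp (Rf_mp hG hA i)

lemma Str_measurable : Measurable (fun p : ℝ × (Phase × Bool) => Str p.1 p.2) := by
  unfold Str
  fun_prop

lemma Str_mp (t : ℝ) : MeasurePreserving (Str t) lam lam := by
  have h1 : MeasurePreserving
      (fun p : Phase => ((p.1 + t • (p.2 : Plane), p.2) : Phase))
      ((volume : Measure Plane).prod (volume : Measure Plane).toSphere)
      ((volume : Measure Plane).prod (volume : Measure Plane).toSphere) := by
    have h2 : MeasurePreserving
        (fun p : ↥(Metric.sphere (0 : Plane) 1) × Plane => (p.1, p.2 + t • (p.1 : Plane)))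
        ((volume : Measure Plane).toSphere.prod (volume : Measure Plane))
        ((volume : Measure Plane).toSphere.prod (volume : Measure Plane)) := by
      refine MeasurePreserving.skew_product (μa := (volume : Measure Plane).toSphere)
        (μb := (volume : Measure Plane).toSphere) (μc := (volume : Measure Plane))
        (μd := (volume : Measure Plane)) (f := id)
        (g := fun v x => x + t • (v : Plane)) (MeasurePreserving.id _) ?_ ?_
      · fun_prop
      · exact Eventually.of_forall fun v =>
          (measurePreserving_add_right (volume : Measure Plane) (t • (v : Plane))).map_eq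
    have s1 : MeasurePreserving
        (Prod.swap : Plane × ↥(Metric.sphere (0 : Plane) 1) → ↥(Metric.sphere (0 : Plane) 1) × Plane)
        ((volume : Measure Plane).prod (volume : Measure Plane).toSphere)
        ((volume : Measure Plane).toSphere.prod (volume : Measure Plane)) :=
      Measure.measurePreserving_swap
    have s2 : MeasurePreserving
        (Prod.swap : ↥(Metric.sphere (0 : Plane) 1) × Plane → Plane × ↥(Metric.sphere (0 : Plane) 1))
        ((volume : Measure Plane).toSphere.prod (volume : Measure Plane))
        ((volume : Measure Plane).prod (volume : Measure Plane).toSphere) :=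
      Measure.measurePreserving_swap
    exact (s2.comp h2).comp s1
  exact h1.prod (MeasurePreserving.id _)

lemma Str_Str (s t : ℝ) (z : Phase × Bool) : Str s (Str t z) = Str (s + t) z := by
  simp only [Str]
  rw [add_smul, add_assoc, add_comm (t • _)]

lemma Str_zero (z : Phase × Bool) : Str 0 z = z := by
  simp [Str]

lemma Rf_Rf (hG : StG2) {A : Fin 3 → Plane} (hA : AffineIndependent ℝ A) (i : Fin 3)
    (z : Phase × Bool) : Rf A i (Rf A i z) = z := by
  have h := (hG A hA i).1
  simp only [Rf, h, mirS_mirS, Bool.not_not]

lemma RW_inj (hG : StG2) {A : Fin 3 → Plane} (hA : AffineIndependent ℝ A) (w : List (Fin 3)) :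
    Function.Injective (RW A w) := by
  induction w with
  | nil => exact Function.injective_id
  | cons i w ih =>
    intro z z' h
    have h1 := ih h
    have h2 := congrArg (Rf A i) h1
    rwa [Rf_Rf hG hA, Rf_Rf hG hA] at h2

lemma Str_inj (t : ℝ) : Function.Injective (Str t) := by
  intro z z' h
  have := congrArg (Str (-t)) h
  rwa [Str_Str, Str_Str, neg_add_cancel, Str_zero, Str_zero] at this

/-- `μM A` is the restriction of `lam` to the open triangle -/
lemma muM_eq (A : Fin 3 → Plane) :
    μM A = lam.restrict {z : Phase × Bool | z.1.1 ∈ interior (convexHull ℝ (Set.range A))} := by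
  unfold μM phaseMeasure lam
  have h1 : ((volume : Measure Plane).restrict
      (interior (convexHull ℝ (Set.range A)))).prod (volume : Measure Plane).toSphere
      = ((volume : Measure Plane).prod (volume : Measure Plane).toSphere).restrict
        ((interior (convexHull ℝ (Set.range A))) ×ˢ Set.univ) := by
    rw [← Measure.prod_restrict, Measure.restrict_univ]
  rw [h1]
  conv_lhs => rw [← Measure.restrict_univ (μ := (Measure.count : Measure Bool))]
  rw [Measure.prod_restrict]
  congr 1
  ext z
  simp

end FB

end Crest.Agent.R103
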