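import Mathlib

/-!
# R103: the fundamental domain construction (abstract billiard flow)

`X` is a space of "parametrised lines", `sh t` the translation along the line, `F` the map which
reflects a line in the side through which it leaves the table, `a` the time at which the line enters
the table (so that `a (F z)` is the time at which the line `z` leaves it). `D` is the set of good
lines whose parameter `0` lies in the table, a fundamental domain of the action of `F`. The flow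
`phi t z` is `F ^ k (sh t z)` for the unique `k` for which this is in `D`.
-/

open MeasureTheory Filter Topology Set

noncomputable section

namespace Crest.Agent.R103.Fold

/-- data of the construction -/
structure FoldSys (X : Type*) [MeasurableSpace X] (lam : Measure X) where
  /-- translation along the line -/
  sh : ℝ → X → X
  /-- reflection of the line in its exit side (anything off `G`) -/
  F : Equiv.Perm X
  /-- the good lines -/
  G : Set X
  /-- entry time -/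
  a : X → ℝ
  sh_meas : Measurable (fun p : ℝ × X => sh p.1 p.2)
  sh_zero : ∀ z, sh 0 z = z
  sh_add : ∀ s t z, sh (s + t) z = sh s (sh t z)
  sh_mp : ∀ t, MeasurePreserving (sh t) lam lam
  F_mp : MeasurePreserving F lam lam
  F_symm_meas : Measurable F.symm
  G_meas : MeasurableSet G
  G_sh : ∀ t, ∀ z ∈ G, sh t z ∈ G
  G_F : ∀ z ∈ G, F z ∈ G
  G_symm : ∀ z ∈ G, F.symm z ∈ G
  F_sh : ∀ t, ∀ z ∈ G, F (sh t z) = sh t (F z)
  a_meas : Measurable a
  a_sh : ∀ t, ∀ z ∈ G, a (sh t z) = a z - t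
  a_lt : ∀ z ∈ G, a z < a (F z)
  a_top : ∀ z ∈ G, Tendsto (fun k : ℕ => a ((F ^ k) z)) atTop atTop
  a_bot : ∀ z ∈ G, Tendsto (fun k : ℕ => a ((F.symm ^ k) z)) atTop atBot

namespace FoldSys

variable {X : Type*} [MeasurableSpace X] {lam : Measure X} (S : FoldSys X lam)

/-- the fundamental domain -/
def D : Set X := {z | z ∈ S.G ∧ S.a z ≤ 0 ∧ 0 < S.a (S.F z)}

lemma F_meas : Measurable S.F := S.F_mp.measurable

lemma D_subset : S.D ⊆ S.G := fun _ h => h.1

lemma D_meas : MeasurableSet S.D :=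
  S.G_meas.inter ((S.a_meas measurableSet_Iic).inter ((S.a_meas.comp S.F_meas) measurableSet_Ioi))

lemma G_zpow (n : ℤ) {z : X} (hz : z ∈ S.G) : (S.F ^ n) z ∈ S.G := by
  have key : ∀ (n : ℕ) (z : X), z ∈ S.G → (S.F ^ n) z ∈ S.G ∧ ((S.F ^ n)⁻¹) z ∈ S.G := by
    intro n
    induction n with
    | zero => intro z hz; simpa using hz
    | succ n ih =>
      intro z hz
      constructor
      · rw [pow_succ, Equiv.Perm.mul_apply]; exact (ih _ (S.G_F z hz)).1
      · rw [pow_succ', mul_inv_rev, Equiv.Perm.mul_apply]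
        exact (ih _ (S.G_symm z hz)).2
  obtain ⟨m, rfl | rfl⟩ := n.eq_nat_or_neg
  · simpa using (key m z hz).1
  · simpa using (key m z hz).2

lemma G_symm_sh (t : ℝ) {z : X} (hz : z ∈ S.G) : S.F.symm (S.sh t z) = S.sh t (S.F.symm z) := by
  apply S.F.injective
  rw [Equiv.apply_symm_apply, S.F_sh t _ (S.G_symm z hz), Equiv.apply_symm_apply]

lemma zpow_sh (n : ℤ) (t : ℝ) {z : X} (hz : z ∈ S.G) :
    (S.F ^ n) (S.sh t z) = S.sh t ((S.F ^ n) z) := by
  have key : ∀ (n : ℕ) (z : X), z ∈ S.G → (S.F ^ n) (S.sh t z) = S.sh t ((S.F ^ n) z) ∧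
      ((S.F ^ n)⁻¹) (S.sh t z) = S.sh t (((S.F ^ n)⁻¹) z) := by
    intro n
    induction n with
    | zero => intro z hz; simp
    | succ n ih =>
      intro z hz
      constructor
      · rw [pow_succ, Equiv.Perm.mul_apply, Equiv.Perm.mul_apply, S.F_sh t z hz]
        exact (ih _ (S.G_F z hz)).1
      · rw [pow_succ', mul_inv_rev, Equiv.Perm.mul_apply, Equiv.Perm.mul_apply]
        have : (S.F⁻¹) (S.sh t z) = S.sh t ((S.F⁻¹) z) := S.G_symm_sh t hz
        rw [this]
        exact (ih _ (S.G_symm z hz)).2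
  obtain ⟨m, rfl | rfl⟩ := n.eq_nat_or_neg
  · simpa using (key m z hz).1
  · simpa using (key m z hz).2

lemma sh_neg_sh (t : ℝ) (z : X) : S.sh (-t) (S.sh t z) = z := by
  rw [← S.sh_add, neg_add_cancel, S.sh_zero]

lemma sh_sh_neg (t : ℝ) (z : X) : S.sh t (S.sh (-t) z) = z := by
  rw [← S.sh_add, add_neg_cancel, S.sh_zero]

/-- collision times -/
def A (z : X) (n : ℤ) : ℝ := S.a ((S.F ^ n) z)

lemma A_zero (z : X) : S.A z 0 = S.a z := by simp [A]

lemma A_one (z : X) : S.A z 1 = S.a (S.F z) := by simp [A]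

lemma A_zpow (m n : ℤ) (z : X) : S.A ((S.F ^ m) z) n = S.A z (n + m) := by
  unfold A
  rw [zpow_add, Equiv.Perm.mul_apply]

lemma A_sh (t : ℝ) {z : X} (hz : z ∈ S.G) (n : ℤ) : S.A (S.sh t z) n = S.A z n - t := by
  unfold A
  rw [S.zpow_sh n t hz, S.a_sh t _ (S.G_zpow n hz)]

lemma A_lt {z : X} (hz : z ∈ S.G) (n : ℤ) : S.A z n < S.A z (n + 1) := by
  unfold A
  have := S.a_lt _ (S.G_zpow n hz)
  rwa [← Equiv.Perm.mul_apply, ← zpow_one_add, add_comm 1 n] at this

lemma A_strictMono {z : X} (hz : z ∈ S.G) : StrictMono (S.A z) :=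
  strictMono_int_of_lt_succ (S.A_lt hz)

lemma A_top {z : X} (hz : z ∈ S.G) : Tendsto (S.A z) atTop atTop := by
  refine tendsto_atTop_atTop.2 fun b => ?_
  obtain ⟨k, hk⟩ := ((S.a_top z hz).eventually_ge_atTop b).exists
  refine ⟨k, fun n hn => ?_⟩
  have : S.A z k ≤ S.A z n := (S.A_strictMono hz).monotone hn
  refine le_trans ?_ this
  simpa [A] using hk

lemma A_bot {z : X} (hz : z ∈ S.G) : Tendsto (S.A z) atBot atBot := by
  refine tendsto_atBot_atBot.2 fun b => ?_
  obtain ⟨k, hk⟩ := ((S.a_bot z hz).eventually_le_atBot b).exists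
  refine ⟨-(k : ℤ), fun n hn => ?_⟩
  have : S.A z n ≤ S.A z (-(k : ℤ)) := (S.A_strictMono hz).monotone hn
  refine le_trans this ?_
  have e : (S.F ^ (-(k : ℤ))) = S.F.symm ^ k := by
    rw [zpow_neg, zpow_natCast, ← inv_pow]; rfl
  simpa [A, e] using hk

lemma zpow_mem_D_iff {z : X} (hz : z ∈ S.G) (n : ℤ) :
    (S.F ^ n) z ∈ S.D ↔ S.A z n ≤ 0 ∧ 0 < S.A z (n + 1) := by
  have e : S.a (S.F ((S.F ^ n) z)) = S.A z (n + 1) := by
    unfold A
    rw [← Equiv.Perm.mul_apply, ← zpow_one_add, add_comm 1 n]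
  constructor
  · rintro ⟨-, h1, h2⟩
    exact ⟨h1, by rwa [e] at h2⟩
  · rintro ⟨h1, h2⟩
    exact ⟨S.G_zpow n hz, h1, by rwa [e]⟩

lemma exists_k {z : X} (hz : z ∈ S.G) : ∃ n : ℤ, (S.F ^ n) z ∈ S.D := by
  obtain ⟨b, hb⟩ := ((S.A_top hz).eventually_gt_atTop 0).exists
  obtain ⟨c, hc⟩ := ((S.A_bot hz).eventually_le_atBot 0).exists
  obtain ⟨n, hn, hmax⟩ := Int.exists_greatest_of_bdd (P := fun n => S.A z n ≤ 0)
    ⟨b, fun n hn => by
      by_contra hlt
      push Not at hlt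
      have := (S.A_strictMono hz) hlt
      linarith⟩ ⟨c, hc⟩
  refine ⟨n, (S.zpow_mem_D_iff hz n).2 ⟨hn, ?_⟩⟩
  by_contra hle
  push Not at hle
  have := hmax (n + 1) hle
  omega

lemma k_unique {z : X} (hz : z ∈ S.G) {m n : ℤ} (hm : (S.F ^ m) z ∈ S.D)
    (hn : (S.F ^ n) z ∈ S.D) : m = n := by
  rw [S.zpow_mem_D_iff hz] at hm hn
  have hmono := S.A_strictMono hz
  rcases lt_trichotomy m n with h | h | h
  · have : S.A z (m + 1) ≤ S.A z n := hmono.monotone (by omega)
    linarith [hm.2, hn.1]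
  · exact h
  · have : S.A z (n + 1) ≤ S.A z m := hmono.monotone (by omega)
    linarith [hn.2, hm.1]

open Classical in
/-- the unique `k` with `F ^ k z ∈ D` -/
def kk (z : X) : ℤ := if h : z ∈ S.G then (S.exists_k h).choose else 0

lemma kk_spec {z : X} (hz : z ∈ S.G) : (S.F ^ (S.kk z)) z ∈ S.D := by
  unfold kk
  rw [dif_pos hz]
  exact (S.exists_k hz).choose_spec

lemma kk_eq_iff {z : X} (hz : z ∈ S.G) (n : ℤ) : S.kk z = n ↔ (S.F ^ n) z ∈ S.D :=
  ⟨fun h => h ▸ S.kk_spec hz, fun h => S.k_unique hz (S.kk_spec hz) h⟩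

lemma zpow_meas (n : ℤ) : Measurable (S.F ^ n : Equiv.Perm X) := by
  have key : ∀ (n : ℕ), Measurable (S.F ^ n : Equiv.Perm X) ∧
      Measurable ((S.F ^ n)⁻¹ : Equiv.Perm X) := by
    intro n
    induction n with
    | zero => simp only [pow_zero, inv_one, Equiv.Perm.coe_one]; exact ⟨measurable_id, measurable_id⟩
    | succ n ih =>
      constructor
      · rw [pow_succ, Equiv.Perm.coe_mul]; exact ih.1.comp S.F_meas
      · rw [pow_succ', mul_inv_rev, Equiv.Perm.coe_mul]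
        exact ih.2.comp S.F_symm_meas
  obtain ⟨m, rfl | rfl⟩ := n.eq_nat_or_neg
  · simpa using (key m).1
  · simpa using (key m).2

lemma symm_mp : MeasurePreserving S.F.symm lam lam := by
  refine ⟨S.F_symm_meas, ?_⟩
  have this : (S.F.symm ∘ S.F : X → X) = id := by ext z; simp
  calc Measure.map S.F.symm lam = Measure.map S.F.symm (Measure.map S.F lam) := by
        rw [S.F_mp.map_eq]
    _ = Measure.map (S.F.symm ∘ S.F) lam := Measure.map_map S.F_symm_meas S.F_meas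
    _ = lam := by rw [this, Measure.map_id]

lemma zpow_mp (n : ℤ) : MeasurePreserving (S.F ^ n : Equiv.Perm X) lam lam := by
  have key : ∀ (n : ℕ), MeasurePreserving (S.F ^ n : Equiv.Perm X) lam lam ∧
      MeasurePreserving ((S.F ^ n)⁻¹ : Equiv.Perm X) lam lam := by
    intro n
    induction n with
    | zero =>
      simp only [pow_zero, inv_one, Equiv.Perm.coe_one]
      exact ⟨MeasurePreserving.id _, MeasurePreserving.id _⟩
    | succ n ih =>
      constructor
      · rw [pow_succ, Equiv.Perm.coe_mul]; exact ih.1.comp S.F_mp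
      · rw [pow_succ', mul_inv_rev, Equiv.Perm.coe_mul]
        exact ih.2.comp S.symm_mp
  obtain ⟨m, rfl | rfl⟩ := n.eq_nat_or_neg
  · simpa using (key m).1
  · simpa using (key m).2

lemma kk_meas : Measurable S.kk := by
  refine measurable_to_countable' fun n => ?_
  have : S.kk ⁻¹' {n} = (S.G ∩ (S.F ^ n : Equiv.Perm X) ⁻¹' S.D) ∪ (S.Gᶜ ∩ {_z | (0 : ℤ) = n}) := by
    ext z
    by_cases hz : z ∈ S.G
    · simp [hz, S.kk_eq_iff hz n]
    · have : S.kk z = 0 := by unfold kk; rw [dif_neg hz]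
      simp [hz, this]
  rw [this]
  exact (S.G_meas.inter (S.zpow_meas n S.D_meas)).union (S.G_meas.compl.inter (MeasurableSet.const _))

/-- bring a line into the fundamental domain -/
def fold (z : X) : X := (S.F ^ (S.kk z)) z

lemma fold_meas : Measurable S.fold := by
  have h : Measurable (fun p : ℤ × X => (S.F ^ p.1 : Equiv.Perm X) p.2) :=
    measurable_from_prod_countable_right fun n => S.zpow_meas n
  exact h.comp (S.kk_meas.prodMk measurable_id)

lemma fold_mem {z : X} (hz : z ∈ S.G) : S.fold z ∈ S.D := S.kk_spec hz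

lemma fold_eq {z : X} (hz : z ∈ S.G) {n : ℤ} (h : (S.F ^ n) z ∈ S.D) : S.fold z = (S.F ^ n) z := by
  unfold fold
  rw [(S.kk_eq_iff hz n).2 h]

lemma fold_of_mem {z : X} (hz : z ∈ S.D) : S.fold z = z := by
  have := S.fold_eq hz.1 (n := 0) (by simpa using hz)
  simpa using this

lemma fold_zpow {z : X} (hz : z ∈ S.G) (n : ℤ) : S.fold ((S.F ^ n) z) = S.fold z := by
  have h := S.kk_spec hz
  have e : (S.F ^ (S.kk z)) z = (S.F ^ (S.kk z - n)) ((S.F ^ n) z) := by
    rw [← Equiv.Perm.mul_apply, ← zpow_add, sub_add_cancel]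
  rw [S.fold_eq (S.G_zpow n hz) (n := S.kk z - n) (by rw [← e]; exact h), ← e]
  rfl

open Classical in
/-- the flow -/
def phi (t : ℝ) (z : X) : X := if z ∈ S.D then S.fold (S.sh t z) else z

lemma phi_of_mem {z : X} (hz : z ∈ S.D) (t : ℝ) : S.phi t z = S.fold (S.sh t z) := if_pos hz

lemma phi_of_notMem {z : X} (hz : z ∉ S.D) (t : ℝ) : S.phi t z = z := if_neg hz

lemma phi_mem {z : X} (hz : z ∈ S.D) (t : ℝ) : S.phi t z ∈ S.D := by
  rw [S.phi_of_mem hz]; exact S.fold_mem (S.G_sh t z hz.1)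

lemma phi_meas : Measurable (fun p : ℝ × X => S.phi p.1 p.2) := by
  classical
  refine Measurable.ite (p := fun p : ℝ × X => p.2 ∈ S.D) (measurable_snd S.D_meas) ?_ measurable_snd
  exact S.fold_meas.comp S.sh_meas

lemma phi_zero (z : X) : S.phi 0 z = z := by
  by_cases hz : z ∈ S.D
  · rw [S.phi_of_mem hz, S.sh_zero, S.fold_of_mem hz]
  · exact S.phi_of_notMem hz 0

lemma phi_add (s t : ℝ) (z : X) : S.phi (s + t) z = S.phi s (S.phi t z) := by
  by_cases hz : z ∈ S.D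
  · rw [S.phi_of_mem (S.phi_mem hz t), S.phi_of_mem hz, S.phi_of_mem hz, S.sh_add]
    have hG : S.sh t z ∈ S.G := S.G_sh t z hz.1
    conv_rhs => rw [fold.eq_1 S (S.sh t z)]
    rw [← S.zpow_sh _ s hG, S.fold_zpow (S.G_sh s _ hG)]
  · rw [S.phi_of_notMem hz, S.phi_of_notMem hz, S.phi_of_notMem hz]

/-- the description of the flow by collision times -/
lemma phi_eq {z : X} (hz : z ∈ S.D) {t : ℝ} {n : ℤ} (h1 : S.A z n ≤ t) (h2 : t < S.A z (n + 1)) :
    S.phi t z = (S.F ^ n) (S.sh t z) := by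
  rw [S.phi_of_mem hz]
  refine S.fold_eq (S.G_sh t z hz.1) ((S.zpow_mem_D_iff (S.G_sh t z hz.1) n).2 ?_)
  rw [S.A_sh t hz.1, S.A_sh t hz.1]
  constructor <;> linarith

lemma phi_eq' {z : X} (hz : z ∈ S.D) {t : ℝ} {n : ℤ} (h1 : S.A z n ≤ t) (h2 : t < S.A z (n + 1)) :
    S.phi t z = S.sh t ((S.F ^ n) z) := by
  rw [S.phi_eq hz h1 h2, S.zpow_sh n t hz.1]

lemma exists_A {z : X} (hz : z ∈ S.G) (t : ℝ) : ∃ n : ℤ, S.A z n ≤ t ∧ t < S.A z (n + 1) := by
  obtain ⟨n, hn⟩ := S.exists_k (S.G_sh t z hz)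
  rw [S.zpow_mem_D_iff (S.G_sh t z hz), S.A_sh t hz, S.A_sh t hz] at hn
  exact ⟨n, by linarith [hn.1], by linarith [hn.2]⟩

/-- the flow preserves the measure on the fundamental domain -/
theorem phi_mp (t : ℝ) : MeasurePreserving (S.phi t) (lam.restrict S.D) (lam.restrict S.D) := by
  have hm : Measurable (S.phi t) := S.phi_meas.comp (measurable_const.prodMk measurable_id)
  refine ⟨hm, ?_⟩
  ext E hE
  rw [Measure.map_apply hm hE, Measure.restrict_apply (hm hE), Measure.restrict_apply hE]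
  have hsh : Measurable (S.sh t) := (S.sh_mp t).measurable
  have hsh' : Measurable (S.sh (-t)) := (S.sh_mp (-t)).measurable
  -- decomposition of the left side
  set P : ℤ → Set X := fun n => {z | z ∈ S.D ∧ (S.F ^ n) (S.sh t z) ∈ S.D ∩ E} with hP
  set Q : ℤ → Set X := fun n => {w | w ∈ S.D ∩ E ∧ S.sh (-t) ((S.F ^ (-n)) w) ∈ S.D} with hQ
  have hPm : ∀ n, MeasurableSet (P n) := fun n =>
    S.D_meas.inter (((S.zpow_meas n).comp hsh) (S.D_meas.inter hE))
  have hQm : ∀ n, MeasurableSet (Q n) := fun n =>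
    (S.D_meas.inter hE).inter ((hsh'.comp (S.zpow_meas (-n))) S.D_meas)
  have hPu : S.phi t ⁻¹' E ∩ S.D = ⋃ n, P n := by
    ext z
    simp only [mem_inter_iff, mem_preimage, mem_iUnion, hP, mem_ofPred_eq]
    constructor
    · rintro ⟨h1, h2⟩
      refine ⟨S.kk (S.sh t z), h2, S.kk_spec (S.G_sh t z h2.1), ?_⟩
      rw [S.phi_of_mem h2] at h1
      exact h1
    · rintro ⟨n, h1, h2, h3⟩
      refine ⟨?_, h1⟩
      rw [S.phi_of_mem h1, S.fold_eq (S.G_sh t z h1.1) h2]
      exact h3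
  have hPd : Pairwise (Function.onFun Disjoint P) := by
    intro m n hmn
    rw [Function.onFun, Set.disjoint_left]
    rintro z ⟨h1, h2, -⟩ ⟨-, h3, -⟩
    exact hmn (S.k_unique (S.G_sh t z h1.1) h2 h3)
  have hQu : E ∩ S.D = ⋃ n, Q n := by
    ext w
    simp only [mem_inter_iff, mem_iUnion, hQ, mem_ofPred_eq]
    constructor
    · rintro ⟨h1, h2⟩
      refine ⟨-S.kk (S.sh (-t) w), ⟨h2, h1⟩, ?_⟩
      rw [neg_neg, ← S.zpow_sh _ _ h2.1]
      exact S.kk_spec (S.G_sh (-t) w h2.1)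
    · rintro ⟨n, ⟨h1, h2⟩, -⟩
      exact ⟨h2, h1⟩
  have hQd : Pairwise (Function.onFun Disjoint Q) := by
    intro m n hmn
    rw [Function.onFun, Set.disjoint_left]
    rintro w ⟨⟨h1, -⟩, h2⟩ ⟨-, h3⟩
    rw [← S.zpow_sh _ _ h1.1] at h2 h3
    have := S.k_unique (S.G_sh (-t) w h1.1) h2 h3
    omega
  have hPQ : ∀ n, lam (P n) = lam (Q n) := by
    intro n
    have hg : MeasurePreserving (fun z => (S.F ^ n) (S.sh t z)) lam lam :=
      (S.zpow_mp n).comp (S.sh_mp t)
    have : P n = (fun z => (S.F ^ n) (S.sh t z)) ⁻¹' (Q n) := by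
      ext z
      simp only [hP, hQ, mem_ofPred_eq, mem_preimage]
      have e : S.sh (-t) ((S.F ^ (-n)) ((S.F ^ n) (S.sh t z))) = z := by
        rw [← Equiv.Perm.mul_apply, ← zpow_add, neg_add_cancel, zpow_zero, Equiv.Perm.one_apply,
          S.sh_neg_sh]
      rw [e]
      tauto
    rw [this, hg.measure_preimage (hQm n).nullMeasurableSet]
  rw [hPu, hQu, measure_iUnion hPd hPm, measure_iUnion hQd hQm]
  exact tsum_congr hPQ

/-- any fixed entry time has measure zero -/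
theorem a_null [SFinite lam] (c : ℝ) : lam {z | z ∈ S.G ∧ S.a z = c} = 0 := by
  have hm : ∀ c : ℝ, MeasurableSet {z | z ∈ S.G ∧ S.a z = c} := fun c =>
    S.G_meas.inter (S.a_meas (measurableSet_singleton c))
  have hinv : ∀ c : ℝ, lam {z | z ∈ S.G ∧ S.a z = c} = lam {z | z ∈ S.G ∧ S.a z = 0} := by
    intro c
    rw [← (S.sh_mp c).measure_preimage (hm 0).nullMeasurableSet]
    congr 1
    ext z
    simp only [mem_ofPred_eq, mem_preimage]
    constructor
    · rintro ⟨h1, h2⟩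
      exact ⟨S.G_sh c z h1, by rw [S.a_sh c z h1, h2, sub_self]⟩
    · rintro ⟨h1, h2⟩
      have h3 : z ∈ S.G := by
        have := S.G_sh (-c) _ h1
        rwa [S.sh_neg_sh] at this
      refine ⟨h3, ?_⟩
      rw [S.a_sh c z h3] at h2
      linarith
  by_contra hne
  have hpos : ∀ c : ℝ, 0 < lam {z | z ∈ S.G ∧ S.a z = c} := by
    intro c'
    rw [hinv c', ← hinv c]
    exact pos_iff_ne_zero.2 hne
  have hcount := Measure.countable_meas_pos_of_disjoint_iUnion (μ := lam)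
    (As := fun c : ℝ => {z | z ∈ S.G ∧ S.a z = c}) hm (by
      intro c d hcd
      rw [Function.onFun, Set.disjoint_left]
      rintro z ⟨-, h1⟩ ⟨-, h2⟩
      exact hcd (h1.symm.trans h2))
  have : {i : ℝ | 0 < lam {z | z ∈ S.G ∧ S.a z = i}} = Set.univ := by
    ext i; simp [hpos i]
  rw [this] at hcount
  exact Cardinal.not_countable_real hcount

/-- the flow preserves every measure of the form `lam.restrict E`, `E` equal to `D` up to a null
set -/
theorem phi_mp_restrict {E : Set X} (hE : E =ᵐ[lam] S.D) (t : ℝ) :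
    MeasurePreserving (S.phi t) (lam.restrict E) (lam.restrict E) := by
  rw [Measure.restrict_congr_set hE]; exact S.phi_mp t

/-- no collision up to time `t` -/
lemma phi_of_lt {z : X} (hz : z ∈ S.D) {t : ℝ} (h1 : S.a z ≤ t) (h2 : t < S.a (S.F z)) :
    S.phi t z = S.sh t z := by
  have := S.phi_eq hz (t := t) (n := 0) (by rw [S.A_zero]; exact h1)
    (by rw [zero_add, S.A_one]; exact h2)
  simpa using this

/-- exactly one collision up to time `t` -/
lemma phi_of_lt_one {z : X} (hz : z ∈ S.D) {t : ℝ} (h1 : S.a (S.F z) ≤ t)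
    (h2 : t < S.a (S.F (S.F z))) : S.phi t z = S.F (S.sh t z) := by
  have := S.phi_eq hz (t := t) (n := 1) (by rw [S.A_one]; exact h1) (by
    have e : S.A z (1 + 1) = S.a (S.F (S.F z)) := by
      unfold A
      rw [zpow_add, Equiv.Perm.mul_apply, zpow_one]
    rw [e]; exact h2)
  simpa using this

/-- a.e. point of `D` has nonzero entry time -/
lemma ae_a_lt [SFinite lam] : ∀ᵐ z ∂(lam.restrict S.D), z ∈ S.D ∧ S.a z < 0 := by
  have h0 : ∀ᵐ z ∂lam, ¬ (z ∈ S.G ∧ S.a z = 0) := by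
    rw [ae_iff]; simpa using S.a_null 0
  rw [ae_restrict_iff' S.D_meas]
  filter_upwards [h0] with z hz hzD
  exact ⟨hzD, lt_of_le_of_ne hzD.2.1 fun h => hz ⟨hzD.1, h⟩⟩

/-- time reversal data: `V` reverses the parametrisation of the line -/
structure Rev (V : X → X) : Prop where
  invol : ∀ z, V (V z) = z
  sh : ∀ t z, V (S.sh t z) = S.sh (-t) (V z)
  G : ∀ z ∈ S.G, V z ∈ S.G
  F : ∀ z ∈ S.G, V (S.F z) = S.F.symm (V z)
  a : ∀ z ∈ S.G, S.a (V z) = - S.a (S.F z)

namespace Rev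

variable {S} {V : X → X} (hV : S.Rev V)
include hV

lemma symm {z : X} (hz : z ∈ S.G) : V (S.F.symm z) = S.F (V z) := by
  have := hV.F _ (S.G_symm z hz)
  rw [Equiv.apply_symm_apply] at this
  rw [this, Equiv.apply_symm_apply]

lemma zpow (n : ℤ) {z : X} (hz : z ∈ S.G) : V ((S.F ^ n) z) = (S.F ^ (-n)) (V z) := by
  have key : ∀ (n : ℕ) (z : X), z ∈ S.G → V ((S.F ^ n) z) = ((S.F ^ n)⁻¹) (V z) ∧
      V (((S.F ^ n)⁻¹) z) = (S.F ^ n) (V z) := by
    intro n
    induction n with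
    | zero => intro z hz; simp
    | succ n ih =>
      intro z hz
      constructor
      · rw [pow_succ, Equiv.Perm.mul_apply, (ih _ (S.G_F z hz)).1, hV.F z hz, mul_inv_rev,
          ← Equiv.Perm.mul_apply]
        have : ((S.F ^ n)⁻¹ * S.F.symm : Equiv.Perm X) = S.F⁻¹ * (S.F ^ n)⁻¹ := by
          have e : (S.F.symm : Equiv.Perm X) = S.F⁻¹ := rfl
          rw [e, ← mul_inv_rev, ← mul_inv_rev, ← pow_succ, ← pow_succ']
        rw [this]
      · have hG : ((S.F ^ n)⁻¹) z ∈ S.G := by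
          have := S.G_zpow (-(n : ℤ)) hz
          simpa using this
        have h1 : V ((S.F⁻¹) (((S.F ^ n)⁻¹) z)) = S.F (V (((S.F ^ n)⁻¹) z)) := hV.symm hG
        have e : (S.F ^ (n + 1))⁻¹ = S.F⁻¹ * (S.F ^ n)⁻¹ := by rw [pow_succ, mul_inv_rev]
        rw [e, Equiv.Perm.mul_apply, h1, (ih z hz).2, ← Equiv.Perm.mul_apply, ← pow_succ']
  obtain ⟨m, rfl | rfl⟩ := n.eq_nat_or_neg
  · simpa using (key m z hz).1
  · simpa using (key m z hz).2

lemma mem_D {z : X} (hz : z ∈ S.D) (h : S.a z < 0) : V z ∈ S.D := by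
  refine ⟨hV.G z hz.1, ?_, ?_⟩
  · rw [hV.a z hz.1]; linarith [hz.2.2]
  · rw [← hV.symm hz.1, hV.a _ (S.G_symm z hz.1), Equiv.apply_symm_apply]
    linarith

theorem phi [SFinite lam] (t : ℝ) :
    ∀ᵐ z ∂(lam.restrict S.D), S.phi t (V z) = V (S.phi (-t) z) := by
  have h1 := S.ae_a_lt
  have h2 : ∀ᵐ z ∂(lam.restrict S.D), S.phi (-t) z ∈ S.D ∧ S.a (S.phi (-t) z) < 0 :=
    (S.phi_mp (-t)).quasiMeasurePreserving.ae h1
  filter_upwards [h1, h2] with z hz hz2
  have hG : S.sh (-t) z ∈ S.G := S.G_sh _ z hz.1.1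
  have hVD := hV.mem_D hz2.1 hz2.2
  have e : V (S.phi (-t) z) = (S.F ^ (-(S.kk (S.sh (-t) z)))) (S.sh t (V z)) := by
    rw [S.phi_of_mem hz.1]
    unfold fold
    rw [hV.zpow _ hG, hV.sh, neg_neg]
  rw [e] at hVD ⊢
  rw [S.phi_of_mem (hV.mem_D hz.1 hz.2)]
  exact S.fold_eq (S.G_sh t _ (hV.G z hz.1.1)) hVD

end Rev

end FoldSys

end Crest.Agent.R103.Fold
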