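import Crest.Agent.R103.Basic

/-!
# R103: interface of the abstract part (operators and the statements `St...`)
-/

open MeasureTheory Filter Topology
open scoped InnerProductSpace

noncomputable section

namespace Crest.Agent.R103

/-- the first harmonic averages of an operator valued function: `kernel k` is `e^{i k α}` -/
def harm {H : Type*} [NormedAddCommGroup H] [NormedSpace ℂ H] (k : ℤ) (F : ℝ → H) : H :=
  ((2 * Real.pi)⁻¹ : ℝ) • ∫ α in (0 : ℝ)..(2 * Real.pi), Complex.exp (k * α * Complex.I) • F α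

/-! ## A1. telescoping lemma in a Hilbert space (pure functional analysis) -/

/-- TELESCOPING. `rot` a strongly continuous `2π`-periodic unitary representation, `Ep`, `Em` shift
the weight by `±1`, and `‖Ep (P_n h)‖ = ‖Em (P_n h)‖` for all `n` (only for the given `h`);
`P_n f = harm (-n) (fun α => rot α f)`. -/
def StTele : Prop :=
  ∀ (H : Type) [NormedAddCommGroup H] [InnerProductSpace ℂ H] [CompleteSpace H]
    (rot : ℝ → H →ₗᵢ[ℂ] H),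
    (∀ f, rot 0 f = f) → (∀ a b f, rot (a + b) f = rot a (rot b f)) →
    (∀ f, rot (2 * Real.pi) f = f) → (∀ f, Continuous fun α => rot α f) →
    ∀ (Ep Em : H →L[ℂ] H),
    (∀ α f, rot α (Ep f) = Complex.exp (α * Complex.I) • Ep (rot α f)) →
    (∀ α f, rot α (Em f) = Complex.exp (-(α * Complex.I)) • Em (rot α f)) →
    ∀ h : H, (∀ n : ℤ, ‖Ep (harm (-n) fun α => rot α h)‖ = ‖Em (harm (-n) fun α => rot α h)‖) →
    ∀ (n : ℤ) (r : ℝ), 0 ≤ r → r < 1 →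
      ‖Em (harm (-n) fun α => rot α h)‖ ≤ (Real.sqrt (1 - r ^ 2))⁻¹ * ‖Em h + (r : ℂ) • Ep h‖

namespace PlaneSys

variable {Ω : Type} [TopologicalSpace Ω] [MeasurableSpace Ω] {μ : Measure Ω}

section ops
variable (S : PlaneSys Ω μ)

/-- weight component of weight `n` -/
def P (n : ℤ) (f : Lp ℂ 2 μ) : Lp ℂ 2 μ := harm (-n) fun α => S.rot α f

/-- `E_+(δ) f = (2π)⁻¹ ∫ e^{-iα} f ∘ T (δ e^{iα}) dα` -/
def Ep (δ : ℝ) (f : Lp ℂ 2 μ) : Lp ℂ 2 μ :=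
  harm (-1) fun α => S.U (δ * Complex.exp (α * Complex.I)) f

/-- `E_-(δ) f = (2π)⁻¹ ∫ e^{iα} f ∘ T (δ e^{iα}) dα` -/
def Em (δ : ℝ) (f : Lp ℂ 2 μ) : Lp ℂ 2 μ :=
  harm 1 fun α => S.U (δ * Complex.exp (α * Complex.I)) f

/-- `f` vanishes a.e. where `ρ < b` -/
def SuppGe (b : ℝ) (f : Lp ℂ 2 μ) : Prop := ∀ᵐ z ∂μ, S.ρ z < b → f z = 0

/-- the regularised distance at scale `L` : `inf_s (|s|/L + L ρ(φ_s z))` -/
def rt (L : ℝ) (z : Ω) : ℝ := ⨅ s : ℝ, (|s| / L + L * S.ρ (S.φ s z))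

/-- `k`-th radius -/
def rad (ρ₀ : ℝ) (k : ℕ) : ℝ := ρ₀ / 8 ^ k

/-- the cutoff function with `K` scales -/
def eta (ρ₀ : ℝ) (K : ℕ) (L : ℝ) (z : Ω) : ℝ :=
  (K : ℝ)⁻¹ * ∑ k ∈ Finset.range K, max 0 (min 1 (S.rt L z / rad ρ₀ k - 1))

end ops

/-! ## A2. continuity of the representations -/

/-- all standing assumptions on the space are bundled in this class-like `Prop` arguments:
`Ω` is a second countable pseudometrizable Borel space and `μ` is finite. -/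
def StCont : Prop :=
  ∀ (Ω : Type) [TopologicalSpace Ω] [MeasurableSpace Ω] [BorelSpace Ω]
    [SecondCountableTopology Ω] [TopologicalSpace.PseudoMetrizableSpace Ω]
    (μ : Measure Ω) [IsFiniteMeasure μ] (S : PlaneSys Ω μ),
    (∀ f : Lp ℂ 2 μ, Tendsto (fun ζ : ℂ => S.U ζ f) (𝓝 0) (𝓝 f)) ∧
    (∀ f : Lp ℂ 2 μ, Continuous fun α => S.rot α f) ∧
    (∀ f : Lp ℂ 2 μ, Continuous fun t => S.Uφ t f) ∧
    (∀ (t : ℝ) (f : Lp ℂ 2 μ), 0 ≤ t →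
      Continuous fun α : ℝ => S.U (t * Complex.exp (α * Complex.I)) f)

/-! ## A3. elementary properties of `P`, `Ep`, `Em` -/

def StE : Prop :=
  ∀ (Ω : Type) [TopologicalSpace Ω] [MeasurableSpace Ω] [BorelSpace Ω]
    [SecondCountableTopology Ω] [TopologicalSpace.PseudoMetrizableSpace Ω]
    (μ : Measure Ω) [IsFiniteMeasure μ] (S : PlaneSys Ω μ) (δ : ℝ), 0 ≤ δ →
    ∃ Ep' Em' : Lp ℂ 2 μ →L[ℂ] Lp ℂ 2 μ,
      (∀ f, Ep' f = S.Ep δ f) ∧ (∀ f, Em' f = S.Em δ f) ∧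
      (∀ f, ‖S.Ep δ f‖ ≤ ‖f‖) ∧ (∀ f, ‖S.Em δ f‖ ≤ ‖f‖) ∧
      (∀ α f, S.rot α (S.Ep δ f) = Complex.exp (α * Complex.I) • S.Ep δ (S.rot α f)) ∧
      (∀ α f, S.rot α (S.Em δ f) = Complex.exp (-(α * Complex.I)) • S.Em δ (S.rot α f)) ∧
      (∀ f g, ⟪S.Ep δ f, g⟫_ℂ = - ⟪f, S.Em δ g⟫_ℂ) ∧
      (∀ f g, ⟪S.Em δ f, g⟫_ℂ = - ⟪f, S.Ep δ g⟫_ℂ)

/-- properties of the weight projections: linear, contractive, self-adjoint, weight, completeness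
(`f` is determined by its weight components: if `⟪P n f, g⟫ = 0` for all `n` then `⟪f,g⟫ = 0`),
and they preserve the support condition. -/
def StP : Prop :=
  ∀ (Ω : Type) [TopologicalSpace Ω] [MeasurableSpace Ω] [BorelSpace Ω]
    [SecondCountableTopology Ω] [TopologicalSpace.PseudoMetrizableSpace Ω]
    (μ : Measure Ω) [IsFiniteMeasure μ] (S : PlaneSys Ω μ),
    (∀ n : ℤ, ∃ P' : Lp ℂ 2 μ →L[ℂ] Lp ℂ 2 μ, ∀ f, P' f = S.P n f) ∧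
    (∀ n f, ‖S.P n f‖ ≤ ‖f‖) ∧
    (∀ n f g, ⟪S.P n f, g⟫_ℂ = ⟪f, S.P n g⟫_ℂ) ∧
    (∀ f g, (∀ n, ⟪S.P n f, g⟫_ℂ = 0) → ⟪f, g⟫_ℂ = 0) ∧
    (∀ n b f, S.SuppGe b f → S.SuppGe b (S.P n f))

/-! ## A4. the commutation identity -/

def StComm : Prop :=
  ∀ (Ω : Type) [TopologicalSpace Ω] [MeasurableSpace Ω] [BorelSpace Ω]
    [SecondCountableTopology Ω] [TopologicalSpace.PseudoMetrizableSpace Ω]
    (μ : Measure Ω) [IsFiniteMeasure μ] (S : PlaneSys Ω μ) (δ : ℝ), 0 < δ →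
    ∀ f, S.SuppGe (S.C₀ * δ) f → ‖S.Ep δ f‖ = ‖S.Em δ f‖

/-! ## A5. the regularised distance -/

def StRt : Prop :=
  ∀ (Ω : Type) [TopologicalSpace Ω] [MeasurableSpace Ω] [BorelSpace Ω]
    [SecondCountableTopology Ω] [TopologicalSpace.PseudoMetrizableSpace Ω]
    (μ : Measure Ω) [IsFiniteMeasure μ] (S : PlaneSys Ω μ) (L : ℝ), 1 ≤ L →
    Measurable (S.rt L) ∧ (∀ z, 0 ≤ S.rt L z) ∧ (∀ z, S.rt L z ≤ L * S.ρ z) ∧
    (∀ t z, |S.rt L (S.φ t z) - S.rt L z| ≤ |t| / L) ∧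
    (∀ ζ : ℂ, ∀ᵐ z ∂μ, |S.rt L (S.T ζ z) - S.rt L z| ≤ (S.C₀ + 1) * L * ‖ζ‖) ∧
    (∀ r : ℝ, 0 < r → μ {z | S.rt L z < r} ≤ ENNReal.ofReal (20 * S.Cv * r ^ 2))

/-! ## A6. the cutoff -/

def StEta : Prop :=
  ∀ (Ω : Type) [TopologicalSpace Ω] [MeasurableSpace Ω] [BorelSpace Ω]
    [SecondCountableTopology Ω] [TopologicalSpace.PseudoMetrizableSpace Ω]
    (μ : Measure Ω) [IsFiniteMeasure μ] (S : PlaneSys Ω μ) (L : ℝ), 1 ≤ L →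
    ∀ (ρ₀ : ℝ) (K : ℕ), 0 < ρ₀ → 0 < K →
    Measurable (S.eta ρ₀ K L) ∧ (∀ z, 0 ≤ S.eta ρ₀ K L z) ∧ (∀ z, S.eta ρ₀ K L z ≤ 1) ∧
    (∀ z, S.ρ z < rad ρ₀ K / L → S.eta ρ₀ K L z = 0) ∧
    (∫ z, (1 - S.eta ρ₀ K L z) ^ 2 ∂μ ≤ 80 * S.Cv * ρ₀ ^ 2) ∧
    (∀ (g : Ω → Ω) (a : ℝ), Measurable g → 0 ≤ a → a ≤ rad ρ₀ K / 2 →
      (∀ᵐ z ∂μ, |S.rt L (g z) - S.rt L z| ≤ a) →
      ∫ z, (S.eta ρ₀ K L (g z) - S.eta ρ₀ K L z) ^ 2 ∂μ ≤ a ^ 2 * (180 * S.Cv) / K)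

/-! ## A7. the main estimate -/

/-- `u` bounded, invariant under the flow. For every `ε, δ₀ > 0` there are `0 < δ < δ₀` and `h`
with `‖h - u‖ ≤ ε` and all weight components of `h` have small discrete gradient at scale `δ`. -/
def StMain : Prop :=
  ∀ (Ω : Type) [TopologicalSpace Ω] [MeasurableSpace Ω] [BorelSpace Ω]
    [SecondCountableTopology Ω] [TopologicalSpace.PseudoMetrizableSpace Ω]
    (μ : Measure Ω) [IsFiniteMeasure μ] (S : PlaneSys Ω μ) (u : Lp ℂ 2 μ) (B : ℝ),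
    (∀ᵐ z ∂μ, ‖u z‖ ≤ B) → (∀ t, S.Uφ t u = u) →
    ∀ ε : ℝ, 0 < ε → ∀ δ₀ : ℝ, 0 < δ₀ → ∃ δ : ℝ, 0 < δ ∧ δ < δ₀ ∧ ∃ h : Lp ℂ 2 μ,
      ‖h - u‖ ≤ ε ∧ ∀ n : ℤ, ‖S.Ep δ (S.P n h)‖ ≤ ε * δ ∧ ‖S.Em δ (S.P n h)‖ ≤ ε * δ

/-! ## A8. Theorem A -/

def StThmA : Prop :=
  ∀ (Ω : Type) [TopologicalSpace Ω] [MeasurableSpace Ω] [BorelSpace Ω]
    [SecondCountableTopology Ω] [TopologicalSpace.PseudoMetrizableSpace Ω]
    (μ : Measure Ω) [IsFiniteMeasure μ] (S : PlaneSys Ω μ) (u : Lp ℂ 2 μ) (B : ℝ),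
    (∀ᵐ z ∂μ, ‖u z‖ ≤ B) → (∀ t, S.Uφ t u = u) → ∀ ζ : ℂ, S.U ζ u = u

/-! ## A9. product system -/

def StProd : Prop :=
  ∀ (Ω : Type) [TopologicalSpace Ω] [MeasurableSpace Ω] [BorelSpace Ω]
    [SecondCountableTopology Ω] [TopologicalSpace.PseudoMetrizableSpace Ω]
    (μ : Measure Ω) [IsFiniteMeasure μ] (S : PlaneSys Ω μ),
    ∃ S2 : PlaneSys (Ω × Ω) (μ.prod μ),
      (∀ t z, S2.φ t z = (S.φ t z.1, S.φ t z.2)) ∧ (∀ ζ z, S2.T ζ z = (S.T ζ z.1, S.T ζ z.2))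

/-! ## B1. the kernel operator of a bounded kernel is compact -/

/-- for a measurable set `s ⊆ Ω × Ω` there is a compact operator `K` with
`⟪1_A, K 1_B⟫ = (μ×μ)(s ∩ A×B)`; and it is the unique bounded operator with these
matrix coefficients. -/
def StKer : Prop :=
  ∀ (Ω : Type) [MeasurableSpace Ω] (μ : Measure Ω) [IsFiniteMeasure μ] (s : Set (Ω × Ω)),
    MeasurableSet s → ∃ K : Lp ℂ 2 μ →L[ℂ] Lp ℂ 2 μ, IsCompactOperator K ∧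
      (∀ f g : Lp ℂ 2 μ, ⟪g, K f⟫_ℂ =
        ∫ z, s.indicator (fun z : Ω × Ω => (starRingEnd ℂ) (g z.1) * f z.2) z ∂(μ.prod μ))

/-! ## B2. finite dimensional invariant subspaces -/

/-- every finite dimensional subspace of `L²` invariant under all `U ζ` consists of vectors fixed
by all `U ζ`. -/
def StFin : Prop :=
  ∀ (Ω : Type) [TopologicalSpace Ω] [MeasurableSpace Ω] [BorelSpace Ω]
    [SecondCountableTopology Ω] [TopologicalSpace.PseudoMetrizableSpace Ω]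
    (μ : Measure Ω) [IsFiniteMeasure μ] (S : PlaneSys Ω μ) (V : Submodule ℂ (Lp ℂ 2 μ)),
    FiniteDimensional ℂ V → (∀ ζ, ∀ f ∈ V, S.U ζ f ∈ V) → ∀ f ∈ V, ∀ ζ, S.U ζ f = f

/-! ## B3. Theorem B -/

/-- if the only `T`-invariant `L²` functions are constants, then every measurable set
`s ⊆ Ω × Ω` invariant (mod null sets) under all `T ζ × T ζ` is null or conull. -/
def StThmB : Prop :=
  ∀ (Ω : Type) [TopologicalSpace Ω] [MeasurableSpace Ω] [BorelSpace Ω]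
    [SecondCountableTopology Ω] [TopologicalSpace.PseudoMetrizableSpace Ω]
    (μ : Measure Ω) [IsFiniteMeasure μ] (S : PlaneSys Ω μ),
    (∀ f : Lp ℂ 2 μ, (∀ ζ, S.U ζ f = f) → ∃ c : ℂ, f =ᵐ[μ] fun _ => c) →
    ∀ s : Set (Ω × Ω), MeasurableSet s →
      (∀ ζ : ℂ, (fun z : Ω × Ω => (S.T ζ z.1, S.T ζ z.2)) ⁻¹' s =ᵐ[μ.prod μ] s) →
      (μ.prod μ) s = 0 ∨ (μ.prod μ) sᶜ = 0

/-! ## AB. abstract conclusion -/

def StAbs : Prop :=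
  ∀ (Ω : Type) [TopologicalSpace Ω] [MeasurableSpace Ω] [BorelSpace Ω]
    [SecondCountableTopology Ω] [TopologicalSpace.PseudoMetrizableSpace Ω]
    (μ : Measure Ω) [IsFiniteMeasure μ] (S : PlaneSys Ω μ),
    (∀ f : Lp ℂ 2 μ, (∀ ζ, S.U ζ f = f) → ∃ c : ℂ, f =ᵐ[μ] fun _ => c) →
    ∀ s : Set (Ω × Ω), MeasurableSet s →
      (∀ t : ℝ, (fun z : Ω × Ω => (S.φ t z.1, S.φ t z.2)) ⁻¹' s =ᵐ[μ.prod μ] s) →
      (μ.prod μ) s = 0 ∨ (μ.prod μ) sᶜ = 0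

end PlaneSys

end Crest.Agent.R103
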