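import Mathlib

set_option autoImplicit false
open MeasureTheory

namespace Crest.Agent.R103

/-- LOCAL PLANE SYSTEM.  `ψ ζ` = total, jointly measurable "one reflection" map (move by the
displacement `B ζ` of the frame); everything is required only at points whose distance `ρ` to the
singularities is large compared with `‖ζ‖`.  The concrete system: `Ω = ℂ × Circle × Bool`. -/
structure LocSys (Ω : Type*) [MeasurableSpace Ω] [TopologicalSpace Ω] (μ : Measure Ω) where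
  /-- local displacement -/
  ψ : ℂ → Ω → Ω
  /-- right rotation of the frame by the angle `a` -/
  R : ℝ → Ω → Ω
  /-- distance to the singularities -/
  ρ : Ω → ℝ
  C0 : ℝ
  Cm : ℝ
  two_le_C0 : 2 ≤ C0
  Cm_nonneg : 0 ≤ Cm
  ψ_meas : Measurable (fun p : ℂ × Ω => ψ p.1 p.2)
  R_meas : Measurable (fun p : ℝ × Ω => R p.1 p.2)
  ρ_meas : Measurable ρ
  ρ_nonneg : ∀ z, 0 ≤ ρ z
  ψ_zero : ∀ z, ψ 0 z = z
  /-- local commutation, everywhere -/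
  lc : ∀ (e : ℝ) (ζ ζ' : ℂ) (z : Ω), ‖ζ‖ ≤ e → ‖ζ'‖ ≤ e → C0 * e ≤ ρ z →
    ψ ζ' (ψ ζ z) = ψ (ζ + ζ') z
  ρ_ψ : ∀ (ζ : ℂ) (z : Ω), |ρ (ψ ζ z) - ρ z| ≤ ‖ζ‖
  R_zero : ∀ z, R 0 z = z
  R_add : ∀ (a b : ℝ) (z : Ω), R (a + b) z = R a (R b z)
  R_two_pi : ∀ z, R (2 * Real.pi) z = z
  ψ_R : ∀ (ζ : ℂ) (a : ℝ) (z : Ω),
    ψ ζ (R a z) = R a (ψ (Complex.exp (a * Complex.I) * ζ) z)
  ρ_R : ∀ (a : ℝ) (z : Ω), ρ (R a z) = ρ z
  R_mp : ∀ a, MeasurePreserving (R a) μ μ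
  R_cont : ∀ z, Continuous (fun a => R a z)
  ψ_map : ∀ ζ : ℂ, (μ.restrict {z | C0 * ‖ζ‖ ≤ ρ z}).map (ψ ζ) ≤ μ
  small : ∀ b : ℝ, 0 ≤ b → μ {z | ρ z < b} ≤ ENNReal.ofReal (Cm * b ^ 2)
  cont : ∀ᵐ z ∂μ, Filter.Tendsto (fun ζ => ψ ζ z) (nhds 0) (nhds z)


end Crest.Agent.R103
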