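import Crest.Agent.R103.GlOrb
import Crest.Agent.R103.GlDefs

set_option autoImplicit false
open MeasureTheory

namespace Crest.Agent.R103
namespace LocSys
variable {Ω : Type*} [MeasurableSpace Ω] [TopologicalSpace Ω] {μ : Measure Ω} (S : LocSys Ω μ)

/-- the one-parameter local system of direction `1` -/
def rl : RL Ω where
  p s z := S.ψ (s : ℂ) z
  ρ := S.ρ
  C0 := S.C0
  two_le := S.two_le_C0
  lc e s t z hs ht h := by
    have := S.lc e (s : ℂ) (t : ℂ) z (by rwa [Complex.norm_real]) (by rwa [Complex.norm_real]) h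
    rw [this, Complex.ofReal_add]
  ρ_p s z := by
    have := S.ρ_ψ (s : ℂ) z
    rwa [Complex.norm_real] at this
  p_zero z := by simpa using S.ψ_zero z

lemma meas_iter (n j : ℕ) : Measurable (fun q : ℝ × Ω => (S.rl.p (q.1 / n))^[j] q.2) := by
  induction j with
  | zero => simpa using measurable_snd
  | succ j ih =>
    simp only [Function.iterate_succ_apply']
    have h1 : Measurable (fun q : ℝ × Ω => (((q.1 / n : ℝ)) : ℂ)) :=
      Complex.measurable_ofReal.comp (measurable_fst.div_const _)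
    exact S.ψ_meas.comp (h1.prodMk ih)

lemma measSet_G (n : ℕ) : MeasurableSet {q : ℝ × Ω | S.rl.G n q.1 q.2} := by
  have : {q : ℝ × Ω | S.rl.G n q.1 q.2} = ⋂ j ∈ Finset.range n,
      {q : ℝ × Ω | S.C0 * (|q.1| / n) ≤ S.ρ ((S.rl.p (q.1 / n))^[j] q.2)} := by
    ext q
    simp only [RL.G, Set.mem_ofPred_eq, Set.mem_iInter, Finset.mem_range]
    rfl
  rw [this]
  refine Finset.measurableSet_biInter _ (fun j _ => ?_)
  refine measurableSet_le ?_ (S.ρ_meas.comp (S.meas_iter n j))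
  exact (((measurable_fst (α := ℝ) (β := Ω)).abs).div_const _).const_mul _

lemma measSet_G' (n : ℕ) (t : ℝ) : MeasurableSet {z : Ω | S.rl.G n t z} :=
  (measurable_prodMk_left (x := t)) (S.measSet_G n)

lemma measSet_good : MeasurableSet {z : Ω | S.rl.Good z} := by
  have : {z : Ω | S.rl.Good z} = ⋂ k : ℕ, ((⋃ n : ℕ, {z | 0 < n ∧ S.rl.G n k z}) ∩
      (⋃ n : ℕ, {z | 0 < n ∧ S.rl.G n (-k) z})) := by
    ext z
    simp [RL.good_iff]
  rw [this]
  refine MeasurableSet.iInter (fun k => MeasurableSet.inter ?_ ?_) <;>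
  · refine MeasurableSet.iUnion (fun n => ?_)
    exact (MeasurableSet.const _).inter (S.measSet_G' n _)

open Classical in
lemma meas_flow : Measurable (fun q : ℝ × Ω => S.rl.flow q.1 q.2) := by
  have hgood : MeasurableSet {q : ℝ × Ω | S.rl.Good q.2} := measurable_snd S.measSet_good
  have hex : ∀ q : ℝ × Ω, ∃ n : ℕ, (S.rl.Good q.2 → (0 < n ∧ S.rl.G n q.1 q.2)) := by
    intro q
    by_cases h : S.rl.Good q.2
    · obtain ⟨N, hN⟩ := RL.exists_G h q.1
      exact ⟨N + 1, fun _ => ⟨by omega, hN _ (by omega) (by omega)⟩⟩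
    · exact ⟨0, fun h' => absurd h' h⟩
  have hm := Measurable.find (f := fun n (q : ℝ × Ω) =>
      if S.rl.Good q.2 then (S.rl.p (q.1 / n))^[n] q.2 else q.2)
    (p := fun n (q : ℝ × Ω) => (S.rl.Good q.2 → (0 < n ∧ S.rl.G n q.1 q.2)))
    (fun n => Measurable.ite hgood (S.meas_iter n n) measurable_snd)
    (fun n => by
      have : {q : ℝ × Ω | S.rl.Good q.2 → (0 < n ∧ S.rl.G n q.1 q.2)} =
          {q : ℝ × Ω | S.rl.Good q.2}ᶜ ∪ ({q : ℝ × Ω | 0 < n} ∩ {q | S.rl.G n q.1 q.2}) := by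
        ext q
        simp only [Set.mem_ofPred_eq, Set.mem_union, Set.mem_compl_iff, Set.mem_inter_iff]
        tauto
      rw [this]
      exact hgood.compl.union ((MeasurableSet.const _).inter (S.measSet_G n)))
    hex
  convert hm with q
  by_cases h : S.rl.Good q.2
  · rw [if_pos h]
    have key : ∀ m : ℕ, (S.rl.Good q.2 → (0 < m ∧ S.rl.G m q.1 q.2)) →
        S.rl.flow q.1 q.2 = (S.rl.p (q.1 / m))^[m] q.2 :=
      fun m hm => RL.flow_value h (hm h).1 (hm h).2
    refine key _ ?_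
    exact @Nat.find_spec _ _ (hex q)
  · rw [if_neg h]
    exact RL.flow_of_not_good h _

lemma meas_flow' (t : ℝ) : Measurable (S.rl.flow t) :=
  S.meas_flow.comp (measurable_prodMk_left (x := t))

/-- one step does not increase measure -/
lemma step_le (h : ℝ) {E : Set Ω} (hE : MeasurableSet E) :
    μ ({z | S.C0 * |h| ≤ S.ρ z} ∩ S.rl.p h ⁻¹' E) ≤ μ E := by
  have hmψ : Measurable (S.ψ (h : ℂ)) := S.ψ_meas.comp (measurable_prodMk_left (x := (h : ℂ)))
  have h1 := S.ψ_map (h : ℂ) E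
  rw [Measure.map_apply hmψ hE, Measure.restrict_apply (hmψ hE), Complex.norm_real,
    Real.norm_eq_abs, Set.inter_comm] at h1
  exact h1

lemma meas_p (h : ℝ) : Measurable (S.rl.p h) :=
  S.ψ_meas.comp (measurable_prodMk_left (x := (h : ℂ)))

lemma iter_le (h : ℝ) (j : ℕ) : ∀ {E : Set Ω}, MeasurableSet E →
    μ ({z | ∀ i < j, S.C0 * |h| ≤ S.ρ ((S.rl.p h)^[i] z)} ∩ (S.rl.p h)^[j] ⁻¹' E) ≤ μ E := by
  induction j with
  | zero => intro E _; simp
  | succ j ih =>
    intro E hE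
    have hset : ({z | ∀ i < j + 1, S.C0 * |h| ≤ S.ρ ((S.rl.p h)^[i] z)} ∩
        (S.rl.p h)^[j + 1] ⁻¹' E) ⊆
        {z | ∀ i < j, S.C0 * |h| ≤ S.ρ ((S.rl.p h)^[i] z)} ∩
        (S.rl.p h)^[j] ⁻¹' ({z | S.C0 * |h| ≤ S.ρ z} ∩ S.rl.p h ⁻¹' E) := by
      rintro z ⟨h1, h2⟩
      refine ⟨fun i hi => h1 i (by omega), h1 j (by omega), ?_⟩
      have h3 : (S.rl.p h)^[j + 1] z ∈ E := h2
      rw [Function.iterate_succ_apply'] at h3
      exact h3
    refine (measure_mono hset).trans ((ih ?_).trans (S.step_le h hE))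
    exact (measurableSet_le measurable_const S.ρ_meas).inter (S.meas_p h hE)

/-- measure of the bad set at scale `t/n` -/
lemma bad_le {n : ℕ} (hn : 0 < n) (t : ℝ) :
    μ {z | ¬ S.rl.G n t z} ≤ ENNReal.ofReal (S.Cm * (S.C0 * |t|) ^ 2 / n) := by
  have hn0 : (0 : ℝ) < n := by exact_mod_cast hn
  set h := t / n with hh
  have habs : |t| / n = |h| := by rw [hh, abs_div, Nat.abs_cast]
  have hC : 0 ≤ S.C0 := by linarith [S.two_le_C0]
  have hset : {z | ¬ S.rl.G n t z} ⊆ ⋃ j ∈ Finset.range n,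
      ({z | ∀ i < j, S.C0 * |h| ≤ S.ρ ((S.rl.p h)^[i] z)} ∩
        (S.rl.p h)^[j] ⁻¹' {z | S.ρ z < S.C0 * |h|}) := by
    intro z hz
    have hz' : ∃ j, j < n ∧ S.ρ ((S.rl.p h)^[j] z) < S.C0 * |h| := by
      by_contra hc
      push Not at hc
      apply hz
      intro j hj
      rw [habs]
      exact hc j hj
    classical
    refine Set.mem_iUnion₂.2 ⟨Nat.find hz', Finset.mem_range.2 (Nat.find_spec hz').1, ?_, ?_⟩
    · intro i hi
      have := Nat.find_min hz' hi
      push Not at this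
      exact this (hi.trans (Nat.find_spec hz').1)
    · exact (Nat.find_spec hz').2
  calc μ {z | ¬ S.rl.G n t z} ≤ ∑ j ∈ Finset.range n, μ _ :=
        (measure_mono hset).trans (measure_biUnion_finset_le _ _)
    _ ≤ ∑ j ∈ Finset.range n, ENNReal.ofReal (S.Cm * (S.C0 * |h|) ^ 2) := by
        refine Finset.sum_le_sum (fun j _ => ?_)
        refine (S.iter_le h j (measurableSet_lt S.ρ_meas measurable_const)).trans ?_
        exact S.small _ (by positivity)
    _ = ENNReal.ofReal (S.Cm * (S.C0 * |t|) ^ 2 / n) := by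
        rw [Finset.sum_const, Finset.card_range, nsmul_eq_mul, ← ENNReal.ofReal_natCast,
          ← ENNReal.ofReal_mul hn0.le]
        congr 1
        rw [← habs]; field_simp

lemma tendsto_bad (t : ℝ) :
    Filter.Tendsto (fun n : ℕ => ENNReal.ofReal (S.Cm * (S.C0 * |t|) ^ 2 / n)) Filter.atTop
      (nhds 0) := by
  rw [← ENNReal.ofReal_zero]
  exact ENNReal.tendsto_ofReal (tendsto_const_div_atTop_nhds_zero_nat _)

lemma ae_exists_G (t : ℝ) : ∀ᵐ z ∂μ, ∃ n : ℕ, 0 < n ∧ S.rl.G n t z := by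
  rw [ae_iff]
  refine le_antisymm ?_ zero_le
  refine ge_of_tendsto (S.tendsto_bad t) ?_
  filter_upwards [Filter.eventually_gt_atTop 0] with n hn
  refine (measure_mono ?_).trans (S.bad_le hn t)
  intro z hz
  simp only [not_exists, not_and, Set.mem_ofPred_eq] at hz
  exact hz n hn

lemma ae_good : ∀ᵐ z ∂μ, S.rl.Good z := by
  have : ∀ᵐ z ∂μ, ∀ k : ℕ, (∃ n : ℕ, 0 < n ∧ S.rl.G n k z) ∧
      (∃ n : ℕ, 0 < n ∧ S.rl.G n (-k) z) := by
    rw [ae_all_iff]
    intro k
    exact (S.ae_exists_G k).and (S.ae_exists_G (-k))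
  filter_upwards [this] with z hz
  exact RL.good_iff.2 hz

lemma flow_le (t : ℝ) {E : Set Ω} (hE : MeasurableSet E) : μ (S.rl.flow t ⁻¹' E) ≤ μ E := by
  have hb := (S.tendsto_bad t).const_add (μ E)
  rw [add_zero] at hb
  refine ge_of_tendsto hb ?_
  filter_upwards [Filter.eventually_gt_atTop 0] with n hn
  have hset : S.rl.flow t ⁻¹' E ⊆
      (({z | ∀ i < n, S.C0 * |t / n| ≤ S.ρ ((S.rl.p (t / n))^[i] z)} ∩
        (S.rl.p (t / n))^[n] ⁻¹' E) ∪ {z | ¬ S.rl.G n t z}) ∪ {z | ¬ S.rl.Good z} := by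
    intro z hz
    by_cases hg : S.rl.Good z
    · by_cases hG : S.rl.G n t z
      · refine Or.inl (Or.inl ⟨fun i hi => ?_, ?_⟩)
        · have := hG i hi
          rwa [abs_div, Nat.abs_cast]
        · show (S.rl.p (t / n))^[n] z ∈ E
          rw [← RL.flow_value hg hn hG]; exact hz
      · exact Or.inl (Or.inr hG)
    · exact Or.inr hg
  have h0 : μ {z | ¬ S.rl.Good z} = 0 := S.ae_good
  calc μ (S.rl.flow t ⁻¹' E) ≤ (μ E + μ {z | ¬ S.rl.G n t z}) + 0 := by
        refine (measure_mono hset).trans ((measure_union_le _ _).trans ?_)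
        rw [h0]
        refine add_le_add_left ((measure_union_le _ _).trans ?_) _
        exact add_le_add_left (S.iter_le _ _ hE) _
    _ ≤ μ E + ENNReal.ofReal (S.Cm * (S.C0 * |t|) ^ 2 / n) := by
        rw [add_zero]
        exact add_le_add_right (S.bad_le hn t) _

theorem flow_mp [IsFiniteMeasure μ] (t : ℝ) : MeasurePreserving (S.rl.flow t) μ μ := by
  refine ⟨S.meas_flow' t, ?_⟩
  refine Measure.eq_of_le_of_measure_univ_eq ?_ ?_
  · refine Measure.le_iff.2 (fun E hE => ?_)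
    rw [Measure.map_apply (S.meas_flow' t) hE]
    exact S.flow_le t hE
  · rw [Measure.map_apply (S.meas_flow' t) MeasurableSet.univ, Set.preimage_univ]

end LocSys
end Crest.Agent.R103
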