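import Crest.Agent.R103.GlPath

set_option autoImplicit false

namespace Crest.Agent.R103
namespace RL
variable {Ω : Type*} {S : RL Ω}

/-- complete two-sided orbit -/
def Orbit (S : RL Ω) (γ : ℝ → Ω) : Prop := ∀ K : ℝ, ∃ δ > 0, S.IsOrb γ (-K) K δ

def Good (S : RL Ω) (z : Ω) : Prop := ∃ γ : ℝ → Ω, γ 0 = z ∧ S.Orbit γ

lemma IsOrb.congr {γ γ' : ℝ → Ω} {a b δ : ℝ} (h : S.IsOrb γ a b δ)
    (he : ∀ s, a ≤ s → s ≤ b → γ' s = γ s) : S.IsOrb γ' a b δ := by
  intro s h1 h2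
  obtain ⟨h3, h4⟩ := h s h1 h2
  rw [he s h1 h2]
  refine ⟨h3, fun t ht h5 h6 => ?_⟩
  rw [he _ h5 h6]; exact h4 t ht h5 h6

lemma Orbit.unique {γ γ' : ℝ → Ω} (h : S.Orbit γ) (h' : S.Orbit γ') (h0 : γ 0 = γ' 0) :
    γ = γ' := by
  funext s
  obtain ⟨δ, hδ, h1⟩ := h |s|
  obtain ⟨δ', hδ', h2⟩ := h' |s|
  exact h1.unique hδ hδ' h2 (c := 0) (by simp) (by simp) h0 s (neg_abs_le s) (le_abs_self s)

lemma Orbit.shift {γ : ℝ → Ω} (h : S.Orbit γ) (t : ℝ) : S.Orbit (fun s => γ (s + t)) := by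
  intro K
  obtain ⟨δ, hδ, h1⟩ := h (K + |t|)
  refine ⟨δ, hδ, fun s hs1 hs2 => ?_⟩
  have ha := neg_abs_le t
  have hb := le_abs_self t
  obtain ⟨h3, h4⟩ := h1 (s + t) (by linarith) (by linarith)
  refine ⟨h3, fun u hu h5 h6 => ?_⟩
  have := h4 u hu (by linarith) (by linarith)
  rw [← this]
  show γ (s + u + t) = γ (s + t + u)
  rw [add_right_comm]

lemma Orbit.big {γ : ℝ → Ω} (h : S.Orbit γ) {s t : ℝ} (hρ : S.C0 * |t| ≤ S.ρ (γ s)) :
    γ (s + t) = S.p t (γ s) := by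
  obtain ⟨δ, hδ, h1⟩ := h (|s| + |t|)
  have ha := neg_abs_le t
  have hb := le_abs_self t
  have hc := neg_abs_le s
  have hd := le_abs_self s
  have he := abs_nonneg t
  exact h1.big hδ (by linarith) (by linarith) (by linarith) (by linarith) hρ

lemma Orbit.iter {γ : ℝ → Ω} (h : S.Orbit γ) {n : ℕ} {t : ℝ} (hG : S.G n t (γ 0)) :
    ∀ j ≤ n, γ (j * (t / n)) = (S.p (t / n))^[j] (γ 0) := by
  intro j
  induction j with
  | zero => intro _; simp
  | succ j ih =>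
    intro hj
    have h1 := hG j (by omega)
    rw [← ih (by omega)] at h1
    rw [Function.iterate_succ_apply', ← ih (by omega)]
    have e : ((j + 1 : ℕ) : ℝ) * (t / n) = j * (t / n) + t / n := by push_cast; ring
    rw [e]
    refine h.big ?_
    rwa [abs_div, Nat.abs_cast]

lemma Orbit.value {γ : ℝ → Ω} (h : S.Orbit γ) {n : ℕ} (hn : 0 < n) {t : ℝ}
    (hG : S.G n t (γ 0)) : γ t = (S.p (t / n))^[n] (γ 0) := by
  rw [← h.iter hG n le_rfl]
  have : (n : ℝ) ≠ 0 := by exact_mod_cast hn.ne'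
  congr 1; field_simp

lemma Orbit.exists_G {γ : ℝ → Ω} (h : S.Orbit γ) (t : ℝ) :
    ∃ N : ℕ, ∀ n ≥ N, 0 < n → S.G n t (γ 0) := by
  obtain ⟨δ, hδ, h1⟩ := h |t|
  obtain ⟨N, hN⟩ := exists_nat_gt (|t| / δ)
  refine ⟨N, fun n hnN hn => ?_⟩
  have hn0 : (0 : ℝ) < n := by exact_mod_cast hn
  have hstep : |t| / n ≤ δ := by
    rw [div_le_iff₀ hn0]
    rw [div_lt_iff₀ hδ] at hN
    have : (N : ℝ) ≤ n := by exact_mod_cast hnN
    nlinarith
  have hin : ∀ j : ℕ, j ≤ n → -|t| ≤ j * (t / n) ∧ j * (t / n) ≤ |t| := by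
    intro j hj
    have hj' : (j : ℝ) / n ≤ 1 := by
      rw [div_le_one hn0]; exact_mod_cast hj
    have : |(j : ℝ) * (t / n)| ≤ |t| := by
      rw [abs_mul, abs_div, abs_of_pos hn0, abs_of_nonneg (Nat.cast_nonneg j)]
      calc (j : ℝ) * (|t| / n) = ((j : ℝ) / n) * |t| := by ring
        _ ≤ 1 * |t| := mul_le_mul_of_nonneg_right hj' (abs_nonneg _)
        _ = |t| := one_mul _
    exact abs_le.1 this
  have key : ∀ j ≤ n, γ (j * (t / n)) = (S.p (t / n))^[j] (γ 0) := by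
    intro j
    induction j with
    | zero => intro _; simp
    | succ j ih =>
      intro hj
      rw [Function.iterate_succ_apply', ← ih (by omega)]
      have e : ((j + 1 : ℕ) : ℝ) * (t / n) = j * (t / n) + t / n := by push_cast; ring
      have h2 := hin (j + 1) hj
      rw [e] at h2 ⊢
      refine (h1 _ (hin j (by omega)).1 (hin j (by omega)).2).2 _ ?_ h2.1 h2.2
      rwa [abs_div, abs_of_pos hn0]
  intro j hj
  rw [← key j hj.le]
  refine le_trans ?_ (h1 _ (hin j hj.le).1 (hin j hj.le).2).1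
  exact mul_le_mul_of_nonneg_left hstep C0_pos.le

lemma rev_G_iff {n : ℕ} {t : ℝ} {z : Ω} : S.rev.G n t z ↔ S.G n (-t) z := by
  have : (S.rev.p (t / n)) = S.p (-t / n) := by
    funext x; show S.p (-(t / n)) x = _; congr 1; ring
  unfold G
  rw [this, abs_neg]
  rfl

lemma IsOrb.of_rev {γ : ℝ → Ω} {a b δ : ℝ} (h : S.rev.IsOrb γ a b δ) :
    S.IsOrb (fun s => γ (-s)) (-b) (-a) δ := by
  intro s h1 h2
  obtain ⟨h3, h4⟩ := h (-s) (by linarith) (by linarith)
  refine ⟨h3, fun t ht h5 h6 => ?_⟩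
  have := h4 (-t) (by rwa [abs_neg]) (by linarith) (by linarith)
  show γ (-(s + t)) = S.p t (γ (-s))
  have e : -(s + t) = -s + -t := by ring
  rw [e, this]
  show S.p (- -t) _ = _
  rw [neg_neg]

lemma IsOrb.glue {γ γ' : ℝ → Ω} {a b δ δ' : ℝ} (ha : a ≤ 0) (hb : 0 ≤ b)
    (h : S.IsOrb γ 0 b δ) (h' : S.IsOrb γ' a 0 δ') (h0 : γ 0 = γ' 0) :
    S.IsOrb (fun s => if 0 ≤ s then γ s else γ' s) a b (min δ δ') := by
  have hA := h.mono le_rfl le_rfl (min_le_left δ δ')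
  have hB := h'.mono le_rfl le_rfl (min_le_right δ δ')
  set m := min δ δ' with hm
  have hz : S.C0 * m ≤ S.ρ (γ 0) := (hA 0 le_rfl hb).1
  intro s h1 h2
  by_cases hs : 0 ≤ s
  · simp only [hs, if_true]
    refine ⟨(hA s hs h2).1, fun t ht h5 h6 => ?_⟩
    by_cases hst : 0 ≤ s + t
    · simp only [hst, if_true]
      exact (hA s hs h2).2 t ht hst h6
    · simp only [hst, if_false]
      rw [not_le] at hst
      have htn : t < 0 := by linarith
      rw [abs_of_neg htn] at ht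
      have e1 := (hB 0 ha le_rfl).2 (s + t) (by rw [abs_of_neg hst]; linarith)
        (by linarith) (by linarith)
      have e2 := (hA 0 le_rfl hb).2 s (by rw [abs_of_nonneg hs]; linarith)
        (by linarith) (by linarith)
      rw [zero_add] at e1 e2
      rw [e1, e2, ← h0, S.lc m _ _ _ (by rw [abs_of_nonneg hs]; linarith)
        (by rw [abs_of_neg htn]; exact ht) hz]
  · simp only [hs, if_false]
    rw [not_le] at hs
    refine ⟨(hB s h1 hs.le).1, fun t ht h5 h6 => ?_⟩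
    by_cases hst : 0 ≤ s + t
    · simp only [hst, if_true]
      have htp : 0 < t := by linarith
      rw [abs_of_pos htp] at ht
      have e1 := (hA 0 le_rfl hb).2 (s + t) (by rw [abs_of_nonneg hst]; linarith)
        (by linarith) (by linarith)
      have e2 := (hB 0 ha le_rfl).2 s (by rw [abs_of_neg hs]; linarith)
        (by linarith) (by linarith)
      rw [zero_add] at e1 e2
      rw [e1, e2, ← h0, S.lc m _ _ _ (by rw [abs_of_neg hs]; linarith)
        (by rw [abs_of_pos htp]; exact ht) hz]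
    · simp only [hst, if_false]
      rw [not_le] at hst
      exact (hB s h1 hs.le).2 t ht h5 hst.le

theorem good_iff {z : Ω} :
    S.Good z ↔ ∀ k : ℕ, (∃ n : ℕ, 0 < n ∧ S.G n k z) ∧ (∃ n : ℕ, 0 < n ∧ S.G n (-k) z) := by
  constructor
  · rintro ⟨γ, rfl, h⟩ k
    constructor
    · obtain ⟨N, hN⟩ := h.exists_G k
      exact ⟨N + 1, by omega, hN _ (by omega) (by omega)⟩
    · obtain ⟨N, hN⟩ := h.exists_G (-k)
      exact ⟨N + 1, by omega, hN _ (by omega) (by omega)⟩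
  · intro h
    have hk : ∀ k : ℕ, ∃ γ : ℝ → Ω, γ 0 = z ∧ ∃ δ > 0, S.IsOrb γ (-(k + 1 : ℕ)) (k + 1 : ℕ) δ := by
      intro k
      obtain ⟨⟨n, hn, hG⟩, ⟨m, hm, hG'⟩⟩ := h (k + 1)
      have hkp : (0 : ℝ) < ((k + 1 : ℕ) : ℝ) := by positivity
      obtain ⟨γ, h0, δ, hδ, ho⟩ := exists_orb hn hkp hG
      obtain ⟨γ', h0', δ', hδ', ho'⟩ := exists_orb (S := S.rev) hm hkp (rev_G_iff.2 hG')
      refine ⟨fun s => if 0 ≤ s then γ s else γ' (-s), by simp [h0], min δ δ',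
        lt_min hδ hδ', ?_⟩
      have ho'' := ho'.of_rev
      rw [neg_zero] at ho''
      exact IsOrb.glue (by linarith) hkp.le ho ho'' (by simp [h0, h0'])
    choose Γ hΓ0 D hD hO using hk
    have hcons : ∀ (k l : ℕ) (s : ℝ), |s| ≤ (k + 1 : ℕ) → |s| ≤ (l + 1 : ℕ) → Γ k s = Γ l s := by
      intro k l s h1 h2
      have hA := (hO k).mono (a' := -|s|) (b' := |s|) (by linarith) h1 le_rfl
      have hB := (hO l).mono (a' := -|s|) (b' := |s|) (by linarith) h2 le_rfl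
      exact hA.unique (hD k) (hD l) hB (c := 0) (by simp) (by simp)
        (by rw [hΓ0, hΓ0]) s (neg_abs_le s) (le_abs_self s)
    refine ⟨fun s => Γ ⌈|s|⌉₊ s, hΓ0 _, fun K => ?_⟩
    refine ⟨D ⌈|K|⌉₊, hD _, ?_⟩
    have hK : |K| ≤ ((⌈|K|⌉₊ + 1 : ℕ) : ℝ) := by
      push_cast; linarith [Nat.le_ceil |K|]
    have hA := (hO ⌈|K|⌉₊).mono (a' := -K) (b' := K) (by
      have := le_abs_self K; linarith) (by
      have := le_abs_self K; linarith) le_rfl
    refine hA.congr (fun s hs1 hs2 => ?_)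
    refine hcons _ _ s ?_ ?_
    · push_cast; linarith [Nat.le_ceil |s|]
    · have : |s| ≤ K := abs_le.2 ⟨hs1, hs2⟩
      exact this.trans ((le_abs_self K).trans hK)

open Classical in
/-- the flow -/
noncomputable def flow (S : RL Ω) (t : ℝ) (z : Ω) : Ω :=
  if h : S.Good z then h.choose t else z

lemma flow_orbit {γ : ℝ → Ω} (h : S.Orbit γ) (t : ℝ) : S.flow t (γ 0) = γ t := by
  have hg : S.Good (γ 0) := ⟨γ, rfl, h⟩
  unfold flow
  rw [dif_pos hg]
  have := hg.choose_spec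
  have e := Orbit.unique this.2 h this.1
  rw [e]

lemma flow_of_not_good {z : Ω} (h : ¬ S.Good z) (t : ℝ) : S.flow t z = z := by
  unfold flow; rw [dif_neg h]

lemma flow_zero (z : Ω) : S.flow 0 z = z := by
  by_cases h : S.Good z
  · obtain ⟨γ, rfl, h⟩ := h
    exact flow_orbit h 0
  · exact flow_of_not_good h 0

lemma good_flow {z : Ω} (t : ℝ) : S.Good (S.flow t z) ↔ S.Good z := by
  constructor
  · intro h
    by_contra hc
    rw [flow_of_not_good hc] at h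
    exact hc h
  · rintro ⟨γ, rfl, h⟩
    rw [flow_orbit h]
    exact ⟨fun s => γ (s + t), by simp, h.shift t⟩

lemma flow_add (s t : ℝ) (z : Ω) : S.flow (s + t) z = S.flow s (S.flow t z) := by
  by_cases h : S.Good z
  · obtain ⟨γ, rfl, h⟩ := h
    rw [flow_orbit h, flow_orbit h]
    have := flow_orbit (h.shift t) s
    simp only [zero_add] at this
    rw [this]
  · rw [flow_of_not_good h, flow_of_not_good h, flow_of_not_good h]

/-- exact value of the flow at a good point through good steps -/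
lemma flow_value {z : Ω} (hz : S.Good z) {n : ℕ} (hn : 0 < n) {t : ℝ} (hG : S.G n t z) :
    S.flow t z = (S.p (t / n))^[n] z := by
  obtain ⟨γ, rfl, h⟩ := hz
  rw [flow_orbit h, h.value hn hG]

lemma exists_G {z : Ω} (hz : S.Good z) (t : ℝ) : ∃ N : ℕ, ∀ n ≥ N, 0 < n → S.G n t z := by
  obtain ⟨γ, rfl, h⟩ := hz
  exact h.exists_G t

lemma flow_big {z : Ω} (hz : S.Good z) {t : ℝ} (h : S.C0 * |t| ≤ S.ρ z) :
    S.flow t z = S.p t z := by
  obtain ⟨γ, rfl, ho⟩ := hz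
  rw [flow_orbit ho]
  have := ho.big (s := 0) (t := t) h
  rwa [zero_add] at this

lemma ρ_flow (t : ℝ) (z : Ω) : |S.ρ (S.flow t z) - S.ρ z| ≤ |t| := by
  by_cases h : S.Good z
  · obtain ⟨N, hN⟩ := exists_G h t
    have hn : 0 < N + 1 := by omega
    have hG := hN (N + 1) (by omega) hn
    rw [flow_value h hn hG]
    have hn0 : (0 : ℝ) < ((N + 1 : ℕ) : ℝ) := by positivity
    have key : ∀ j : ℕ, |S.ρ ((S.p (t / ((N + 1 : ℕ) : ℝ)))^[j] z) - S.ρ z| ≤
        j * (|t| / ((N + 1 : ℕ) : ℝ)) := by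
      intro j
      induction j with
      | zero => simp
      | succ j ih =>
        rw [Function.iterate_succ_apply']
        have h1 := S.ρ_p (t / ((N + 1 : ℕ) : ℝ)) ((S.p (t / ((N + 1 : ℕ) : ℝ)))^[j] z)
        rw [abs_div, Nat.abs_cast] at h1
        have h2 := abs_sub_le (S.ρ (S.p (t / ((N + 1 : ℕ) : ℝ)) ((S.p (t / ((N + 1 : ℕ) : ℝ)))^[j] z)))
          (S.ρ ((S.p (t / ((N + 1 : ℕ) : ℝ)))^[j] z)) (S.ρ z)
        push_cast at h1 h2 ih ⊢
        linarith
    have := key (N + 1)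
    have e : ((N + 1 : ℕ) : ℝ) * (|t| / ((N + 1 : ℕ) : ℝ)) = |t| := by field_simp
    rwa [e] at this
  · rw [flow_of_not_good h]; simp

end RL
end Crest.Agent.R103
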