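import Mathlib

set_option autoImplicit false

namespace Crest.Agent.R103

/-- one-parameter local system -/
structure RL (Ω : Type*) where
  p : ℝ → Ω → Ω
  ρ : Ω → ℝ
  C0 : ℝ
  two_le : 2 ≤ C0
  lc : ∀ (e s t : ℝ) (z : Ω), |s| ≤ e → |t| ≤ e → C0 * e ≤ ρ z → p t (p s z) = p (s + t) z
  ρ_p : ∀ (s : ℝ) (z : Ω), |ρ (p s z) - ρ z| ≤ |s|
  p_zero : ∀ z, p 0 z = z

namespace RL
variable {Ω : Type*} (S : RL Ω)

/-- reversed system -/
def rev : RL Ω where
  p s z := S.p (-s) z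
  ρ := S.ρ
  C0 := S.C0
  two_le := S.two_le
  lc e s t z hs ht h := by
    have := S.lc e (-s) (-t) z (by rwa [abs_neg]) (by rwa [abs_neg]) h
    rw [this]; congr 1; ring
  ρ_p s z := by simpa using S.ρ_p (-s) z
  p_zero z := by simpa using S.p_zero z

/-- orbit on the interval `[a,b]` with step size `δ`. -/
def IsOrb (γ : ℝ → Ω) (a b δ : ℝ) : Prop :=
  ∀ s, a ≤ s → s ≤ b → S.C0 * δ ≤ S.ρ (γ s) ∧
    ∀ h, |h| ≤ δ → a ≤ s + h → s + h ≤ b → γ (s + h) = S.p h (γ s)

variable {S}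

lemma C0_pos : 0 < S.C0 := by linarith [S.two_le]

lemma IsOrb.mono {γ : ℝ → Ω} {a b δ a' b' δ' : ℝ} (h : S.IsOrb γ a b δ) (ha : a ≤ a')
    (hb : b' ≤ b) (hδ : δ' ≤ δ) : S.IsOrb γ a' b' δ' := by
  intro s h1 h2
  obtain ⟨h3, h4⟩ := h s (ha.trans h1) (h2.trans hb)
  refine ⟨(mul_le_mul_of_nonneg_left hδ C0_pos.le).trans h3, ?_⟩
  intro t ht h5 h6
  exact h4 t (ht.trans hδ) (ha.trans h5) (h6.trans hb)

/-- uniqueness of orbits -/
lemma IsOrb.unique {γ γ' : ℝ → Ω} {a b δ δ' : ℝ} (hδ : 0 < δ) (hδ' : 0 < δ')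
    (h : S.IsOrb γ a b δ) (h' : S.IsOrb γ' a b δ') {c : ℝ} (hac : a ≤ c) (hcb : c ≤ b)
    (h0 : γ c = γ' c) : ∀ s, a ≤ s → s ≤ b → γ s = γ' s := by
  intro s hs1 hs2
  obtain ⟨n, hn⟩ := exists_nat_gt (|s - c| / min δ δ')
  have hm : 0 < min δ δ' := lt_min hδ hδ'
  have hn0 : 0 < (n : ℝ) := lt_of_le_of_lt (by positivity) hn
  have hstep : |(s - c) / n| ≤ min δ δ' := by
    rw [abs_div, abs_of_pos hn0, div_le_iff₀ hn0]
    rw [div_lt_iff₀ hm] at hn
    linarith
  have key : ∀ j : ℕ, j ≤ n → γ (c + j * ((s - c) / n)) = γ' (c + j * ((s - c) / n)) := by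
    intro j
    induction j with
    | zero => intro _; simpa using h0
    | succ j ih =>
      intro hj
      have ih' := ih (by omega)
      have hconv : ∀ i : ℕ, i ≤ n → a ≤ c + i * ((s - c) / n) ∧ c + i * ((s - c) / n) ≤ b := by
        intro i hi
        have hi' : (i : ℝ) / n ≤ 1 := by
          rw [div_le_one hn0]; exact_mod_cast hi
        have hi0 : 0 ≤ (i : ℝ) / n := by positivity
        have e : c + i * ((s - c) / n) = (1 - (i : ℝ) / n) * c + ((i : ℝ) / n) * s := by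
          field_simp; ring
        rw [e]
        constructor <;> nlinarith
      obtain ⟨h1, h2⟩ := hconv j (by omega)
      obtain ⟨h3, h4⟩ := hconv (j + 1) hj
      have e : c + ((j + 1 : ℕ) : ℝ) * ((s - c) / n) = (c + j * ((s - c) / n)) + (s - c) / n := by
        push_cast; ring
      rw [e] at h3 h4 ⊢
      rw [(h _ h1 h2).2 _ (hstep.trans (min_le_left _ _)) h3 h4,
        (h' _ h1 h2).2 _ (hstep.trans (min_le_right _ _)) h3 h4, ih']
  have := key n le_rfl
  have e : c + n * ((s - c) / n) = s := by field_simp; ring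
  rwa [e] at this

/-- a big step inside an orbit -/
lemma IsOrb.big {γ : ℝ → Ω} {a b δ : ℝ} (hδ : 0 < δ) (h : S.IsOrb γ a b δ) {s t : ℝ}
    (hs1 : a ≤ s) (hs2 : s ≤ b) (ht1 : a ≤ s + t) (ht2 : s + t ≤ b)
    (hρ : S.C0 * |t| ≤ S.ρ (γ s)) : γ (s + t) = S.p t (γ s) := by
  obtain ⟨n, hn⟩ := exists_nat_gt (|t| / δ)
  have hn0 : 0 < (n : ℝ) := lt_of_le_of_lt (by positivity) hn
  have hstep : |t / n| ≤ δ := by
    rw [abs_div, abs_of_pos hn0, div_le_iff₀ hn0]
    rw [div_lt_iff₀ hδ] at hn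
    linarith
  have key : ∀ j : ℕ, j ≤ n → γ (s + j * (t / n)) = S.p (j * (t / n)) (γ s) := by
    intro j
    induction j with
    | zero => intro _; simp [S.p_zero]
    | succ j ih =>
      intro hj
      have ih' := ih (by omega)
      have hconv : ∀ i : ℕ, i ≤ n → a ≤ s + i * (t / n) ∧ s + i * (t / n) ≤ b := by
        intro i hi
        have hi' : (i : ℝ) / n ≤ 1 := by
          rw [div_le_one hn0]; exact_mod_cast hi
        have hi0 : 0 ≤ (i : ℝ) / n := by positivity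
        have e : s + i * (t / n) = (1 - (i : ℝ) / n) * s + ((i : ℝ) / n) * (s + t) := by
          field_simp; ring
        rw [e]
        constructor <;> nlinarith
      obtain ⟨h1, h2⟩ := hconv j (by omega)
      obtain ⟨h3, h4⟩ := hconv (j + 1) hj
      have e : s + ((j + 1 : ℕ) : ℝ) * (t / n) = (s + j * (t / n)) + t / n := by
        push_cast; ring
      rw [e] at h3 h4 ⊢
      have habs : ∀ i : ℕ, i ≤ n → |(i : ℝ) * (t / n)| ≤ |t| := by
        intro i hi
        rw [abs_mul, abs_div, abs_of_pos hn0, abs_of_nonneg (Nat.cast_nonneg i)]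
        have hi' : (i : ℝ) / n ≤ 1 := by
          rw [div_le_one hn0]; exact_mod_cast hi
        calc (i : ℝ) * (|t| / n) = ((i : ℝ) / n) * |t| := by ring
          _ ≤ 1 * |t| := mul_le_mul_of_nonneg_right hi' (abs_nonneg _)
          _ = |t| := one_mul _
      have hone : |t / n| ≤ |t| := by
        have := habs 1 (by omega)
        simpa using this
      rw [(h _ h1 h2).2 _ hstep h3 h4, ih',
        S.lc |t| _ _ _ (habs j (by omega)) hone hρ]
      congr 1; push_cast; ring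
  have := key n le_rfl
  have e : (n : ℝ) * (t / n) = t := by field_simp
  rwa [e] at this

/-- the "good step" predicate: `n` steps of size `t/n`. -/
def G (S : RL Ω) (n : ℕ) (t : ℝ) (z : Ω) : Prop :=
  ∀ j < n, S.C0 * (|t| / n) ≤ S.ρ ((S.p (t / n))^[j] z)

/-- existence of an orbit on `[0,t]` from good steps -/
lemma exists_orb {n : ℕ} (hn : 0 < n) {t : ℝ} (ht : 0 < t) {z : Ω} (hG : S.G n t z) :
    ∃ γ : ℝ → Ω, γ 0 = z ∧ ∃ δ > 0, S.IsOrb γ 0 t δ := by
  have hn0 : (0 : ℝ) < n := by exact_mod_cast hn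
  set h0 := t / n with hh0
  have h0p : 0 < h0 := by positivity
  have habs : |t| / n = h0 := by rw [abs_of_pos ht]
  set w : ℕ → Ω := fun j => (S.p h0)^[j] z with hw
  have hwS : ∀ j, w (j + 1) = S.p h0 (w j) := fun j => by
    simp only [hw, Function.iterate_succ_apply']
  have hGw : ∀ j < n, S.C0 * h0 ≤ S.ρ (w j) := by
    intro j hj
    have := hG j hj
    rwa [habs] at this
  have htn : t = n * h0 := by rw [hh0]; field_simp
  refine ⟨fun s => S.p (s - (⌊s / h0⌋₊ : ℝ) * h0) (w ⌊s / h0⌋₊), ?_, h0 / 2, by positivity, ?_⟩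
  · simp [S.p_zero, hw]
  -- values
  have hval : ∀ (j : ℕ) (r : ℝ), j < n → 0 ≤ r → r < 2 * h0 → (r < h0 ∨ r ≥ h0) →
      S.p ((j * h0 + r) - (⌊(j * h0 + r) / h0⌋₊ : ℝ) * h0) (w ⌊(j * h0 + r) / h0⌋₊)
        = S.p r (w j) := by
    intro j r hj hr0 hr2 hcase
    rcases hcase with hlt | hge
    · have hf : ⌊(j * h0 + r) / h0⌋₊ = j := by
        rw [Nat.floor_eq_iff (by positivity)]
        constructor
        · rw [le_div_iff₀ h0p]; linarith
        · rw [div_lt_iff₀ h0p]; nlinarith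
      rw [hf]; congr 1; ring
    · have hf : ⌊(j * h0 + r) / h0⌋₊ = j + 1 := by
        rw [Nat.floor_eq_iff (by positivity)]
        constructor
        · rw [le_div_iff₀ h0p]; push_cast; linarith
        · rw [div_lt_iff₀ h0p]; push_cast; nlinarith
      rw [hf, hwS, S.lc h0 _ _ _ (by rw [abs_of_pos h0p]) ?_ (hGw j hj)]
      · congr 1; push_cast; ring
      · rw [abs_le]; push_cast; constructor <;> nlinarith
  -- decomposition of a point of `[0,t]`
  have hdec : ∀ s, 0 ≤ s → s ≤ t → ∃ (j : ℕ) (r : ℝ), j < n ∧ 0 ≤ r ∧ r ≤ h0 ∧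
      s = j * h0 + r := by
    intro s hs1 hs2
    by_cases hst : s = t
    · refine ⟨n - 1, h0, by omega, h0p.le, le_rfl, ?_⟩
      rw [hst, htn]
      have : ((n - 1 : ℕ) : ℝ) = n - 1 := by
        rw [Nat.cast_sub (by omega)]; simp
      rw [this]; ring
    · have hlt : s < t := lt_of_le_of_ne hs2 hst
      refine ⟨⌊s / h0⌋₊, s - ⌊s / h0⌋₊ * h0, ?_, ?_, ?_, by ring⟩
      · rw [Nat.floor_lt (by positivity), div_lt_iff₀ h0p, ← htn]; exact hlt
      · have := Nat.floor_le (a := s / h0) (by positivity)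
        rw [le_div_iff₀ h0p] at this; linarith
      · have := Nat.lt_floor_add_one (s / h0)
        rw [div_lt_iff₀ h0p] at this; nlinarith
  have hvs : ∀ (j : ℕ) (r : ℝ), j < n → 0 ≤ r → r < 2 * h0 →
      S.p ((j * h0 + r) - (⌊(j * h0 + r) / h0⌋₊ : ℝ) * h0) (w ⌊(j * h0 + r) / h0⌋₊)
        = S.p r (w j) := fun j r hj h1 h2 => hval j r hj h1 h2 (lt_or_ge r h0)
  have hfwd : ∀ s h, 0 ≤ s → 0 ≤ h → h ≤ h0 / 2 → s + h ≤ t →
      S.C0 * (h0 / 2) ≤ S.ρ (S.p (s - (⌊s / h0⌋₊ : ℝ) * h0) (w ⌊s / h0⌋₊)) ∧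
      S.p ((s + h) - (⌊(s + h) / h0⌋₊ : ℝ) * h0) (w ⌊(s + h) / h0⌋₊)
        = S.p h (S.p (s - (⌊s / h0⌋₊ : ℝ) * h0) (w ⌊s / h0⌋₊)) := by
    intro s h hs hh0' hh1 hst
    obtain ⟨j, r, hj, hr0, hr1, rfl⟩ := hdec s hs (by linarith)
    rw [hvs j r hj hr0 (by linarith)]
    have e : (j : ℝ) * h0 + r + h = j * h0 + (r + h) := by ring
    rw [e, hvs j (r + h) hj (by linarith) (by linarith)]
    refine ⟨?_, ?_⟩
    · have h1 := S.ρ_p r (w j)
      have h2 := hGw j hj
      have h3 := S.two_le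
      rw [abs_of_nonneg hr0, abs_le] at h1
      nlinarith [h1.1]
    · rw [S.lc h0 _ _ _ (by rw [abs_of_nonneg hr0]; exact hr1)
        (by rw [abs_of_nonneg hh0']; linarith) (hGw j hj)]
  intro s hs1 hs2
  refine ⟨?_, ?_⟩
  · have := (hfwd s 0 hs1 le_rfl (by positivity) (by simpa using hs2)).1
    exact this
  · intro h hh h1 h2
    rcases le_or_gt 0 h with hp | hneg
    · rw [abs_of_nonneg hp] at hh
      exact (hfwd s h hs1 hp hh h2).2
    · rw [abs_of_neg hneg] at hh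
      have h3 := hfwd (s + h) (-h) h1 (by linarith) hh (by linarith)
      have e : s + h + -h = s := by ring
      rw [e] at h3
      simp only
      rw [h3.2, S.lc (h0 / 2) _ _ _ (by rw [abs_neg, abs_of_neg hneg]; exact hh)
        (by rw [abs_of_neg hneg]; exact hh) h3.1]
      have e2 : -h + h = (0 : ℝ) := by ring
      rw [e2, S.p_zero]

end RL

end Crest.Agent.R103
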