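import Crest.Agent.R103.GlMeas
import Crest.Agent.R103.Defs

set_option autoImplicit false
open MeasureTheory Filter Topology

namespace Crest.Agent.R103
namespace LocSys
variable {Ω : Type*} [MeasurableSpace Ω] [TopologicalSpace Ω] {μ : Measure Ω} (S : LocSys Ω μ)

lemma R_neg_R (a : ℝ) (z : Ω) : S.R (-a) (S.R a z) = z := by
  rw [← S.R_add, neg_add_cancel, S.R_zero]

/-- reversal of orbits by the rotation by `π` -/
lemma orbit_rev {γ : ℝ → Ω} (h : S.rl.Orbit γ) :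
    S.rl.Orbit (fun s => S.R Real.pi (γ (-s))) := by
  intro K
  obtain ⟨δ, hδ, h1⟩ := h K
  refine ⟨δ, hδ, fun s hs1 hs2 => ?_⟩
  obtain ⟨h3, h4⟩ := h1 (-s) (by linarith) (by linarith)
  refine ⟨?_, fun t ht h5 h6 => ?_⟩
  · show S.C0 * δ ≤ S.ρ (S.R Real.pi (γ (-s)))
    rw [S.ρ_R]; exact h3
  · have e := h4 (-t) (by rwa [abs_neg]) (by linarith) (by linarith)
    have e1 : -(s + t) = -s + -t := by ring
    show S.R Real.pi (γ (-(s + t))) = S.ψ (t : ℂ) (S.R Real.pi (γ (-s)))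
    rw [e1, e, S.ψ_R]
    show S.R Real.pi (S.ψ (((-t : ℝ)) : ℂ) (γ (-s))) = _
    congr 2
    rw [Complex.exp_pi_mul_I]; push_cast; ring

lemma flow_rev (t : ℝ) (z : Ω) :
    S.rl.flow t (S.R Real.pi z) = S.R Real.pi (S.rl.flow (-t) z) := by
  by_cases h : S.rl.Good z
  · obtain ⟨γ, rfl, ho⟩ := h
    have h1 := RL.flow_orbit (S.orbit_rev ho) t
    simp only [neg_zero] at h1
    rw [h1, RL.flow_orbit ho]
  · have h' : ¬ S.rl.Good (S.R Real.pi z) := by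
      rintro ⟨γ, h0, ho⟩
      apply h
      refine ⟨_, ?_, S.orbit_rev ho⟩
      simp only [neg_zero, h0, ← S.R_add]
      rw [← two_mul, S.R_two_pi]
    rw [RL.flow_of_not_good h', RL.flow_of_not_good h]

/-- value of the translation at points far from the singularities -/
lemma tr_eq {ζ : ℂ} {z : Ω} (hg : S.rl.Good (S.R ζ.arg z)) (hρ : S.C0 * ‖ζ‖ ≤ S.ρ z) :
    tr S.rl.flow S.R ζ z = S.ψ ζ z := by
  unfold tr
  rw [RL.flow_big hg (by
    show S.C0 * |‖ζ‖| ≤ S.ρ (S.R ζ.arg z)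
    rw [S.ρ_R, abs_of_nonneg (norm_nonneg ζ)]; exact hρ)]
  show S.R (-ζ.arg) (S.ψ ((‖ζ‖ : ℝ) : ℂ) (S.R ζ.arg z)) = _
  rw [S.ψ_R, S.R_neg_R, mul_comm, Complex.norm_mul_exp_arg_mul_I]

lemma tr_of_not_good {ζ : ℂ} {z : Ω} (hg : ¬ S.rl.Good (S.R ζ.arg z)) :
    tr S.rl.flow S.R ζ z = z := by
  unfold tr
  rw [RL.flow_of_not_good hg, S.R_neg_R]

lemma ae_good_R (a : ℝ) : ∀ᵐ z ∂μ, S.rl.Good (S.R a z) :=
  (S.R_mp a).quasiMeasurePreserving.ae S.ae_good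

lemma tr_mp [IsFiniteMeasure μ] (ζ : ℂ) : MeasurePreserving (tr S.rl.flow S.R ζ) μ μ :=
  (S.R_mp _).comp ((S.flow_mp _).comp (S.R_mp _))

/-- a.e. value of the translation -/
lemma ae_tr_eq (ζ : ℂ) : ∀ᵐ z ∂μ, S.C0 * ‖ζ‖ ≤ S.ρ z → tr S.rl.flow S.R ζ z = S.ψ ζ z := by
  filter_upwards [S.ae_good_R ζ.arg] with z hz hρ
  exact S.tr_eq hz hρ

/-- the plane system of a local plane system -/
noncomputable def toPlane [IsFiniteMeasure μ] : PlaneSys Ω μ where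
  φ := S.rl.flow
  R := S.R
  ρ := S.ρ
  C₀ := 2 * S.C0
  Cv := S.Cm
  one_le_C₀ := by linarith [S.two_le_C0]
  Cv_nonneg := S.Cm_nonneg
  φ_meas := S.meas_flow
  φ_zero := RL.flow_zero
  φ_add := RL.flow_add
  φ_mp := S.flow_mp
  R_meas := S.R_meas
  R_zero := S.R_zero
  R_add := S.R_add
  R_two_pi := S.R_two_pi
  R_mp := S.R_mp
  R_cont := S.R_cont
  ρ_meas := S.ρ_meas
  ρ_nonneg := S.ρ_nonneg
  ρ_R := S.ρ_R
  ρ_φ t z := by
    have := (abs_le.1 (RL.ρ_flow (S := S.rl) t z)).2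
    have h2 : S.ρ (S.rl.flow t z) - S.ρ z ≤ |t| := this
    linarith
  vol b hb := S.small b hb.le
  rev t := Eventually.of_forall (S.flow_rev t)
  LC ε hε ζ ζ' hζ hζ' := by
    have h1 := S.ae_tr_eq ζ
    have h2 := S.ae_tr_eq (ζ + ζ')
    have h3 := (S.tr_mp ζ).quasiMeasurePreserving.ae (S.ae_tr_eq ζ')
    filter_upwards [h1, h2, h3] with z a b c hρ
    have hC := S.two_le_C0
    have hn : 0 ≤ ‖ζ‖ := norm_nonneg _
    have e1 : S.C0 * ‖ζ‖ ≤ S.ρ z := by nlinarith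
    have e2 : S.C0 * ‖ζ + ζ'‖ ≤ S.ρ z := by
      have := norm_add_le ζ ζ'
      nlinarith [norm_nonneg (ζ + ζ')]
    rw [a e1] at c ⊢
    have e3 : S.C0 * ‖ζ'‖ ≤ S.ρ (S.ψ ζ z) := by
      have := (abs_le.1 (S.ρ_ψ ζ z)).1
      nlinarith
    rw [c e3, b e2]
    exact S.lc ε ζ ζ' z hζ hζ' (by nlinarith)
  cont := by
    have hpos : ∀ᵐ z ∂μ, 0 < S.ρ z := by
      rw [ae_iff]
      have h0 : ∀ n : ℕ, μ {z | ¬ 0 < S.ρ z} ≤ ENNReal.ofReal (S.Cm * (1 / ((n : ℝ) + 1)) ^ 2) := by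
        intro n
        refine (measure_mono ?_).trans (S.small (1 / ((n : ℝ) + 1)) (by positivity))
        intro z hz
        have : S.ρ z ≤ 0 := not_lt.1 hz
        exact lt_of_le_of_lt this (by positivity)
      have ht : Tendsto (fun n : ℕ => ENNReal.ofReal (S.Cm * (1 / ((n : ℝ) + 1)) ^ 2)) atTop
          (𝓝 0) := by
        rw [← ENNReal.ofReal_zero]
        refine ENNReal.tendsto_ofReal ?_
        have := ((tendsto_one_div_add_atTop_nhds_zero_nat (𝕜 := ℝ)).pow 2).const_mul S.Cm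
        simpa using this
      exact le_antisymm (ge_of_tendsto' ht h0) zero_le
    filter_upwards [S.cont, hpos] with z hz hρ
    have hsmall : ∀ᶠ ζ : ℂ in 𝓝 0, S.C0 * ‖ζ‖ ≤ S.ρ z := by
      have h1 : Tendsto (fun ζ : ℂ => S.C0 * ‖ζ‖) (𝓝 0) (𝓝 (S.C0 * ‖(0 : ℂ)‖)) :=
        (continuous_norm.tendsto _).const_mul _
      rw [norm_zero, mul_zero] at h1
      exact (h1.eventually (eventually_lt_nhds hρ)).mono (fun _ h => h.le)
    intro U hU
    have h2 := hz hU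
    rw [mem_map] at h2 ⊢
    filter_upwards [h2, hsmall] with ζ h3 h4
    by_cases hg : S.rl.Good (S.R ζ.arg z)
    · show tr S.rl.flow S.R ζ z ∈ U
      rw [S.tr_eq hg h4]; exact h3
    · show tr S.rl.flow S.R ζ z ∈ U
      rw [S.tr_of_not_good hg]; exact mem_of_mem_nhds hU

lemma toPlane_φ [IsFiniteMeasure μ] : S.toPlane.φ = S.rl.flow := rfl
lemma toPlane_T [IsFiniteMeasure μ] : S.toPlane.T = tr S.rl.flow S.R := rfl

end LocSys
end Crest.Agent.R103
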