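import Mathlib

set_option autoImplicit false
set_option linter.unusedSectionVars false

/-!
# R103, B1: the integral operator of the indicator of a measurable set is compact
-/

open MeasureTheory Filter Topology
open scoped InnerProductSpace ENNReal

noncomputable section

namespace Crest.Agent.R103.KerA

variable {Ω : Type*} [MeasurableSpace Ω] {μ : Measure Ω} [IsFiniteMeasure μ]

/-- the tensor `(x, y) ↦ conj (g x) * f y` -/
def tens (g f : Ω → ℂ) (z : Ω × Ω) : ℂ := (starRingEnd ℂ) (g z.1) * f z.2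

theorem ae_fst {p : Ω → Prop} (h : ∀ᵐ x ∂μ, p x) : ∀ᵐ z ∂(μ.prod μ), p z.1 :=
  Measure.quasiMeasurePreserving_fst.ae h

theorem ae_snd {p : Ω → Prop} (h : ∀ᵐ x ∂μ, p x) : ∀ᵐ z ∂(μ.prod μ), p z.2 :=
  Measure.quasiMeasurePreserving_snd.ae h

theorem tens_aesm (g f : Lp ℂ 2 μ) : AEStronglyMeasurable (tens g f) (μ.prod μ) := by
  have h1 : AEStronglyMeasurable (fun z : Ω × Ω => g z.1) (μ.prod μ) :=
    (Lp.aestronglyMeasurable g).comp_fst
  have h2 : AEStronglyMeasurable (fun z : Ω × Ω => f z.2) (μ.prod μ) :=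
    (Lp.aestronglyMeasurable f).comp_snd
  exact (Complex.continuous_conj.comp_aestronglyMeasurable h1).mul h2

theorem sq_integrable (f : Lp ℂ 2 μ) : Integrable (fun x => ‖f x‖ ^ 2) μ :=
  (memLp_two_iff_integrable_sq_norm (Lp.aestronglyMeasurable f)).1 (Lp.memLp f)

theorem integral_sq (f : Lp ℂ 2 μ) : ∫ x, ‖f x‖ ^ 2 ∂μ = ‖f‖ ^ 2 := by
  have h := L2.inner_def (𝕜 := ℂ) f f
  rw [inner_self_eq_norm_sq_to_K] at h
  have h2 : ∀ x, ⟪f x, f x⟫_ℂ = ((‖f x‖ ^ 2 : ℝ) : ℂ) := by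
    intro x
    rw [inner_self_eq_norm_sq_to_K]; norm_cast
  simp only [h2] at h
  rw [integral_complex_ofReal] at h
  have h3 : ((‖f‖ ^ 2 : ℝ) : ℂ) = ((∫ x, ‖f x‖ ^ 2 ∂μ : ℝ) : ℂ) := by
    rw [← h]; norm_cast
  exact_mod_cast h3.symm

theorem tens_sq_integrable (g f : Lp ℂ 2 μ) :
    Integrable (fun z => ‖tens g f z‖ ^ 2) (μ.prod μ) := by
  have h := (sq_integrable g).mul_prod (sq_integrable f)
  refine h.congr (Eventually.of_forall fun z => ?_)
  simp only [tens, norm_mul, RCLike.norm_conj, mul_pow]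

theorem tens_integral_sq (g f : Lp ℂ 2 μ) :
    ∫ z, ‖tens g f z‖ ^ 2 ∂(μ.prod μ) = ‖g‖ ^ 2 * ‖f‖ ^ 2 := by
  have h : (fun z : Ω × Ω => ‖tens g f z‖ ^ 2) = fun z => (‖g z.1‖ ^ 2) * (‖f z.2‖ ^ 2) := by
    funext z
    simp only [tens, norm_mul, RCLike.norm_conj, mul_pow]
  rw [h, integral_prod_mul (fun x => ‖g x‖ ^ 2) (fun y => ‖f y‖ ^ 2), integral_sq, integral_sq]

theorem tens_memLp (g f : Lp ℂ 2 μ) : MemLp (tens g f) 2 (μ.prod μ) :=
  (memLp_two_iff_integrable_sq_norm (tens_aesm g f)).2 (tens_sq_integrable g f)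

theorem tens_integrable (g f : Lp ℂ 2 μ) : Integrable (tens g f) (μ.prod μ) :=
  (tens_memLp g f).integrable (by norm_num)

/-- the form -/
def form (s : Set (Ω × Ω)) (g f : Lp ℂ 2 μ) : ℂ := ∫ z in s, tens g f z ∂(μ.prod μ)

theorem form_bound (s : Set (Ω × Ω)) (g f : Lp ℂ 2 μ) :
    ‖form s g f‖ ≤ Real.sqrt ((μ.prod μ).real s) * ‖g‖ * ‖f‖ := by
  have h1 : ‖form s g f‖ ≤ ∫ z in s, ‖tens g f z‖ ∂(μ.prod μ) := norm_integral_le_integral_norm _
  -- Cauchy-Schwarz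
  have h2 : (∫ z in s, ‖tens g f z‖ ∂(μ.prod μ)) ≤
      Real.sqrt ((μ.prod μ).real s) * Real.sqrt (∫ z in s, ‖tens g f z‖ ^ 2 ∂(μ.prod μ)) := by
    have hcs := integral_mul_le_Lp_mul_Lq_of_nonneg (μ := (μ.prod μ).restrict s)
      (Real.HolderConjugate.two_two) (f := fun _ => (1 : ℝ)) (g := fun z => ‖tens g f z‖)
      (Eventually.of_forall fun _ => zero_le_one) (Eventually.of_forall fun _ => norm_nonneg _)
      (memLp_const _) (by
        have := ((tens_memLp g f).restrict s).norm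
        convert this using 1
        norm_num)
    simp only [one_mul, Real.one_rpow, integral_const, smul_eq_mul, mul_one] at hcs
    rw [← Real.sqrt_eq_rpow, ← Real.sqrt_eq_rpow] at hcs
    have e : ∀ z, ‖tens g f z‖ ^ (2 : ℝ) = ‖tens g f z‖ ^ 2 := by
      intro z; norm_cast
    simp only [e] at hcs
    rw [measureReal_restrict_apply_univ] at hcs
    exact hcs
  have h3 : ∫ z in s, ‖tens g f z‖ ^ 2 ∂(μ.prod μ) ≤ ‖g‖ ^ 2 * ‖f‖ ^ 2 := by
    rw [← tens_integral_sq]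
    exact setIntegral_le_integral (tens_sq_integrable g f)
      (Eventually.of_forall fun z => by positivity)
  calc ‖form s g f‖ ≤ _ := h1
    _ ≤ _ := h2
    _ ≤ Real.sqrt ((μ.prod μ).real s) * Real.sqrt (‖g‖ ^ 2 * ‖f‖ ^ 2) := by
        gcongr
    _ = Real.sqrt ((μ.prod μ).real s) * ‖g‖ * ‖f‖ := by
        rw [← mul_pow, Real.sqrt_sq (by positivity), mul_assoc]

end Crest.Agent.R103.KerA
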