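import Crest.Agent.R103.Iface
import Crest.Agent.R103.Prod

/-!
# R103 (helper259): A9, the statement `StProd`
-/

open MeasureTheory Filter Topology

noncomputable section

namespace Crest.Agent.R103

namespace PlaneSys

/-- **A9.** -/
theorem stProd : PlaneSys.StProd := fun _ _ _ _ _ _ _ _ S =>
  ⟨S.prod S, fun _ _ => rfl, fun _ _ => rfl⟩

end PlaneSys

end Crest.Agent.R103
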