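import Crest.Agent.R103.Br1
import Crest.Agent.R103.IfaceG

/-!
R103/Rot (node G9): the rotation of the velocity on the frame model `Phase × Bool` of a triangle.
`rotP a : Plane ≃ₗᵢ[ℝ] Plane` is the rotation by the angle `a`, `R a (x, v, e) = (x, rot_{±a} v, e)`.
-/

open MeasureTheory Metric Set Filter Topology
open Crest.AnalysisR.Billiard

noncomputable section

namespace Crest.Agent.R103.Br

/-- the identification `ℂ ≃ Plane`, `z ↦ (re z, im z)` -/
def cP : ℂ ≃ₗᵢ[ℝ] Plane := Complex.orthonormalBasisOneI.repr

@[simp] lemma cP_apply_zero (z : ℂ) : cP z 0 = z.re := by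
  simp [cP, Complex.orthonormalBasisOneI_repr_apply]

@[simp] lemma cP_apply_one (z : ℂ) : cP z 1 = z.im := by
  simp [cP, Complex.orthonormalBasisOneI_repr_apply]

@[simp] lemma cP_symm_re (v : Plane) : (cP.symm v).re = v 0 := by
  rw [← cP_apply_zero, LinearIsometryEquiv.apply_symm_apply]

@[simp] lemma cP_symm_im (v : Plane) : (cP.symm v).im = v 1 := by
  rw [← cP_apply_one, LinearIsometryEquiv.apply_symm_apply]

/-- the rotation of the plane by the angle `a` -/
def rotP (a : ℝ) : Plane ≃ₗᵢ[ℝ] Plane :=
  cP.symm.trans ((rotation (Circle.exp a)).trans cP)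

lemma rotP_apply (a : ℝ) (v : Plane) :
    rotP a v = cP (Complex.exp (a * Complex.I) * cP.symm v) := rfl

lemma rotP_apply_zero (a : ℝ) (v : Plane) :
    rotP a v 0 = Real.cos a * v 0 - Real.sin a * v 1 := by
  rw [rotP_apply, cP_apply_zero, Complex.mul_re, cP_symm_re, cP_symm_im,
    Complex.exp_ofReal_mul_I_re, Complex.exp_ofReal_mul_I_im]

lemma rotP_apply_one (a : ℝ) (v : Plane) :
    rotP a v 1 = Real.sin a * v 0 + Real.cos a * v 1 := by
  rw [rotP_apply, cP_apply_one, Complex.mul_im, cP_symm_re, cP_symm_im,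
    Complex.exp_ofReal_mul_I_re, Complex.exp_ofReal_mul_I_im]
  ring

@[simp] lemma rotP_zero (v : Plane) : rotP 0 v = v := by
  rw [rotP_apply]; simp

lemma rotP_add (a b : ℝ) (v : Plane) : rotP (a + b) v = rotP a (rotP b v) := by
  simp only [rotP_apply, LinearIsometryEquiv.symm_apply_apply]
  congr 1
  push_cast
  rw [add_mul, Complex.exp_add]
  ring

@[simp] lemma rotP_two_pi (v : Plane) : rotP (2 * Real.pi) v = v := by
  rw [rotP_apply]
  have : Complex.exp (((2 * Real.pi : ℝ) : ℂ) * Complex.I) = 1 := by
    push_cast; exact Complex.exp_two_pi_mul_I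
  rw [this, one_mul, LinearIsometryEquiv.apply_symm_apply]

@[simp] lemma rotP_neg_two_pi (v : Plane) : rotP (-(2 * Real.pi)) v = v := by
  have h := rotP_add (-(2 * Real.pi)) (2 * Real.pi) v
  rw [neg_add_cancel, rotP_zero, rotP_two_pi] at h
  exact h.symm

lemma rotP_pi (v : Plane) : rotP Real.pi v = -v := by
  rw [rotP_apply, Complex.exp_pi_mul_I, neg_one_mul, map_neg, LinearIsometryEquiv.apply_symm_apply]

lemma rotP_neg_pi (v : Plane) : rotP (-Real.pi) v = -v := by
  have h := rotP_add (-(2 * Real.pi)) Real.pi v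
  rw [rotP_neg_two_pi, rotP_pi] at h
  rw [← h]; congr 2; ring

lemma rotP_continuous : Continuous fun p : ℝ × Plane => rotP p.1 p.2 := by
  simp only [rotP_apply]
  exact cP.continuous.comp ((Complex.continuous_exp.comp
    ((Complex.continuous_ofReal.comp continuous_fst).mul continuous_const)).mul
      (cP.symm.continuous.comp continuous_snd))

lemma inner_plane (v w : Plane) : inner ℝ v w = v 0 * w 0 + v 1 * w 1 := by
  simp [PiLp.inner_apply, Fin.sum_univ_two, mul_comm]

lemma mirror_zero_left (v : Plane) : mirror 0 v = -v := by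
  simp [mirror]

/-- mirror images and rotations: `S (rot a v) = rot (-a) (S v)`, for a non-zero axis. -/
lemma mirror_rotP {e : Plane} (he : e ≠ 0) (a : ℝ) (v : Plane) :
    mirror e (rotP a v) = rotP (-a) (mirror e v) := by
  have h : e 0 ^ 2 + e 1 ^ 2 ≠ 0 := by
    intro h0
    apply he
    have h1 : e 0 = 0 := by nlinarith [sq_nonneg (e 0), sq_nonneg (e 1)]
    have h2 : e 1 = 0 := by nlinarith [sq_nonneg (e 0), sq_nonneg (e 1)]
    ext i
    fin_cases i <;> simp [h1, h2]
  have hi : inner ℝ e e = e 0 ^ 2 + e 1 ^ 2 := by rw [inner_plane]; ring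
  ext i
  fin_cases i
  · simp only [mirror, Fin.zero_eta, Fin.isValue, PiLp.sub_apply, PiLp.smul_apply, smul_eq_mul,
      hi, inner_plane v, inner_plane (rotP a v), rotP_apply_zero, rotP_apply_one, Real.cos_neg,
      Real.sin_neg]
    generalize e 0 = x at *
    generalize e 1 = y at *
    generalize v 0 = p at *
    generalize v 1 = q at *
    generalize Real.cos a = c
    generalize Real.sin a = s
    field_simp
    ring
  · simp only [mirror, Fin.mk_one, Fin.isValue, PiLp.sub_apply, PiLp.smul_apply, smul_eq_mul,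
      hi, inner_plane v, inner_plane (rotP a v), rotP_apply_zero, rotP_apply_one, Real.cos_neg,
      Real.sin_neg]
    generalize e 0 = x at *
    generalize e 1 = y at *
    generalize v 0 = p at *
    generalize v 1 = q at *
    generalize Real.cos a = c
    generalize Real.sin a = s
    field_simp
    ring

lemma norm_mirror {e : Plane} (v : Plane) : ‖mirror e v‖ = ‖v‖ := by
  have h2 : ‖mirror e v‖ ^ 2 = ‖v‖ ^ 2 := by
    rw [mirror, norm_sub_sq_real, norm_smul, real_inner_smul_left, mul_pow,
      Real.norm_eq_abs, sq_abs]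
    by_cases he : e = 0
    · subst he; simp
    have h : inner ℝ e e ≠ 0 := by simpa using he
    rw [← real_inner_self_eq_norm_sq e, real_inner_comm v e]
    field_simp
    ring
  exact (pow_left_inj₀ (norm_nonneg _) (norm_nonneg _) two_ne_zero).1 h2

end Crest.Agent.R103.Br

namespace Crest.Agent.R103.RotB

open Br

lemma J_continuous : Continuous J := by
  have h : J = fun v => rotP (Real.pi / 2) v := by
    funext v
    ext i
    fin_cases i <;> simp [rotP_apply_zero, rotP_apply_one]
  rw [h]
  exact (rotP (Real.pi / 2)).continuous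

lemma rotP_eq (a : ℝ) (v : Plane) : rotP a v = Real.cos a • v + Real.sin a • J v := by
  ext i
  fin_cases i
  · simp [rotP_apply_zero]; ring
  · simp [rotP_apply_one]; ring

lemma sgn_mul_sin (b : Bool) (a : ℝ) : Real.sin (sgn b * a) = sgn b * Real.sin a := by
  cases b <;> simp [sgn]

lemma cos_sgn_mul (b : Bool) (a : ℝ) : Real.cos (sgn b * a) = Real.cos a := by
  cases b <;> simp [sgn]

lemma coe_rotF (a : ℝ) (z : Phase × Bool) :
    ((rotF a z).1.2 : Plane) = rotP (sgn z.2 * a) z.1.2 := by
  rw [rotP_eq, sgn_mul_sin, cos_sgn_mul]; rfl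

lemma rotF_eq (a : ℝ) (z : Phase × Bool) :
    rotF a z = ((z.1.1, sphMap (rotP (sgn z.2 * a)) z.1.2), z.2) :=
  Prod.ext (Prod.ext rfl (Subtype.ext (coe_rotF a z))) rfl

lemma frame_ext {z w : Phase × Bool} (h1 : z.1.1 = w.1.1) (h2 : (z.1.2 : Plane) = w.1.2)
    (h3 : z.2 = w.2) : z = w :=
  Prod.ext (Prod.ext h1 (Subtype.ext h2)) h3

lemma rotF_zero (z : Phase × Bool) : rotF 0 z = z :=
  frame_ext rfl (by rw [coe_rotF]; simp) rfl

lemma rotF_add (a b : ℝ) (z : Phase × Bool) : rotF (a + b) z = rotF a (rotF b z) :=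
  frame_ext rfl (by rw [coe_rotF, coe_rotF, coe_rotF, mul_add, rotP_add]; rfl) rfl

lemma rotF_two_pi (z : Phase × Bool) : rotF (2 * Real.pi) z = z :=
  frame_ext rfl (by
    rw [coe_rotF]
    rcases z with ⟨p, e⟩
    cases e
    · simp [sgn]
    · simp [sgn]) rfl

lemma rotF_continuous : Continuous fun p : ℝ × (Phase × Bool) => rotF p.1 p.2 := by
  have hs : Continuous sgn := continuous_of_discreteTopology
  have h0' : Continuous fun p : ℝ × (Phase × Bool) => (p.2.1.2 : Plane) :=
    continuous_subtype_val.comp (continuous_snd.comp (continuous_fst.comp continuous_snd))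
  have h1 : Continuous fun p : ℝ × (Phase × Bool) =>
      Real.cos p.1 • (p.2.1.2 : Plane) + (sgn p.2.2 * Real.sin p.1) • J (p.2.1.2 : Plane) :=
    ((Real.continuous_cos.comp continuous_fst).smul h0').add
      (((hs.comp (continuous_snd.comp continuous_snd)).mul
        (Real.continuous_sin.comp continuous_fst)).smul (J_continuous.comp h0'))
  have h3 : Continuous fun p : ℝ × (Phase × Bool) => p.2.1.1 :=
    continuous_fst.comp (continuous_fst.comp continuous_snd)
  have h4 : Continuous fun p : ℝ × (Phase × Bool) => p.2.2 := continuous_snd.comp continuous_snd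
  have h2 : Continuous fun p : ℝ × (Phase × Bool) => (rotF p.1 p.2).1.2 :=
    Topology.IsInducing.subtypeVal.continuous_iff.2 h1
  exact (h3.prodMk h2).prodMk h4

instance instFinRestr (A : Fin 3 → Plane) :
    IsFiniteMeasure ((volume : Measure Plane).restrict (interior (convexHull ℝ (Set.range A)))) :=
  ⟨by
    rw [Measure.restrict_apply_univ]
    exact ((isBounded_convexHull.2 (Set.finite_range A).isBounded).subset
      interior_subset).measure_lt_top⟩

instance instFinPhase (A : Fin 3 → Plane) : IsFiniteMeasure (phaseMeasure A) := by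
  unfold phaseMeasure; exact Measure.prod.instIsFiniteMeasure _ _

instance instFinFrame (A : Fin 3 → Plane) : IsFiniteMeasure (μM A) := by
  unfold μM; exact Measure.prod.instIsFiniteMeasure _ _

lemma phase_sph_mp (A : Fin 3 → Plane) (g : Plane ≃ₗᵢ[ℝ] Plane) :
    MeasurePreserving (fun p : Phase => ((p.1, sphMap g p.2) : Phase))
      (phaseMeasure A) (phaseMeasure A) :=
  (MeasurePreserving.id _).prod (sphMap_mp g)

lemma rotF_mp (A : Fin 3 → Plane) (a : ℝ) : MeasurePreserving (rotF a) (μM A) (μM A) := by
  have h1 : MeasurePreserving (fun q : Bool × Phase =>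
      ((q.1, (q.2.1, sphMap (rotP (sgn q.1 * a)) q.2.2)) : Bool × Phase))
      ((Measure.count : Measure Bool).prod (phaseMeasure A))
      ((Measure.count : Measure Bool).prod (phaseMeasure A)) := by
    refine MeasurePreserving.skew_product (f := id)
      (g := fun (e : Bool) (p : Phase) => ((p.1, sphMap (rotP (sgn e * a)) p.2) : Phase))
      (MeasurePreserving.id _) ?_ ?_
    · have h : Continuous fun q : Bool × Phase => rotF a (q.2, q.1) :=
        rotF_continuous.comp (continuous_const.prodMk (continuous_snd.prodMk continuous_fst))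
      have h' := measurable_fst.comp h.measurable
      have e : (Function.uncurry fun (e : Bool) (p : Phase) =>
          ((p.1, sphMap (rotP (sgn e * a)) p.2) : Phase))
          = (Prod.fst ∘ fun q : Bool × Phase => rotF a (q.2, q.1)) := by
        funext q
        simp only [Function.comp, rotF_eq]
        rfl
      rw [e]
      exact h'
    · exact Filter.Eventually.of_forall fun e => (phase_sph_mp A (rotP (sgn e * a))).map_eq
  have h2 : MeasurePreserving (Prod.swap : Phase × Bool → Bool × Phase)
      (μM A) ((Measure.count : Measure Bool).prod (phaseMeasure A)) :=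
    Measure.measurePreserving_swap
  have h3 : MeasurePreserving (Prod.swap : Bool × Phase → Phase × Bool)
      ((Measure.count : Measure Bool).prod (phaseMeasure A)) (μM A) :=
    Measure.measurePreserving_swap
  have h4 := h3.comp (h1.comp h2)
  have h5 : (Prod.swap ∘ (fun q : Bool × Phase =>
      ((q.1, (q.2.1, sphMap (rotP (sgn q.1 * a)) q.2.2)) : Bool × Phase)) ∘ Prod.swap)
      = rotF a := by
    funext z
    rw [rotF_eq]
    rfl
  rw [h5] at h4
  exact h4

lemma frm_rotF (α : ℝ) (z : Phase × Bool) (ζ : ℂ) :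
    frm (rotF α z) ζ = frm z (Complex.exp (α * Complex.I) * ζ) := by
  have hs := sgn_sq z.2
  ext i
  fin_cases i
  · simp only [frm, rotF, Complex.mul_re, Complex.mul_im, Complex.exp_ofReal_mul_I_re,
      Complex.exp_ofReal_mul_I_im, Fin.zero_eta, Fin.isValue, PiLp.add_apply, PiLp.smul_apply,
      smul_eq_mul, J_zero, J_one]
    linear_combination (-(Real.sin α) * ζ.im * (z.1.2 : Plane) 0) * hs
  · simp only [frm, rotF, Complex.mul_re, Complex.mul_im, Complex.exp_ofReal_mul_I_re,
      Complex.exp_ofReal_mul_I_im, Fin.mk_one, Fin.isValue, PiLp.add_apply, PiLp.smul_apply,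
      smul_eq_mul, J_zero, J_one]
    linear_combination (-(Real.sin α) * ζ.im * (z.1.2 : Plane) 1) * hs

/-- H10 -/
theorem rot_ : StRot :=
  ⟨rotF_continuous.measurable, rotF_zero, rotF_add, rotF_two_pi, rotF_mp,
    fun _ => rotF_continuous.comp (continuous_id.prodMk continuous_const),
    fun A => instFinFrame A, frm_rotF⟩

end Crest.Agent.R103.RotB
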