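import Mathlib

set_option autoImplicit false

/-!
# Row 103, Theorem C (helper876), part 1: invariance of the measure on the unit sphere,
ergodicity of irrational rotations on the unit sphere of the plane
-/

namespace Crest.Agent.R103.ThC

open MeasureTheory Metric Set Module
open scoped Pointwise

section sphere

variable {E : Type*} [NormedAddCommGroup E] [InnerProductSpace ℝ E] [FiniteDimensional ℝ E]
  [MeasurableSpace E] [BorelSpace E]

/-- a linear isometry acting on the unit sphere -/
def sphMap {E : Type*} [NormedAddCommGroup E] [InnerProductSpace ℝ E]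
    (L : E ≃ₗᵢ[ℝ] E) (v : sphere (0 : E) 1) : sphere (0 : E) 1 :=
  ⟨L v, by
    have := v.2
    simp only [mem_sphere_iff_norm, sub_zero] at this ⊢
    rw [L.norm_map, this]⟩

omit [FiniteDimensional ℝ E] [MeasurableSpace E] [BorelSpace E] in
theorem continuous_sphMap (L : E ≃ₗᵢ[ℝ] E) : Continuous (sphMap L) :=
  (L.continuous.comp continuous_subtype_val).subtype_mk _

/-- **`toSphere` is invariant under linear isometries** -/
theorem measurePreserving_sphMap (L : E ≃ₗᵢ[ℝ] E) :
    MeasurePreserving (sphMap L) (volume : Measure E).toSphere (volume : Measure E).toSphere := by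
  refine ⟨(continuous_sphMap L).measurable, ?_⟩
  ext s hs
  rw [Measure.map_apply (continuous_sphMap L).measurable hs,
    Measure.toSphere_apply' _ hs, Measure.toSphere_apply' _ ((continuous_sphMap L).measurable hs)]
  congr 1
  have h1 : (Ioo (0 : ℝ) 1 • ((↑) '' (sphMap L ⁻¹' s)) : Set E) =
      L ⁻¹' (Ioo (0 : ℝ) 1 • ((↑) '' s)) := by
    ext x
    simp only [Set.mem_smul, Set.mem_image, Set.mem_preimage]
    constructor
    · rintro ⟨r, hr, y, ⟨v, hv, rfl⟩, rfl⟩
      exact ⟨r, hr, _, ⟨_, hv, rfl⟩, by simp [sphMap]⟩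
    · rintro ⟨r, hr, y, ⟨v, hv, rfl⟩, hx⟩
      refine ⟨r, hr, L.symm v, ⟨⟨L.symm v, ?_⟩, ?_, rfl⟩, ?_⟩
      · have := v.2
        simp only [mem_sphere_iff_norm, sub_zero] at this ⊢
        rw [L.symm.norm_map, this]
      · have : sphMap L ⟨L.symm v, by
            have := v.2
            simp only [mem_sphere_iff_norm, sub_zero] at this ⊢
            rw [L.symm.norm_map, this]⟩ = v := by
          apply Subtype.ext
          simp [sphMap]
        rw [this]
        exact hv
      · apply L.injective
        rw [← hx, map_smul, L.apply_symm_apply]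
  rw [h1]
  exact (L.measurePreserving.measure_preimage_equiv (f := L.toMeasurableEquiv) _)

end sphere

/-! ### the unit sphere of the plane and the unit circle of `ℂ` -/

/-- the plane as `ℂ` -/
noncomputable abbrev cE : EuclideanSpace ℝ (Fin 2) ≃ₗᵢ[ℝ] ℂ :=
  Complex.orthonormalBasisOneI.repr.symm

theorem norm_cE_sphere (v : sphere (0 : EuclideanSpace ℝ (Fin 2)) 1) :
    ‖cE (v : EuclideanSpace ℝ (Fin 2))‖ = 1 := by
  have := v.2
  simp only [mem_sphere_iff_norm, sub_zero] at this
  rw [LinearIsometryEquiv.norm_map, this]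

/-- the unit sphere of the plane as `Circle` -/
noncomputable def toCirc : sphere (0 : EuclideanSpace ℝ (Fin 2)) 1 ≃ₜ Circle where
  toFun v := ⟨cE (v : EuclideanSpace ℝ (Fin 2)), mem_sphere_zero_iff_norm.2 (norm_cE_sphere v)⟩
  invFun w := ⟨cE.symm (w : ℂ), by
    rw [mem_sphere_zero_iff_norm, LinearIsometryEquiv.norm_map, Circle.norm_coe]⟩
  left_inv v := by
    apply Subtype.ext
    exact cE.symm_apply_apply _
  right_inv w := by
    apply Circle.ext
    exact cE.apply_symm_apply _
  continuous_toFun := Continuous.subtype_mk (cE.continuous.comp continuous_subtype_val) _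
  continuous_invFun := by
    refine Continuous.subtype_mk (f := fun w : Circle => cE.symm (w : ℂ)) ?_ _
    exact cE.symm.continuous.comp continuous_subtype_val

theorem coe_toCirc (v : sphere (0 : EuclideanSpace ℝ (Fin 2)) 1) :
    ((toCirc v : Circle) : ℂ) = cE (v : EuclideanSpace ℝ (Fin 2)) := rfl

/-- rotation of the plane by a unit complex number -/
noncomputable def rotE (g : Circle) :
    EuclideanSpace ℝ (Fin 2) ≃ₗᵢ[ℝ] EuclideanSpace ℝ (Fin 2) :=
  (cE.trans (rotation g)).trans cE.symm

theorem cE_rotE (g : Circle) (x : EuclideanSpace ℝ (Fin 2)) : cE (rotE g x) = g * cE x := by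
  simp [rotE, rotation_apply]

theorem toCirc_rotE (g : Circle) (v : sphere (0 : EuclideanSpace ℝ (Fin 2)) 1) :
    toCirc (sphMap (rotE g) v) = g * toCirc v := by
  apply Circle.ext
  rw [coe_toCirc, Circle.coe_mul, coe_toCirc]
  exact cE_rotE g v

/-- powers of an irrational rotation number are dense -/
theorem denseRange_zpow_exp {a : ℝ} (ha : Irrational (a / (2 * Real.pi))) :
    DenseRange (fun n : ℤ => (Circle.exp a) ^ n) := by
  have : Fact (0 < 2 * Real.pi) := ⟨by positivity⟩
  have h1 : DenseRange (fun n : ℤ => n • (a : AddCircle (2 * Real.pi))) :=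
    AddCircle.denseRange_zsmul_coe_iff.2 ha
  have h2 := (AddCircle.homeomorphCircle'.surjective.denseRange).comp h1
    AddCircle.homeomorphCircle'.continuous
  convert h2 using 1
  funext n
  simp only [Function.comp]
  rw [← AddCircle.coe_zsmul, AddCircle.homeomorphCircle'_apply_mk, Circle.exp_zsmul]

/-- **irrational rotations are ergodic on the unit sphere of the plane** -/
theorem const_of_rot {a : ℝ} (ha : Irrational (a / (2 * Real.pi)))
    (F : sphere (0 : EuclideanSpace ℝ (Fin 2)) 1 → ℂ)
    (hF : AEStronglyMeasurable F (volume : Measure (EuclideanSpace ℝ (Fin 2))).toSphere)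
    (hrot : ∀ᵐ v ∂(volume : Measure (EuclideanSpace ℝ (Fin 2))).toSphere,
      F (sphMap (rotE (Circle.exp a)) v) = F v) :
    ∃ c, F =ᵐ[(volume : Measure (EuclideanSpace ℝ (Fin 2))).toSphere] fun _ => c := by
  set σ := (volume : Measure (EuclideanSpace ℝ (Fin 2))).toSphere with hσ
  borelize Circle
  have hmp : MeasurePreserving toCirc σ (σ.map toCirc) :=
    toCirc.measurable.measurePreserving σ
  set ν := σ.map toCirc with hν
  have hfin : IsFiniteMeasure ν := by rw [hν]; infer_instance
  have hinv : ν.IsMulLeftInvariant := by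
    refine ⟨fun g => ?_⟩
    have h1 : (fun w => g * w) ∘ toCirc = toCirc ∘ sphMap (rotE g) := by
      funext v
      exact (toCirc_rotE g v).symm
    rw [hν, Measure.map_map (measurable_const_mul g) toCirc.measurable, h1,
      ← Measure.map_map toCirc.measurable (continuous_sphMap _).measurable,
      (measurePreserving_sphMap (rotE g)).map_eq]
  have herg : Ergodic (fun w => Circle.exp a * w) ν :=
    ergodic_mul_left_of_denseRange_zpow (denseRange_zpow_exp ha) ν
  set G : Circle → ℂ := F ∘ toCirc.symm with hG
  have hmps : MeasurePreserving toCirc.symm ν σ := by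
    have h := hmp.symm toCirc.toMeasurableEquiv
    exact h
  have hGm : AEStronglyMeasurable G ν := hF.comp_measurePreserving hmps
  have hGinv : G ∘ (fun w => Circle.exp a * w) =ᵐ[ν] G := by
    have h1 := hmps.quasiMeasurePreserving.ae hrot
    filter_upwards [h1] with w hw
    simp only [Function.comp, hG]
    rw [← hw]
    congr 1
    apply toCirc.injective
    rw [toCirc_rotE, toCirc.apply_symm_apply, toCirc.apply_symm_apply]
  obtain ⟨c, hc⟩ := herg.ae_eq_const_of_ae_eq_comp_ae hGm hGinv
  refine ⟨c, ?_⟩
  have h2 := hmp.quasiMeasurePreserving.ae hc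
  filter_upwards [h2] with v hv
  simpa [hG] using hv

end Crest.Agent.R103.ThC
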