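import Mathlib
import Crest.Prelude.Def_Billiard
import Crest.Agent.R103.ThC1

set_option autoImplicit false

/-!
# Row 103, Theorem C (helper876), part 2: the composition of two side reflections is an irrational
rotation
-/

namespace Crest.Agent.R103.ThC

open MeasureTheory Metric Set Module Crest.AnalysisR.Billiard
open scoped ComplexConjugate

theorem cE_ne_zero {x : Plane} (hx : x ≠ 0) : cE x ≠ 0 := by
  intro h
  exact hx (cE.injective (by rw [h, map_zero]))

/-- the mirror in complex notation -/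
theorem cE_mirror (e v : Plane) (he : e ≠ 0) :
    cE (mirror e v) = (cE e) ^ 2 / ((‖cE e‖ : ℂ) ^ 2) * conj (cE v) := by
  have he' : cE e ≠ 0 := cE_ne_zero he
  have h1 : inner ℝ v e = ((cE v) * conj (cE e)).re := by
    rw [← cE.inner_map_map v e, Complex.inner]
    simp [mul_comm]
  have h2 : inner ℝ e e = ‖cE e‖ ^ 2 := by
    rw [real_inner_self_eq_norm_sq, LinearIsometryEquiv.norm_map]
  have hn : (‖cE e‖ : ℂ) ^ 2 = cE e * conj (cE e) := by
    rw [Complex.mul_conj, Complex.normSq_eq_norm_sq]; push_cast; ring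
  have hn0 : (‖cE e‖ : ℂ) ≠ 0 := by
    rw [Complex.ofReal_ne_zero, norm_ne_zero_iff]
    exact he'
  unfold mirror
  rw [map_sub, map_smul, h1, h2, Complex.real_smul]
  push_cast
  have h3 : (((cE v * conj (cE e)).re : ℝ) : ℂ) * 2 = cE v * conj (cE e) + conj (cE v) * cE e := by
    rw [Complex.re_eq_add_conj]
    simp only [map_mul, Complex.conj_conj]
    ring
  field_simp
  rw [hn]
  linear_combination (cE e) * h3

/-- the composition of two mirrors in complex notation -/
theorem cE_mirror_mirror (x y v : Plane) (hx : x ≠ 0) (hy : y ≠ 0) :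
    cE (mirror x (mirror y v)) =
      ((cE x * conj (cE y)) / (‖cE x‖ * ‖cE y‖ : ℂ)) ^ 2 * cE v := by
  rw [cE_mirror _ _ hx, cE_mirror _ _ hy]
  simp only [map_mul, map_div₀, map_pow, Complex.conj_conj, Complex.conj_ofReal]
  ring

theorem mirror_neg (e v : Plane) : mirror (-e) v = mirror e v := by
  unfold mirror
  rw [inner_neg_right, inner_neg_neg, smul_neg, ← neg_smul]
  congr 2
  ring

/-- unit complex numbers with given real part -/
theorem eq_exp_of_re (u : ℂ) (hu : ‖u‖ = 1) (α : ℝ) (h : u.re = Real.cos α) :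
    ∃ s : ℝ, (s = 1 ∨ s = -1) ∧ u = Complex.exp ((s * α : ℝ) * Complex.I) := by
  have h1 : u.re ^ 2 + u.im ^ 2 = 1 := by
    have h2 := Complex.sq_norm u
    rw [Complex.normSq_apply, hu] at h2
    linarith
  have h3 : u.im ^ 2 = Real.sin α ^ 2 := by
    rw [h] at h1
    have := Real.sin_sq_add_cos_sq α
    linarith
  rcases sq_eq_sq_iff_eq_or_eq_neg.1 h3 with h4 | h4
  · refine ⟨1, Or.inl rfl, ?_⟩
    rw [one_mul, Complex.exp_mul_I, ← Complex.ofReal_cos, ← Complex.ofReal_sin]
    apply Complex.ext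
    · rw [Complex.add_re, Complex.ofReal_re, Complex.re_ofReal_mul, Complex.I_re, mul_zero,
        add_zero, h]
    · rw [Complex.add_im, Complex.ofReal_im, Complex.im_ofReal_mul, Complex.I_im, mul_one,
        zero_add, h4]
  · refine ⟨-1, Or.inr rfl, ?_⟩
    rw [neg_one_mul, Complex.exp_mul_I, ← Complex.ofReal_cos, ← Complex.ofReal_sin, Real.cos_neg,
      Real.sin_neg]
    apply Complex.ext
    · rw [Complex.add_re, Complex.ofReal_re, Complex.re_ofReal_mul, Complex.I_re, mul_zero,
        add_zero, h]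
    · rw [Complex.add_im, Complex.ofReal_im, Complex.im_ofReal_mul, Complex.I_im, mul_one,
        zero_add, h4]

/-- the composition of two mirrors is a rotation by twice the angle -/
theorem exists_rot (x y : Plane) (hx : x ≠ 0) (hy : y ≠ 0) :
    ∃ s : ℝ, (s = 1 ∨ s = -1) ∧ ∀ v : Plane,
      mirror x (mirror y v) =
        rotE (Circle.exp (2 * (s * InnerProductGeometry.angle x y))) v := by
  have hx' : ‖cE x‖ ≠ 0 := norm_ne_zero_iff.2 (cE_ne_zero hx)
  have hy' : ‖cE y‖ ≠ 0 := norm_ne_zero_iff.2 (cE_ne_zero hy)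
  set u : ℂ := (cE x * conj (cE y)) / (‖cE x‖ * ‖cE y‖ : ℂ) with hu
  have hu1 : ‖u‖ = 1 := by
    rw [hu, norm_div, norm_mul, norm_mul, RCLike.norm_conj]
    simp only [Complex.norm_real, norm_norm]
    field_simp
  have hre : u.re = Real.cos (InnerProductGeometry.angle x y) := by
    rw [InnerProductGeometry.cos_angle]
    have h1 : inner ℝ x y = ((cE x) * conj (cE y)).re := by
      rw [← cE.inner_map_map x y, Complex.inner]
      simp [mul_comm]
    have h2 : (‖cE x‖ * ‖cE y‖ : ℂ) = ((‖cE x‖ * ‖cE y‖ : ℝ) : ℂ) := by push_cast; rfl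
    rw [hu, h2, Complex.div_ofReal_re, h1, LinearIsometryEquiv.norm_map,
      LinearIsometryEquiv.norm_map]
  obtain ⟨s, hs, h⟩ := eq_exp_of_re u hu1 _ hre
  refine ⟨s, hs, fun v => ?_⟩
  apply cE.injective
  rw [cE_mirror_mirror x y v hx hy, cE_rotE, ← hu, h, ← Complex.exp_nat_mul, Circle.coe_exp]
  congr 2
  push_cast
  ring

variable {A : Fin 3 → Plane}

theorem sideVec_ne_zero (hA : AffineIndependent ℝ A) (i : Fin 3) : sideVec A i ≠ 0 := by
  unfold sideVec
  rw [sub_ne_zero]
  intro h
  have := hA.injective h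
  fin_cases i <;> simp at this

/-- **two side reflections compose to an irrational rotation** -/
theorem exists_irrational_rot (hA : AffineIndependent ℝ A) (i : Fin 3)
    (hirr : Irrational (EuclideanGeometry.angle (A (i + 1)) (A i) (A (i + 2)) / Real.pi)) :
    ∃ a : ℝ, Irrational (a / (2 * Real.pi)) ∧ ∀ v : Plane,
      mirror (sideVec A (i + 2)) (mirror (sideVec A (i + 1)) v) = rotE (Circle.exp a) v := by
  have e1 : sideVec A (i + 2) = A (i + 1) - A i := by
    unfold sideVec
    have h1 : i + 2 + 2 = i + 1 := by rw [add_assoc]; rfl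
    have h2 : i + 2 + 1 = i := by rw [add_assoc]; simp
    rw [h1, h2]
  have e2 : sideVec A (i + 1) = -(A (i + 2) - A i) := by
    unfold sideVec
    have h1 : i + 1 + 2 = i := by rw [add_assoc]; simp
    have h2 : i + 1 + 1 = i + 2 := by rw [add_assoc]; rfl
    rw [h1, h2, neg_sub]
  have hx : A (i + 1) - A i ≠ 0 := by rw [← e1]; exact sideVec_ne_zero hA _
  have hy : A (i + 2) - A i ≠ 0 := by
    have := sideVec_ne_zero hA (i + 1)
    rw [e2] at this
    exact fun h => this (by rw [h, neg_zero])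
  obtain ⟨s, hs, h⟩ := exists_rot _ _ hx hy
  refine ⟨2 * (s * InnerProductGeometry.angle (A (i + 1) - A i) (A (i + 2) - A i)), ?_, ?_⟩
  · have h1 : EuclideanGeometry.angle (A (i + 1)) (A i) (A (i + 2)) =
        InnerProductGeometry.angle (A (i + 1) - A i) (A (i + 2) - A i) := rfl
    rw [← h1]
    set α := EuclideanGeometry.angle (A (i + 1)) (A i) (A (i + 2))
    have h2 : 2 * (s * α) / (2 * Real.pi) = s * (α / Real.pi) := by
      field_simp
    rw [h2]
    rcases hs with hs | hs
    · rw [hs, one_mul]; exact hirr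
    · rw [hs, neg_one_mul]; exact hirr.neg
  · intro v
    rw [e1, e2, mirror_neg]
    exact h v

end Crest.Agent.R103.ThC
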