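import Crest.Agent.R103.Geo
import Crest.Agent.R103.ThC2

set_option autoImplicit false

/-!
# Row 103, Theorem C (helper876), part 3: the Fubini part
-/

namespace Crest.Agent.R103.ThC

open MeasureTheory Metric Set Module Crest.AnalysisR.Billiard Crest.Agent.R103
open scoped ComplexConjugate

/-! ### the mirror as a linear isometry -/

/-- unit complex number giving the mirror -/
noncomputable def mirU (e : Plane) (he : e ≠ 0) : Circle :=
  ⟨(cE e) ^ 2 / ((‖cE e‖ : ℂ) ^ 2), by
    have h : ‖cE e‖ ≠ 0 := norm_ne_zero_iff.2 (cE_ne_zero he)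
    rw [Submonoid.unitSphere, Submonoid.mem_mk, Subsemigroup.mem_mk, mem_sphere_zero_iff_norm,
      norm_div, norm_pow, norm_pow, Complex.norm_real, norm_norm]
    field_simp⟩

/-- the mirror as a linear isometry equivalence -/
noncomputable def mirE (e : Plane) (he : e ≠ 0) : Plane ≃ₗᵢ[ℝ] Plane :=
  (cE.trans (Complex.conjLIE.trans (rotation (mirU e he)))).trans cE.symm

theorem mirE_apply (e : Plane) (he : e ≠ 0) (v : Plane) : mirE e he v = mirror e v := by
  apply cE.injective
  rw [cE_mirror e v he, mirE]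
  simp only [LinearIsometryEquiv.trans_apply, LinearIsometryEquiv.apply_symm_apply,
    rotation_apply, Complex.conjLIE_apply]
  rfl

/-! ### the frame map is an isometry -/

theorem cE_J (v : Plane) : cE (J v) = Complex.I * cE v := by
  have h : ∀ w : Plane, cE w = (w 0 : ℂ) + (w 1 : ℂ) * Complex.I := by
    intro w
    simp
  rw [h, h, J_zero, J_one]
  push_cast
  linear_combination (-(v 1) : ℂ) * Complex.I_sq

/-- the frame map as a linear isometry equivalence -/
noncomputable def frE (v : sphere (0 : Plane) 1) (b : Bool) : ℂ ≃ₗᵢ[ℝ] Plane :=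
  ((if b then LinearIsometryEquiv.refl ℝ ℂ else Complex.conjLIE).trans
    (rotation (toCirc v))).trans cE.symm

theorem frE_apply (v : sphere (0 : Plane) 1) (b : Bool) (x : Plane) (ζ : ℂ) :
    frE v b ζ = frm ((x, v), b) ζ := by
  apply cE.injective
  have h1 : ζ = ζ.re + ζ.im * Complex.I := (Complex.re_add_im ζ).symm
  cases b
  · simp only [frE, Bool.false_eq_true, if_false, LinearIsometryEquiv.trans_apply,
      rotation_apply, LinearIsometryEquiv.apply_symm_apply, coe_toCirc, frm, map_add, map_smul,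
      cE_J, sgn, Complex.real_smul, Complex.conjLIE_apply]
    conv_lhs => rw [h1]
    simp only [map_add, map_mul, Complex.conj_ofReal, Complex.conj_I]
    push_cast
    ring
  · simp only [frE, if_true, LinearIsometryEquiv.trans_apply, LinearIsometryEquiv.coe_refl, id,
      rotation_apply, LinearIsometryEquiv.apply_symm_apply, coe_toCirc, frm, map_add, map_smul,
      cE_J, sgn, Complex.real_smul]
    conv_lhs => rw [h1]
    push_cast
    ring

/-- the frame map, as a function of velocity and orientation -/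
noncomputable def fr (b : Bool) (v : sphere (0 : Plane) 1) (ζ : ℂ) : Plane :=
  frm ((0, v), b) ζ

theorem frm_eq (z : Phase × Bool) (ζ : ℂ) : frm z ζ = fr z.2 z.1.2 ζ := rfl

theorem fr_mp (b : Bool) (v : sphere (0 : Plane) 1) :
    MeasurePreserving (fr b v) volume volume := by
  have h : fr b v = frE v b := by
    funext ζ
    exact (frE_apply v b 0 ζ).symm
  rw [h]
  exact (frE v b).measurePreserving

theorem continuous_J : Continuous J := by
  unfold J
  fun_prop

theorem fr_continuous (b : Bool) :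
    Continuous (fun q : ℂ × sphere (0 : Plane) 1 => fr b q.2 q.1) := by
  unfold fr frm
  have h1 : Continuous (fun q : ℂ × sphere (0 : Plane) 1 => (q.2 : Plane)) :=
    continuous_subtype_val.comp continuous_snd
  have h2 : Continuous (fun q : ℂ × sphere (0 : Plane) 1 => J (q.2 : Plane)) :=
    continuous_J.comp h1
  have h3 : Continuous (fun q : ℂ × sphere (0 : Plane) 1 => q.1.re) :=
    Complex.continuous_re.comp continuous_fst
  have h4 : Continuous (fun q : ℂ × sphere (0 : Plane) 1 => q.1.im) :=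
    Complex.continuous_im.comp continuous_fst
  have h5 : Continuous (fun q : ℂ × sphere (0 : Plane) 1 => sgn b * q.1.im) :=
    continuous_const.mul h4
  exact (h3.smul h1).add (h5.smul h2)

/-! ### Fubini tools -/

theorem ae_bool {α : Type*} [MeasurableSpace α] {μ : Measure α} [SFinite μ]
    {P : α × Bool → Prop} (h : ∀ᵐ z ∂(μ.prod Measure.count), P z) (b : Bool) :
    ∀ᵐ p ∂μ, P (p, b) := by
  have h1 := Measure.ae_ae_of_ae_prod h
  filter_upwards [h1] with p hp
  exact (Measure.ae_count_iff.1 hp) b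

/-- from `∀ ζ, ∀ᵐ (x, v)` to `∀ᵐ v, ∀ᵐ x, ∀ᵐ ζ` -/
theorem ae_swap3 {X V Z : Type*} [MeasurableSpace X] [MeasurableSpace V] [MeasurableSpace Z]
    {μX : Measure X} {μV : Measure V} {μZ : Measure Z} [SFinite μX] [SFinite μV] [SFinite μZ]
    {P : Z → X → V → Prop} (hm : MeasurableSet {q : Z × (X × V) | P q.1 q.2.1 q.2.2})
    (h : ∀ ζ, ∀ᵐ p ∂(μX.prod μV), P ζ p.1 p.2) :
    ∀ᵐ v ∂μV, ∀ᵐ x ∂μX, ∀ᵐ ζ ∂μZ, P ζ x v := by
  have h1 : ∀ᵐ ζ ∂μZ, ∀ᵐ p ∂(μX.prod μV), P ζ p.1 p.2 := Filter.Eventually.of_forall h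
  have h2 : ∀ᵐ p ∂(μX.prod μV), ∀ᵐ ζ ∂μZ, P ζ p.1 p.2 :=
    (Measure.ae_ae_comm (p := fun ζ (p : X × V) => P ζ p.1 p.2) hm).1 h1
  have h3 : ∀ᵐ q ∂(μV.prod μX), ∀ᵐ ζ ∂μZ, P ζ q.2 q.1 := by
    have h4 := (Measure.measurePreserving_swap (μ := μV) (ν := μX)).quasiMeasurePreserving.ae h2
    exact h4
  exact Measure.ae_ae_of_ae_prod h3

end Crest.Agent.R103.ThC
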