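import Mathlib

/-!
# R103, module A8 (helper557): a real variable lemma

A bounded function `q` on the plane, continuous on a ball, all of whose first harmonics on circles
of radius `δ` (for a sequence `δ → 0`) are `o(δ)` up to a perturbation tending uniformly to zero,
is constant on the ball.
-/

set_option autoImplicit false

open MeasureTheory Filter Topology Metric Set
open scoped Convolution

noncomputable section

namespace Crest.Agent.R103.ThmAReal

/-- unit vector -/
def uv (α : ℝ) : ℂ := Complex.exp (α * Complex.I)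

lemma uv_cont : Continuous uv := by unfold uv; fun_prop

lemma norm_uv (α : ℝ) : ‖uv α‖ = 1 := by
  unfold uv; exact Complex.norm_exp_ofReal_mul_I α

lemma uv_eq (α : ℝ) : uv α = Real.cos α + Real.sin α * Complex.I := by
  unfold uv; rw [Complex.exp_mul_I]; push_cast; rfl

/-- mollification -/
def mol (κ : ℂ → ℝ) (q : ℂ → ℂ) (a : ℂ) : ℂ := ∫ ζ, κ (a - ζ) • q ζ

lemma mol_eq (κ : ℂ → ℝ) (q : ℂ → ℂ) :
    mol κ q = (κ ⋆[ContinuousLinearMap.lsmul ℝ ℝ, (volume : Measure ℂ)] q) := by
  funext a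
  rw [convolution_lsmul_swap]; rfl

section
variable {κ : ℂ → ℝ}

lemma kint (hκ : Continuous κ) (hκc : HasCompactSupport κ) (a : ℂ) :
    Integrable (fun ζ : ℂ => κ (a - ζ)) := by
  have h := hκ.integrable_of_hasCompactSupport (μ := (volume : Measure ℂ)) hκc
  exact h.comp_sub_left a

lemma kq_int (hκ : Continuous κ) (hκc : HasCompactSupport κ) {q : ℂ → ℂ} (hq : Measurable q)
    {Q : ℝ} (hQ : ∀ ζ, ‖q ζ‖ ≤ Q) (a : ℂ) :
    Integrable (fun ζ : ℂ => κ (a - ζ) • q ζ) :=
  (kint hκ hκc a).smul_bdd Q hq.aestronglyMeasurable (Eventually.of_forall hQ)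

lemma mol_contDiff (hκ : ContDiff ℝ 1 κ) (hκc : HasCompactSupport κ) {q : ℂ → ℂ}
    (hq : Measurable q) {Q : ℝ} (hQ : ∀ ζ, ‖q ζ‖ ≤ Q) : ContDiff ℝ 1 (mol κ q) := by
  rw [mol_eq]
  have h1 : LocallyIntegrable q (volume : Measure ℂ) :=
    (memLp_top_of_bound hq.aestronglyMeasurable Q (Eventually.of_forall hQ)).locallyIntegrable
      le_top
  exact hκc.contDiff_convolution_left (n := 1) _ hκ h1

/-- `L¹` modulus of continuity of the kernel -/
lemma lipL1 (hκ : ContDiff ℝ 1 κ) (hκc : HasCompactSupport κ) :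
    ∃ D : ℝ, 0 ≤ D ∧ ∀ v : ℂ, ‖v‖ ≤ 1 → ∫ x, |κ (x + v) - κ x| ≤ D * ‖v‖ := by
  obtain ⟨C, hC⟩ := ContDiff.lipschitzWith_of_hasCompactSupport hκc hκ (by simp)
  obtain ⟨R, hR⟩ := hκc.isCompact.isBounded.subset_closedBall (0 : ℂ)
  refine ⟨C * (volume : Measure ℂ).real (closedBall 0 (R + 1)), by positivity, fun v hv => ?_⟩
  have h0 : ∀ x, R < ‖x‖ → κ x = 0 := by
    intro x hx
    by_contra h
    have h1 : x ∈ closedBall (0 : ℂ) R := hR (subset_tsupport _ h)
    rw [mem_closedBall, dist_zero_right] at h1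
    linarith
  have h1 : ∀ x, |κ (x + v) - κ x| ≤
      (closedBall (0 : ℂ) (R + 1)).indicator (fun _ => C * ‖v‖) x := by
    intro x
    by_cases hx : x ∈ closedBall (0 : ℂ) (R + 1)
    · rw [indicator_of_mem hx]
      have := hC.dist_le_mul (x + v) x
      rw [Real.dist_eq, dist_eq_norm] at this
      simpa using this
    · rw [indicator_of_notMem hx]
      rw [mem_closedBall, dist_zero_right, not_le] at hx
      have h2 : R < ‖x + v‖ := by
        have := norm_sub_norm_le x (-v)
        rw [sub_neg_eq_add, norm_neg] at this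
        linarith
      rw [h0 _ h2, h0 _ (by linarith)]
      simp
  have h3 : Integrable (fun x : ℂ => (closedBall (0 : ℂ) (R + 1)).indicator
      (fun _ => C * ‖v‖) x) := by
    rw [integrable_indicator_iff measurableSet_closedBall]
    exact integrableOn_const measure_closedBall_lt_top.ne
  calc ∫ x, |κ (x + v) - κ x| ≤ ∫ x, (closedBall (0 : ℂ) (R + 1)).indicator
        (fun _ => C * ‖v‖) x := by
        refine integral_mono_of_nonneg (Eventually.of_forall fun x => abs_nonneg _) h3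
          (Eventually.of_forall h1)
    _ = _ := by
        rw [integral_indicator measurableSet_closedBall, setIntegral_const, smul_eq_mul]
        ring

lemma mol_sub_le (hκ : Continuous κ) (hκc : HasCompactSupport κ) {g : ℂ → ℂ} (hg : Measurable g)
    {ε : ℝ} (hε : ∀ ζ, ‖g ζ‖ ≤ ε) (a v : ℂ) :
    ‖mol κ g (a + v) - mol κ g a‖ ≤ ε * ∫ x, |κ (x + v) - κ x| := by
  have h1 : mol κ g (a + v) - mol κ g a = ∫ ζ, (κ ((a - ζ) + v) - κ (a - ζ)) • g ζ := by
    unfold mol
    rw [← integral_sub (kq_int hκ hκc hg hε _) (kq_int hκ hκc hg hε _)]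
    congr 1
    funext ζ
    rw [← sub_smul]
    congr 3
    ring
  rw [h1]
  have h2 : ∀ ζ, ‖(κ ((a - ζ) + v) - κ (a - ζ)) • g ζ‖ ≤ ε * |κ ((a - ζ) + v) - κ (a - ζ)| := by
    intro ζ
    rw [norm_smul, Real.norm_eq_abs, mul_comm]
    exact mul_le_mul_of_nonneg_right (hε ζ) (abs_nonneg _)
  have h3 : Integrable (fun x : ℂ => |κ (x + v) - κ x|) := by
    have h := hκ.integrable_of_hasCompactSupport (μ := (volume : Measure ℂ)) hκc
    exact ((h.comp_add_right v).sub h).abs
  calc ‖∫ ζ, (κ ((a - ζ) + v) - κ (a - ζ)) • g ζ‖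
      ≤ ∫ ζ, ‖(κ ((a - ζ) + v) - κ (a - ζ)) • g ζ‖ := norm_integral_le_integral_norm _
    _ ≤ ∫ ζ, ε * |κ ((a - ζ) + v) - κ (a - ζ)| :=
        integral_mono_of_nonneg (Eventually.of_forall fun x => norm_nonneg _)
          ((h3.comp_sub_left a).const_mul ε) (Eventually.of_forall h2)
    _ = ε * ∫ x, |κ (x + v) - κ x| := by
        rw [integral_const_mul]
        congr 1
        exact integral_sub_left_eq_self (fun x => |κ (x + v) - κ x|) volume a

/-- Fubini -/
lemma mol_fubini (hκ : Continuous κ) (hκc : HasCompactSupport κ) {q : ℂ → ℂ} (hq : Measurable q)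
    {Q : ℝ} (hQ : ∀ ζ, ‖q ζ‖ ≤ Q) {w : ℝ → ℂ} (hw : Continuous w) (hw1 : ∀ α, ‖w α‖ ≤ 1)
    (a : ℂ) (δ : ℝ) :
    ∫ α in (0 : ℝ)..(2 * Real.pi), w α * mol κ q (a + δ * uv α) =
      ∫ ζ, κ (a - ζ) • ∫ α in (0 : ℝ)..(2 * Real.pi), w α * q (ζ + δ * uv α) := by
  have h1 : ∀ α, mol κ q (a + δ * uv α) = ∫ ζ, κ (a - ζ) • q (ζ + δ * uv α) := by
    intro α
    unfold mol
    rw [← integral_add_right_eq_self (fun ζ => κ (a + δ * uv α - ζ) • q ζ) (δ * uv α)]
    congr 1
    funext ζ
    congr 2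
    ring
  simp only [intervalIntegral.integral_of_le Real.two_pi_pos.le, h1]
  have h2 : ∀ α, w α * ∫ ζ, κ (a - ζ) • q (ζ + δ * uv α) =
      ∫ ζ, κ (a - ζ) • (w α * q (ζ + δ * uv α)) := by
    intro α
    rw [← integral_const_mul]
    congr 1
    funext ζ
    rw [mul_smul_comm]
  simp only [h2]
  rw [integral_integral_swap]
  · congr 1
    funext ζ
    exact integral_smul _ _
  · have h3 : Integrable (fun p : ℝ × ℂ => κ (a - p.2))
        ((volume.restrict (Ioc 0 (2 * Real.pi))).prod (volume : Measure ℂ)) :=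
      (kint hκ hκc a).comp_snd _
    refine h3.smul_bdd (1 * Q) ?_ ?_
    · have hm : Measurable (fun p : ℝ × ℂ => w p.1 * q (p.2 + δ * uv p.1)) := by
        have hu := uv_cont.measurable
        have hw' := hw.measurable
        exact (hw'.comp measurable_fst).mul
          (hq.comp (measurable_snd.add (measurable_const.mul (hu.comp measurable_fst))))
      exact hm.aestronglyMeasurable
    · refine Eventually.of_forall fun p => ?_
      rw [norm_mul]
      exact mul_le_mul (hw1 _) (hQ _) (norm_nonneg _) zero_le_one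

/-- the derivative of the mollification has vanishing first harmonic -/
theorem core (hκ : ContDiff ℝ 1 κ) (hκc : HasCompactSupport κ) {q : ℂ → ℂ} (hq : Measurable q)
    {Q : ℝ} (hQ : ∀ ζ, ‖q ζ‖ ≤ Q) {w : ℝ → ℂ} (hw : Continuous w) (hw1 : ∀ α, ‖w α‖ ≤ 1)
    (hw0 : ∫ α in (0 : ℝ)..(2 * Real.pi), w α = 0) {r : ℝ}
    (H : ∀ ε : ℝ, 0 < ε → ∀ δ₀ : ℝ, 0 < δ₀ → ∃ δ : ℝ, 0 < δ ∧ δ < δ₀ ∧ ∃ q' : ℂ → ℂ,
      Measurable q' ∧ (∀ ζ, ‖q' ζ - q ζ‖ ≤ ε) ∧
      ∀ ζ, ‖ζ‖ < r → ‖∫ α in (0 : ℝ)..(2 * Real.pi), w α * q' (ζ + δ * uv α)‖ ≤ ε * δ)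
    {a : ℂ} (ha : ∀ ζ, κ (a - ζ) ≠ 0 → ‖ζ‖ < r) :
    ∫ α in (0 : ℝ)..(2 * Real.pi), w α * fderiv ℝ (mol κ q) a (uv α) = 0 := by
  obtain ⟨D, hD0, hD⟩ := lipL1 hκ hκc
  set X := ∫ α in (0 : ℝ)..(2 * Real.pi), w α * fderiv ℝ (mol κ q) a (uv α) with hX
  set K := ∫ ζ, |κ ζ| with hK
  have hpi := Real.pi_pos
  have key : ∀ ε : ℝ, 0 < ε → ‖X‖ ≤ ε * (K + 2 * Real.pi * D + 2 * Real.pi) := by
    intro ε hε
    have hMd : DifferentiableAt ℝ (mol κ q) a :=
      (mol_contDiff hκ hκc hq hQ).differentiable (by simp) a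
    have hlo := (hasFDerivAt_iff_isLittleO_nhds_zero.1 hMd.hasFDerivAt).def hε
    obtain ⟨δ₁, hδ₁, hb⟩ := Metric.eventually_nhds_iff.1 hlo
    obtain ⟨δ, hδ, hδ', q', hq', hqq, hH⟩ := H ε hε (min δ₁ 1) (lt_min hδ₁ one_pos)
    have hδ1 : δ < δ₁ := hδ'.trans_le (min_le_left _ _)
    have hδ2 : δ < 1 := hδ'.trans_le (min_le_right _ _)
    have hQ' : ∀ ζ, ‖q' ζ‖ ≤ Q + ε := by
      intro ζ
      calc ‖q' ζ‖ = ‖q ζ + (q' ζ - q ζ)‖ := by congr 1; ring
        _ ≤ ‖q ζ‖ + ‖q' ζ - q ζ‖ := norm_add_le _ _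
        _ ≤ Q + ε := add_le_add (hQ ζ) (hqq ζ)
    have hnδ : ∀ α, ‖(δ : ℂ) * uv α‖ = δ := by
      intro α; rw [norm_mul, norm_uv, mul_one, Complex.norm_real, Real.norm_of_nonneg hδ.le]
    -- continuity in `α`
    have hMc : Continuous (mol κ q) := (mol_contDiff hκ hκc hq hQ).continuous
    have hMc' : Continuous (mol κ q') := (mol_contDiff hκ hκc hq' hQ').continuous
    have hec : Continuous (fun α : ℝ => a + (δ : ℂ) * uv α) :=
      continuous_const.add (continuous_const.mul uv_cont)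
    have hM1 : Continuous fun α : ℝ => mol κ q (a + δ * uv α) := hMc.comp hec
    have hM2 : Continuous fun α : ℝ => mol κ q' (a + δ * uv α) := hMc'.comp hec
    -- the three pieces
    have hE : ∀ x, mol κ (fun ζ => q' ζ - q ζ) x = mol κ q' x - mol κ q x := by
      intro x
      unfold mol
      rw [← integral_sub (kq_int hκ.continuous hκc hq' hQ' _)
        (kq_int hκ.continuous hκc hq hQ _)]
      congr 1; funext ζ; rw [smul_sub]
    have hlin : ∀ α, fderiv ℝ (mol κ q) a ((δ : ℂ) * uv α) = δ * fderiv ℝ (mol κ q) a (uv α) := by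
      intro α
      have : (δ : ℂ) * uv α = (δ : ℝ) • uv α := by rw [Complex.real_smul]
      rw [this, map_smul, Complex.real_smul]
    have hsplit : (δ : ℂ) * X =
        (∫ α in (0 : ℝ)..(2 * Real.pi), w α * mol κ q' (a + δ * uv α))
        - (∫ α in (0 : ℝ)..(2 * Real.pi), w α *
            (mol κ (fun ζ => q' ζ - q ζ) (a + δ * uv α) - mol κ (fun ζ => q' ζ - q ζ) a))
        - (∫ α in (0 : ℝ)..(2 * Real.pi), w α *
            (mol κ q (a + δ * uv α) - mol κ q a - fderiv ℝ (mol κ q) a (δ * uv α)))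
        - (mol κ q' a) * ∫ α in (0 : ℝ)..(2 * Real.pi), w α := by
      rw [hX, ← intervalIntegral.integral_const_mul, ← intervalIntegral.integral_const_mul]
      have i1 : IntervalIntegrable (fun α => w α * mol κ q' (a + δ * uv α)) volume 0
          (2 * Real.pi) := (hw.mul hM2).intervalIntegrable _ _
      have i2 : IntervalIntegrable (fun α => w α *
            (mol κ (fun ζ => q' ζ - q ζ) (a + δ * uv α) - mol κ (fun ζ => q' ζ - q ζ) a))
            volume 0 (2 * Real.pi) := by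
        simp only [hE]
        exact (hw.mul ((hM2.sub hM1).sub continuous_const)).intervalIntegrable _ _
      have i3 : IntervalIntegrable (fun α => w α *
            (mol κ q (a + δ * uv α) - mol κ q a - fderiv ℝ (mol κ q) a (δ * uv α)))
            volume 0 (2 * Real.pi) := by
        refine (hw.mul ((hM1.sub continuous_const).sub ?_)).intervalIntegrable _ _
        exact (fderiv ℝ (mol κ q) a).continuous.comp (continuous_const.mul uv_cont)
      have i4 : IntervalIntegrable (fun α => mol κ q' a * w α) volume 0 (2 * Real.pi) :=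
        (continuous_const.mul hw).intervalIntegrable _ _
      rw [← intervalIntegral.integral_sub i1 i2, ← intervalIntegral.integral_sub (i1.sub i2) i3,
        ← intervalIntegral.integral_sub ((i1.sub i2).sub i3) i4]
      refine intervalIntegral.integral_congr fun α _ => ?_
      simp only [hE, hlin]
      ring
    rw [hw0, mul_zero, sub_zero] at hsplit
    have b1 : ‖∫ α in (0 : ℝ)..(2 * Real.pi), w α * mol κ q' (a + δ * uv α)‖ ≤ K * (ε * δ) := by
      rw [mol_fubini hκ.continuous hκc hq' hQ' hw hw1]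
      have hb1 : ∀ ζ, ‖κ (a - ζ) • ∫ α in (0 : ℝ)..(2 * Real.pi), w α * q' (ζ + δ * uv α)‖ ≤
          |κ (a - ζ)| * (ε * δ) := by
        intro ζ
        rw [norm_smul, Real.norm_eq_abs]
        by_cases h : κ (a - ζ) = 0
        · rw [h]; simp
        · exact mul_le_mul_of_nonneg_left (hH ζ (ha ζ h)) (abs_nonneg _)
      refine (norm_integral_le_integral_norm _).trans ?_
      refine (integral_mono_of_nonneg (Eventually.of_forall fun x => norm_nonneg _)
        (((kint hκ.continuous hκc a).abs).mul_const _) (Eventually.of_forall hb1)).trans ?_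
      rw [integral_mul_const]
      have := integral_sub_left_eq_self (fun x => |κ x|) (volume : Measure ℂ) a
      rw [this]
    have b2 : ‖∫ α in (0 : ℝ)..(2 * Real.pi), w α *
            (mol κ (fun ζ => q' ζ - q ζ) (a + δ * uv α) - mol κ (fun ζ => q' ζ - q ζ) a)‖ ≤
          (ε * (D * δ)) * |2 * Real.pi - 0| := by
      refine intervalIntegral.norm_integral_le_of_norm_le_const fun α _ => ?_
      rw [norm_mul]
      have h1 := mol_sub_le hκ.continuous hκc (hq'.sub hq) hqq a (δ * uv α)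
      have h2 := hD (δ * uv α) (by rw [hnδ]; exact hδ2.le)
      rw [hnδ] at h2
      calc ‖w α‖ * _ ≤ 1 * _ := mul_le_mul_of_nonneg_right (hw1 α) (norm_nonneg _)
        _ = _ := one_mul _
        _ ≤ _ := h1
        _ ≤ _ := mul_le_mul_of_nonneg_left h2 hε.le
    have b3 : ‖∫ α in (0 : ℝ)..(2 * Real.pi), w α *
            (mol κ q (a + δ * uv α) - mol κ q a - fderiv ℝ (mol κ q) a (δ * uv α))‖ ≤
          (ε * δ) * |2 * Real.pi - 0| := by
      refine intervalIntegral.norm_integral_le_of_norm_le_const fun α _ => ?_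
      rw [norm_mul]
      have h1 := @hb (δ * uv α) (by rw [dist_zero_right, hnδ]; exact hδ1)
      rw [hnδ] at h1
      calc ‖w α‖ * _ ≤ 1 * _ := mul_le_mul_of_nonneg_right (hw1 α) (norm_nonneg _)
        _ = _ := one_mul _
        _ ≤ _ := h1
    rw [sub_zero, abs_of_pos (by positivity)] at b2 b3
    have b4 : δ * ‖X‖ ≤ K * (ε * δ) + (ε * (D * δ)) * (2 * Real.pi) + (ε * δ) * (2 * Real.pi) := by
      have : δ * ‖X‖ = ‖(δ : ℂ) * X‖ := by
        rw [norm_mul, Complex.norm_real, Real.norm_of_nonneg hδ.le]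
      rw [this, hsplit]
      refine (norm_sub_le _ _).trans (add_le_add ((norm_sub_le _ _).trans (add_le_add b1 b2)) b3)
    have b5 : δ * ‖X‖ ≤ δ * (ε * (K + 2 * Real.pi * D + 2 * Real.pi)) := by
      refine b4.trans (le_of_eq ?_); ring
    exact le_of_mul_le_mul_left b5 hδ
  have hK0 : 0 ≤ K := integral_nonneg fun _ => abs_nonneg _
  have hC : 0 < K + 2 * Real.pi * D + 2 * Real.pi := by positivity
  by_contra hne
  have hp : 0 < ‖X‖ := norm_pos_iff.2 hne
  have := key (‖X‖ / (2 * (K + 2 * Real.pi * D + 2 * Real.pi))) (by positivity)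
  have e : ‖X‖ / (2 * (K + 2 * Real.pi * D + 2 * Real.pi)) * (K + 2 * Real.pi * D + 2 * Real.pi)
      = ‖X‖ / 2 := by field_simp
  rw [e] at this
  linarith

end

lemma integral_uv : ∫ α in (0 : ℝ)..(2 * Real.pi), uv α = 0 := by
  have h : ∀ α : ℝ, uv α = (Real.cos α : ℂ) + (Real.sin α : ℂ) * Complex.I := uv_eq
  simp only [h]
  rw [intervalIntegral.integral_add, intervalIntegral.integral_mul_const,
    intervalIntegral.integral_ofReal, intervalIntegral.integral_ofReal, integral_cos, integral_sin]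
  · simp
  · exact Continuous.intervalIntegrable (by fun_prop) _ _
  · exact Continuous.intervalIntegrable (by fun_prop) _ _

/-- the conjugate unit vector -/
def uc (α : ℝ) : ℂ := Complex.exp (-(α * Complex.I))

lemma uc_cont : Continuous uc := by unfold uc; fun_prop

lemma uc_eq (α : ℝ) : uc α = Real.cos α - Real.sin α * Complex.I := by
  unfold uc
  have : -((α : ℂ) * Complex.I) = ((-α : ℝ) : ℂ) * Complex.I := by push_cast; ring
  rw [this, Complex.exp_mul_I]
  push_cast
  rw [Complex.cos_neg, Complex.sin_neg]; ring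

lemma norm_uc (α : ℝ) : ‖uc α‖ = 1 := by
  unfold uc
  have : -((α : ℂ) * Complex.I) = ((-α : ℝ) : ℂ) * Complex.I := by push_cast; ring
  rw [this]; exact Complex.norm_exp_ofReal_mul_I _

lemma integral_uc : ∫ α in (0 : ℝ)..(2 * Real.pi), uc α = 0 := by
  simp only [uc_eq]
  rw [intervalIntegral.integral_sub, intervalIntegral.integral_mul_const,
    intervalIntegral.integral_ofReal, intervalIntegral.integral_ofReal, integral_cos, integral_sin]
  · simp
  · exact Continuous.intervalIntegrable (by fun_prop) _ _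
  · exact Continuous.intervalIntegrable (by fun_prop) _ _

lemma int_cc : ∫ α in (0 : ℝ)..(2 * Real.pi), Real.cos α * Real.cos α = Real.pi := by
  have := integral_cos_sq (a := 0) (b := 2 * Real.pi)
  simp only [sq] at this
  rw [this]; simp

lemma int_ss : ∫ α in (0 : ℝ)..(2 * Real.pi), Real.sin α * Real.sin α = Real.pi := by
  have := integral_sin_sq (a := 0) (b := 2 * Real.pi)
  simp only [sq] at this
  rw [this]; simp

lemma int_sc : ∫ α in (0 : ℝ)..(2 * Real.pi), Real.sin α * Real.cos α = 0 := by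
  rw [integral_sin_mul_cos₁]; simp

lemma lin_eq (F : ℂ →L[ℝ] ℂ) (α : ℝ) :
    F (uv α) = (Real.cos α : ℂ) * F 1 + (Real.sin α : ℂ) * F Complex.I := by
  have : uv α = Real.cos α • (1 : ℂ) + Real.sin α • Complex.I := by
    rw [uv_eq, Complex.real_smul, Complex.real_smul, mul_one]
  rw [this, map_add, map_smul, map_smul, Complex.real_smul, Complex.real_smul]

lemma comb (A B : ℂ) (s : ℂ) :
    ∫ α in (0 : ℝ)..(2 * Real.pi), ((Real.cos α : ℂ) + s * Real.sin α) *
      ((Real.cos α : ℂ) * A + (Real.sin α : ℂ) * B) = Real.pi * A + Real.pi * (s * B) := by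
  have h : ∀ α : ℝ, ((Real.cos α : ℂ) + s * Real.sin α) *
      ((Real.cos α : ℂ) * A + (Real.sin α : ℂ) * B) =
      ((Real.cos α * Real.cos α : ℝ) : ℂ) * A + ((Real.sin α * Real.sin α : ℝ) : ℂ) * (s * B)
        + ((Real.sin α * Real.cos α : ℝ) : ℂ) * (B + s * A) := by
    intro α; push_cast; ring
  simp only [h]
  rw [intervalIntegral.integral_add, intervalIntegral.integral_add,
    intervalIntegral.integral_mul_const, intervalIntegral.integral_mul_const,
    intervalIntegral.integral_mul_const, intervalIntegral.integral_ofReal,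
    intervalIntegral.integral_ofReal, intervalIntegral.integral_ofReal, int_cc, int_ss, int_sc]
  · simp
  all_goals exact Continuous.intervalIntegrable (by fun_prop) _ _

/-- a real linear map of the plane with vanishing first harmonics is zero -/
lemma lin_zero (F : ℂ →L[ℝ] ℂ)
    (h1 : ∫ α in (0 : ℝ)..(2 * Real.pi), uv α * F (uv α) = 0)
    (h2 : ∫ α in (0 : ℝ)..(2 * Real.pi), uc α * F (uv α) = 0) : F = 0 := by
  have e1 : ∀ α, uv α * F (uv α) = ((Real.cos α : ℂ) + Complex.I * Real.sin α) *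
      ((Real.cos α : ℂ) * F 1 + (Real.sin α : ℂ) * F Complex.I) := by
    intro α; rw [lin_eq, uv_eq]; ring
  have e2 : ∀ α, uc α * F (uv α) = ((Real.cos α : ℂ) + (-Complex.I) * Real.sin α) *
      ((Real.cos α : ℂ) * F 1 + (Real.sin α : ℂ) * F Complex.I) := by
    intro α; rw [lin_eq, uc_eq]; ring
  simp only [e1, comb] at h1
  simp only [e2, comb] at h2
  have hpi : (Real.pi : ℂ) ≠ 0 := by exact_mod_cast Real.pi_ne_zero
  have hA : F 1 = 0 := by
    have : (Real.pi : ℂ) * (2 * F 1) = 0 := by linear_combination h1 + h2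
    rcases mul_eq_zero.1 this with h | h
    · exact absurd h hpi
    · rcases mul_eq_zero.1 h with h | h
      · exact absurd h two_ne_zero
      · exact h
  have hB : F Complex.I = 0 := by
    have : (Real.pi : ℂ) * (2 * (Complex.I * F Complex.I)) = 0 := by
      linear_combination h1 - h2
    rcases mul_eq_zero.1 this with h | h
    · exact absurd h hpi
    · rcases mul_eq_zero.1 h with h | h
      · exact absurd h two_ne_zero
      · rcases mul_eq_zero.1 h with h | h
        · exact absurd h Complex.I_ne_zero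
        · exact h
  ext v
  have : v = v.re • (1 : ℂ) + v.im • Complex.I := by
    rw [Complex.real_smul, Complex.real_smul, mul_one, Complex.re_add_im]
  rw [this, map_add, map_smul, map_smul, hA, hB]
  simp

/-- **the real variable lemma** -/
theorem const_of_harm {q : ℂ → ℂ} (hq : Measurable q) {Q : ℝ} (hQ : ∀ ζ, ‖q ζ‖ ≤ Q) {r : ℝ}
    (hc : ∀ ζ, ‖ζ‖ < r → ContinuousAt q ζ)
    (H : ∀ ε : ℝ, 0 < ε → ∀ δ₀ : ℝ, 0 < δ₀ → ∃ δ : ℝ, 0 < δ ∧ δ < δ₀ ∧ ∃ q' : ℂ → ℂ,
      Measurable q' ∧ (∀ ζ, ‖q' ζ - q ζ‖ ≤ ε) ∧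
      ∀ ζ, ‖ζ‖ < r →
        ‖∫ α in (0 : ℝ)..(2 * Real.pi), uv α * q' (ζ + δ * uv α)‖ ≤ ε * δ ∧
        ‖∫ α in (0 : ℝ)..(2 * Real.pi), uc α * q' (ζ + δ * uv α)‖ ≤ ε * δ) :
    ∀ ζ, ‖ζ‖ < r → q ζ = q 0 := by
  intro a ha
  have hr : 0 < r := (norm_nonneg a).trans_lt ha
  -- derivative of the mollification vanishes
  have hM : ∀ φ : ContDiffBump (0 : ℂ), ∀ x, ‖x‖ < r - φ.rOut →
      fderiv ℝ (mol (φ.normed volume) q) x = 0 := by
    intro φ x hx
    have hκ : ContDiff ℝ 1 (φ.normed (volume : Measure ℂ)) := φ.contDiff_normed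
    have hκc : HasCompactSupport (φ.normed (volume : Measure ℂ)) := φ.hasCompactSupport_normed
    have hs : ∀ ζ, φ.normed (volume : Measure ℂ) (x - ζ) ≠ 0 → ‖ζ‖ < r := by
      intro ζ h
      have : x - ζ ∈ Function.support (φ.normed (volume : Measure ℂ)) := h
      rw [φ.support_normed_eq, mem_ball, dist_zero_right] at this
      calc ‖ζ‖ = ‖x - (x - ζ)‖ := by congr 1; ring
        _ ≤ ‖x‖ + ‖x - ζ‖ := norm_sub_le _ _
        _ < r := by linarith
    refine lin_zero _ ?_ ?_
    · refine core hκ hκc hq hQ uv_cont (fun α => (norm_uv α).le) integral_uv (r := r) ?_ hs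
      intro ε hε δ₀ hδ₀
      obtain ⟨δ, h1, h2, q', h3, h4, h5⟩ := H ε hε δ₀ hδ₀
      exact ⟨δ, h1, h2, q', h3, h4, fun ζ hζ => (h5 ζ hζ).1⟩
    · refine core hκ hκc hq hQ uc_cont (fun α => (norm_uc α).le) integral_uc (r := r) ?_ hs
      intro ε hε δ₀ hδ₀
      obtain ⟨δ, h1, h2, q', h3, h4, h5⟩ := H ε hε δ₀ hδ₀
      exact ⟨δ, h1, h2, q', h3, h4, fun ζ hζ => (h5 ζ hζ).2⟩
  have hMc : ∀ φ : ContDiffBump (0 : ℂ), ∀ x, ‖x‖ < r - φ.rOut →
      mol (φ.normed volume) q x = mol (φ.normed volume) q 0 := by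
    intro φ x hx
    have h0 : 0 < r - φ.rOut := (norm_nonneg x).trans_lt hx
    refine IsOpen.is_const_of_fderiv_eq_zero (𝕜 := ℝ) (s := ball (0 : ℂ) (r - φ.rOut)) isOpen_ball
      (convex_ball _ _).isPreconnected ?_ ?_ (by simpa using hx) (by simpa using h0)
    · exact ((mol_contDiff φ.contDiff_normed φ.hasCompactSupport_normed hq hQ).differentiable
        (by simp)).differentiableOn
    · intro y hy
      exact hM φ y (by simpa using hy)
  -- let the support shrink
  have key : ∀ ε : ℝ, 0 < ε → dist (q a) (q 0) ≤ ε + ε := by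
    intro ε hε
    obtain ⟨η₁, hη₁, h1⟩ := Metric.continuousAt_iff.1 (hc a ha) ε hε
    obtain ⟨η₂, hη₂, h2⟩ := Metric.continuousAt_iff.1 (hc 0 (by simpa using hr)) ε hε
    set η := min (min η₁ η₂) (r - ‖a‖) with hη
    have hη0 : 0 < η := lt_min (lt_min hη₁ hη₂) (by linarith)
    let φ : ContDiffBump (0 : ℂ) := ⟨η / 4, η / 2, by positivity, by linarith⟩
    have hφ : φ.rOut = η / 2 := rfl
    have hle1 : η ≤ η₁ := (min_le_left _ _).trans (min_le_left _ _)
    have hle2 : η ≤ η₂ := (min_le_left _ _).trans (min_le_right _ _)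
    have hle3 : η ≤ r - ‖a‖ := min_le_right _ _
    have hA : dist (mol (φ.normed volume) q a) (q a) ≤ ε := by
      rw [mol_eq]
      refine φ.dist_normed_convolution_le hq.aestronglyMeasurable fun x hx => ?_
      refine (h1 ?_).le
      rw [mem_ball, hφ] at hx
      linarith
    have hB : dist (mol (φ.normed volume) q 0) (q 0) ≤ ε := by
      rw [mol_eq]
      refine φ.dist_normed_convolution_le hq.aestronglyMeasurable fun x hx => ?_
      refine (h2 ?_).le
      rw [mem_ball, hφ] at hx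
      linarith
    have hC := hMc φ a (by rw [hφ]; linarith)
    calc dist (q a) (q 0) ≤ dist (q a) (mol (φ.normed volume) q a) +
        dist (mol (φ.normed volume) q a) (q 0) := dist_triangle _ _ _
      _ ≤ ε + ε := by
          refine add_le_add (by rw [dist_comm]; exact hA) ?_
          rw [hC]; exact hB
  have : dist (q a) (q 0) ≤ 0 := by
    refine le_of_forall_pos_le_add fun ε hε => ?_
    have := key (ε / 2) (by linarith)
    linarith
  exact dist_le_zero.1 this

end Crest.Agent.R103.ThmAReal
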