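import Crest.Agent.R103.Iface
import Crest.Agent.R103.ThmAReal

/-!
# R103, module A8 (helper557): Theorem A from the main estimate
-/

set_option autoImplicit false
set_option linter.unusedSectionVars false

open MeasureTheory Filter Topology
open scoped InnerProductSpace

noncomputable section

namespace Crest.Agent.R103

namespace PlaneSys

open ThmAReal

variable {Ω : Type} [TopologicalSpace Ω] [MeasurableSpace Ω] {μ : Measure Ω} (S : PlaneSys Ω μ)

lemma U_zero (f : Lp ℂ 2 μ) : S.U 0 f = f := by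
  apply Lp.ext
  filter_upwards [S.U_coe 0 f] with z hz
  rw [hz, S.T_zero]

lemma U_U_neg (ζ : ℂ) (f : Lp ℂ 2 μ) : S.U ζ (S.U (-ζ) f) = f := by
  apply Lp.ext
  filter_upwards [S.U_coe ζ (S.U (-ζ) f),
    (S.T_mp ζ).quasiMeasurePreserving.ae (S.U_coe (-ζ) f), S.T_neg ζ] with z h1 h2 h3
  rw [h1, h2, h3]

/-- local group law on functions supported away from the singular set -/
lemma U_U_of_supp {b r : ℝ} (hr : 0 < r) (hb : (S.C₀ + 2) * r ≤ b) {ψ : Lp ℂ 2 μ}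
    (hψ : S.SuppGe b ψ) {a c : ℂ} (ha : ‖a‖ ≤ r) (hc : ‖c‖ ≤ r) :
    S.U a (S.U c ψ) = S.U (a + c) ψ := by
  apply Lp.ext
  have hψ1 : ∀ᵐ z ∂μ, S.ρ (S.T c (S.T a z)) < b → ψ (S.T c (S.T a z)) = 0 :=
    ((S.T_mp c).comp (S.T_mp a)).quasiMeasurePreserving.ae hψ
  have hψ2 : ∀ᵐ z ∂μ, S.ρ (S.T (a + c) z) < b → ψ (S.T (a + c) z) = 0 :=
    (S.T_mp (a + c)).quasiMeasurePreserving.ae hψ
  filter_upwards [S.U_coe a (S.U c ψ),
    (S.T_mp a).quasiMeasurePreserving.ae (S.U_coe c ψ), S.U_coe (a + c) ψ,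
    S.LC r hr a c ha hc, hψ1, hψ2] with z h1 h2 h3 h4 h5 h6
  rw [h1, h2, h3]
  by_cases hz : S.C₀ * r ≤ S.ρ z
  · have := h4 hz
    rw [show S.T c (S.T a z) = S.T (a + c) z from this]
  · push Not at hz
    have e1 : S.ρ (S.T c (S.T a z)) < b := by
      have i1 := S.ρ_T c (S.T a z)
      have i2 := S.ρ_T a z
      nlinarith
    have e2 : S.ρ (S.T (a + c) z) < b := by
      have i1 := S.ρ_T (a + c) z
      have i2 := norm_add_le a c
      nlinarith
    rw [h5 e1, h6 e2]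

lemma inner_harm (k : ℤ) (F : ℝ → Lp ℂ 2 μ) (hF : Continuous F) (g : Lp ℂ 2 μ) :
    ⟪g, harm k F⟫_ℂ = ((2 * Real.pi)⁻¹ : ℝ) *
      ∫ α in (0 : ℝ)..(2 * Real.pi), Complex.exp (k * α * Complex.I) * ⟪g, F α⟫_ℂ := by
  unfold harm
  rw [← Complex.coe_smul, inner_smul_right]
  congr 1
  have hk : Continuous fun α : ℝ => Complex.exp (k * α * Complex.I) := by fun_prop
  have h1 : IntervalIntegrable (fun α : ℝ => Complex.exp (k * α * Complex.I) • F α) volume
      0 (2 * Real.pi) := (hk.smul hF).intervalIntegrable _ _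
  have h2 := (innerSL ℂ g).intervalIntegral_comp_comm h1
  simp only [innerSL_apply_apply] at h2
  refine Eq.trans h2.symm ?_
  refine intervalIntegral.integral_congr fun α _ => ?_
  simp only [inner_smul_right]

open Classical in
/-- the matrix coefficient, cut off outside the ball -/
def mc (r : ℝ) (ψ g : Lp ℂ 2 μ) : ℂ → ℂ :=
  (Metric.ball (0 : ℂ) r).piecewise (fun ζ => ⟪g, S.U ζ ψ⟫_ℂ) (fun _ => 0)

lemma mc_eq {r : ℝ} (ψ g : Lp ℂ 2 μ) {ζ : ℂ} (hζ : ‖ζ‖ < r) : S.mc r ψ g ζ = ⟪g, S.U ζ ψ⟫_ℂ := by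
  unfold mc
  rw [Set.piecewise_eq_of_mem]
  simpa using hζ

lemma norm_mc_sub (r : ℝ) (ψ g g' : Lp ℂ 2 μ) (ζ : ℂ) :
    ‖S.mc r ψ g' ζ - S.mc r ψ g ζ‖ ≤ ‖g' - g‖ * ‖ψ‖ := by
  by_cases hζ : ‖ζ‖ < r
  · rw [S.mc_eq _ _ hζ, S.mc_eq _ _ hζ, ← inner_sub_left]
    refine (norm_inner_le_norm _ _).trans ?_
    rw [(S.U ζ).norm_map]
  · unfold mc
    rw [Set.piecewise_eq_of_notMem, Set.piecewise_eq_of_notMem]
    · simp only [sub_self, norm_zero]; positivity
    · simpa using hζ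
    · simpa using hζ

lemma norm_mc (r : ℝ) (ψ g : Lp ℂ 2 μ) (ζ : ℂ) : ‖S.mc r ψ g ζ‖ ≤ ‖g‖ * ‖ψ‖ := by
  have h := S.norm_mc_sub r ψ 0 g ζ
  have h0 : S.mc r ψ 0 ζ = 0 := by
    classical
    unfold mc
    by_cases hζ : ζ ∈ Metric.ball (0 : ℂ) r
    · rw [Set.piecewise_eq_of_mem _ _ _ hζ, inner_zero_left]
    · rw [Set.piecewise_eq_of_notMem _ _ _ hζ]
  rw [h0, sub_zero, sub_zero] at h
  exact h

section
variable {b r : ℝ} (hr : 0 < r) (hb : (S.C₀ + 2) * r ≤ b) {ψ : Lp ℂ 2 μ}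
    (hψ : S.SuppGe b ψ) (hU : Tendsto (fun ζ : ℂ => S.U ζ ψ) (𝓝 0) (𝓝 ψ))

include hr hb hψ hU in
lemma U_contAt {ζ : ℂ} (hζ : ‖ζ‖ ≤ r) : ContinuousAt (fun ξ : ℂ => S.U ξ ψ) ζ := by
  have h1 : (fun ξ : ℂ => S.U ξ ψ) =ᶠ[𝓝 ζ] fun ξ => S.U ζ (S.U (ξ - ζ) ψ) := by
    filter_upwards [Metric.ball_mem_nhds ζ hr] with ξ hξ
    rw [Metric.mem_ball, dist_eq_norm] at hξ
    have := S.U_U_of_supp hr hb hψ hζ hξ.le
    rw [this]; congr 2; ring
  refine ContinuousAt.congr ?_ h1.symm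
  have h2 : Tendsto (fun ξ : ℂ => ξ - ζ) (𝓝 ζ) (𝓝 0) := by
    have : Continuous (fun ξ : ℂ => ξ - ζ) := by fun_prop
    have h := this.tendsto ζ
    simpa using h
  have h3 : Tendsto (fun ξ : ℂ => S.U ζ (S.U (ξ - ζ) ψ)) (𝓝 ζ) (𝓝 (S.U ζ ψ)) :=
    ((S.U ζ).continuous.tendsto ψ).comp (hU.comp h2)
  have h4 : S.U ζ (S.U (ζ - ζ) ψ) = S.U ζ ψ := by rw [sub_self, S.U_zero]
  unfold ContinuousAt
  simp only [h4]; exact h3

include hr hb hψ hU in
lemma mc_contAt (g : Lp ℂ 2 μ) {ζ : ℂ} (hζ : ‖ζ‖ < r) : ContinuousAt (S.mc r ψ g) ζ := by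
  have h1 : (S.mc r ψ g) =ᶠ[𝓝 ζ] fun ξ => ⟪g, S.U ξ ψ⟫_ℂ := by
    have : Metric.ball (0 : ℂ) r ∈ 𝓝 ζ := Metric.isOpen_ball.mem_nhds (by simpa using hζ)
    filter_upwards [this] with ξ hξ
    exact S.mc_eq _ _ (by simpa using hξ)
  refine ContinuousAt.congr ?_ h1.symm
  have h2 := S.U_contAt hr hb hψ hU hζ.le
  exact continuousAt_const.inner h2

include hr hb hψ hU in
lemma mc_measurable (g : Lp ℂ 2 μ) : Measurable (S.mc r ψ g) := by
  classical
  unfold mc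
  refine ContinuousOn.measurable_piecewise ?_ continuousOn_const Metric.isOpen_ball.measurableSet
  intro ζ hζ
  have hζ' : ‖ζ‖ ≤ r := by
    have : ‖ζ‖ < r := by simpa using hζ
    exact this.le
  have h2 := S.U_contAt hr hb hψ hU hζ'
  exact (continuousAt_const.inner h2).continuousWithinAt

end

end PlaneSys

open PlaneSys ThmAReal in
/-- step 1: matrix coefficients against `u` are locally constant -/
lemma step1 (hmain : PlaneSys.StMain) (hcont : PlaneSys.StCont) (hE : PlaneSys.StE)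
    (hP : PlaneSys.StP)
    {Ω : Type} [TopologicalSpace Ω] [MeasurableSpace Ω] [BorelSpace Ω]
    [SecondCountableTopology Ω] [TopologicalSpace.PseudoMetrizableSpace Ω]
    {μ : Measure Ω} [IsFiniteMeasure μ] (S : PlaneSys Ω μ) (u : Lp ℂ 2 μ) (B : ℝ)
    (hB : ∀ᵐ z ∂μ, ‖u z‖ ≤ B) (hu : ∀ t, S.Uφ t u = u)
    {b r : ℝ} (hr : 0 < r) (hb : (S.C₀ + 2) * r ≤ b) {ψ : Lp ℂ 2 μ} (hψ : S.SuppGe b ψ)
    {ζ : ℂ} (hζ : ‖ζ‖ < r / 2) : ⟪u, S.U ζ ψ - ψ⟫_ℂ = 0 := by
  obtain ⟨hc0, -, -, hc3⟩ := hcont Ω μ S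
  obtain ⟨hP1, hP2, hP3, hP4, -⟩ := hP Ω μ S
  have hU : Tendsto (fun ζ : ℂ => S.U ζ ψ) (𝓝 0) (𝓝 ψ) := hc0 ψ
  refine hP4 u _ fun n => ?_
  obtain ⟨P', hP'⟩ := hP1 n
  have hsub : ∀ h : Lp ℂ 2 μ, ‖S.P n h - S.P n u‖ ≤ ‖h - u‖ := by
    intro h
    rw [← hP', ← hP', ← map_sub, hP']
    exact hP2 n _
  set q : ℂ → ℂ := S.mc r ψ (S.P n u) with hq
  have hpi := Real.pi_pos
  have hconst : ∀ ζ : ℂ, ‖ζ‖ < r / 2 → q ζ = q 0 := by
    refine const_of_harm (S.mc_measurable hr hb hψ hU _) (S.norm_mc r ψ (S.P n u))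
      (fun ζ hζ => S.mc_contAt hr hb hψ hU _ (by linarith)) ?_
    intro ε hε δ₀ hδ₀
    set c : ℝ := 2 * Real.pi * (‖ψ‖ + 1) with hc
    have hcpos : 0 < c := by positivity
    obtain ⟨δ, hδ, hδ', h, hh, hharm⟩ := hmain Ω μ S u B hB hu (ε / c) (by positivity)
      (min δ₀ (r / 2)) (lt_min hδ₀ (by linarith))
    have hδ1 : δ < δ₀ := hδ'.trans_le (min_le_left _ _)
    have hδ2 : δ < r / 2 := hδ'.trans_le (min_le_right _ _)
    obtain ⟨hn1, hn2⟩ := hharm n
    obtain ⟨-, -, -, -, -, -, -, -, ad1, ad2⟩ := hE Ω μ S δ hδ.le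
    have hcle : ‖ψ‖ ≤ c := by
      have h1 : (1 : ℝ) ≤ 2 * Real.pi := by linarith [Real.pi_gt_three]
      nlinarith [norm_nonneg ψ]
    refine ⟨δ, hδ, hδ1, S.mc r ψ (S.P n h), S.mc_measurable hr hb hψ hU _, ?_, ?_⟩
    · intro ξ
      refine (S.norm_mc_sub r ψ (S.P n u) (S.P n h) ξ).trans ?_
      calc ‖S.P n h - S.P n u‖ * ‖ψ‖ ≤ (ε / c) * c :=
            mul_le_mul ((hsub h).trans hh) hcle (norm_nonneg _) (by positivity)
        _ = ε := by field_simp
    · intro ξ hξ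
      have hF : Continuous fun α : ℝ => S.U (δ * Complex.exp (α * Complex.I)) (S.U ξ ψ) :=
        hc3 δ _ hδ.le
      have hmc : ∀ α : ℝ, S.mc r ψ (S.P n h) (ξ + δ * uv α) =
          ⟪S.P n h, S.U (δ * Complex.exp (α * Complex.I)) (S.U ξ ψ)⟫_ℂ := by
        intro α
        have hn : ‖(δ : ℂ) * uv α‖ = δ := by
          rw [norm_mul, norm_uv, mul_one, Complex.norm_real, Real.norm_of_nonneg hδ.le]
        have hlt : ‖ξ + δ * uv α‖ < r := by
          refine (norm_add_le _ _).trans_lt ?_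
          rw [hn]; linarith
        rw [S.mc_eq _ _ hlt]
        have := S.U_U_of_supp hr hb hψ (a := δ * uv α) (c := ξ) (by rw [hn]; linarith)
          (by linarith)
        rw [add_comm, ← this]
        rfl
      have hbound : ∀ x : ℝ, x ≤ (ε / c) * δ * ‖ψ‖ → (2 * Real.pi) * x ≤ ε * δ := by
        intro x hx
        have h1 : (2 * Real.pi) * x ≤ (2 * Real.pi) * ((ε / c) * δ * (‖ψ‖ + 1)) := by
          refine mul_le_mul_of_nonneg_left (hx.trans ?_) (by positivity)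
          exact mul_le_mul_of_nonneg_left (by linarith) (by positivity)
        refine h1.trans (le_of_eq ?_)
        rw [hc]; field_simp
      have hfin : ∀ X : ℂ, ∀ Y : ℂ, Y = ((2 * Real.pi)⁻¹ : ℝ) * X → ‖Y‖ ≤ (ε / c) * δ * ‖ψ‖ →
          ‖X‖ ≤ ε * δ := by
        intro X Y hXY hY
        have : ‖X‖ = (2 * Real.pi) * ‖Y‖ := by
          rw [hXY, norm_mul, Complex.norm_real, Real.norm_of_nonneg (by positivity)]
          field_simp
        rw [this]; exact hbound _ hY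
      constructor
      · -- `uv` : pairs with `Em`
        refine hfin _ ⟪S.P n h, S.Em δ (S.U ξ ψ)⟫_ℂ ?_ ?_
        · unfold PlaneSys.Em
          rw [PlaneSys.inner_harm _ _ hF]
          congr 1
          refine intervalIntegral.integral_congr fun α _ => ?_
          simp only [hmc]
          congr 1
          unfold uv
          congr 1; push_cast; ring
        · have h1 : ⟪S.P n h, S.Em δ (S.U ξ ψ)⟫_ℂ = - ⟪S.Ep δ (S.P n h), S.U ξ ψ⟫_ℂ := by
            rw [ad1]; ring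
          rw [h1, norm_neg]
          refine (norm_inner_le_norm _ _).trans ?_
          rw [(S.U ξ).norm_map]
          exact mul_le_mul_of_nonneg_right hn1 (norm_nonneg _)
      · refine hfin _ ⟪S.P n h, S.Ep δ (S.U ξ ψ)⟫_ℂ ?_ ?_
        · unfold PlaneSys.Ep
          rw [PlaneSys.inner_harm _ _ hF]
          congr 1
          refine intervalIntegral.integral_congr fun α _ => ?_
          simp only [hmc]
          congr 1
          unfold uc
          congr 1; push_cast; ring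
        · have h1 : ⟪S.P n h, S.Ep δ (S.U ξ ψ)⟫_ℂ = - ⟪S.Em δ (S.P n h), S.U ξ ψ⟫_ℂ := by
            rw [ad2]; ring
          rw [h1, norm_neg]
          refine (norm_inner_le_norm _ _).trans ?_
          rw [(S.U ξ).norm_map]
          exact mul_le_mul_of_nonneg_right hn2 (norm_nonneg _)
  have h1 := hconst ζ hζ
  rw [hq, S.mc_eq _ _ (by linarith : ‖ζ‖ < r), S.mc_eq _ _ (by simpa using hr), S.U_zero] at h1
  rw [inner_sub_right, h1, sub_self]

open PlaneSys in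
/-- step 2: `u` is invariant under small translations away from the singular set -/
lemma step2 (hmain : PlaneSys.StMain) (hcont : PlaneSys.StCont) (hE : PlaneSys.StE)
    (hP : PlaneSys.StP)
    {Ω : Type} [TopologicalSpace Ω] [MeasurableSpace Ω] [BorelSpace Ω]
    [SecondCountableTopology Ω] [TopologicalSpace.PseudoMetrizableSpace Ω]
    {μ : Measure Ω} [IsFiniteMeasure μ] (S : PlaneSys Ω μ) (u : Lp ℂ 2 μ) (B : ℝ)
    (hB : ∀ᵐ z ∂μ, ‖u z‖ ≤ B) (hu : ∀ t, S.Uφ t u = u)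
    {b r : ℝ} (hr : 0 < r) (hb : (S.C₀ + 2) * r ≤ b)
    {ζ : ℂ} (hζ : ‖ζ‖ < r / 2) : ∀ᵐ z ∂μ, b ≤ S.ρ z → u (S.T ζ z) = u z := by
  set w : Lp ℂ 2 μ := S.U ζ u - u with hw
  have hs : MeasurableSet {z | b ≤ S.ρ z} := measurableSet_le measurable_const S.ρ_meas
  have hwm : MemLp ({z | b ≤ S.ρ z}.indicator w) 2 μ := (Lp.memLp w).indicator hs
  set ψ : Lp ℂ 2 μ := hwm.toLp _ with hψd
  have hψc : ψ =ᵐ[μ] {z | b ≤ S.ρ z}.indicator w := hwm.coeFn_toLp
  have hψ : S.SuppGe b ψ := by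
    filter_upwards [hψc] with z hz hlt
    rw [hz, Set.indicator_of_notMem]
    simpa using hlt
  have h1 : ⟪u, S.U (-ζ) ψ - ψ⟫_ℂ = 0 :=
    step1 hmain hcont hE hP S u B hB hu hr hb hψ (by rwa [norm_neg])
  have h2 : ⟪u, S.U (-ζ) ψ⟫_ℂ = ⟪S.U ζ u, ψ⟫_ℂ := by
    have : S.U (-ζ) (S.U ζ u) = u := by
      have := S.U_U_neg (-ζ) u
      rwa [neg_neg] at this
    conv_lhs => rw [← this]
    exact (S.U (-ζ)).inner_map_map _ _
  have h3 : ⟪w, ψ⟫_ℂ = 0 := by
    rw [inner_sub_right, h2, ← inner_sub_left] at h1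
    exact h1
  have h4 : ⟪w, ψ⟫_ℂ = ⟪ψ, ψ⟫_ℂ := by
    rw [L2.inner_def, L2.inner_def]
    refine integral_congr_ae ?_
    filter_upwards [hψc] with z hz
    by_cases hzs : z ∈ {z | b ≤ S.ρ z}
    · rw [hz, Set.indicator_of_mem hzs]
    · rw [hz, Set.indicator_of_notMem hzs, inner_zero_right, inner_zero_right]
  have h5 : ψ = 0 := by
    rw [h3] at h4
    exact inner_self_eq_zero.1 h4.symm
  have h6 : ∀ᵐ z ∂μ, ψ z = 0 := by
    rw [h5]; exact Lp.coeFn_zero _ _ _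
  filter_upwards [hψc, h6, S.U_coe ζ u, Lp.coeFn_sub (S.U ζ u) u] with z e1 e2 e3 e4 hz
  rw [e2, Set.indicator_of_mem (by exact hz)] at e1
  have e5 : w z = (S.U ζ u) z - u z := e4
  rw [e5, e3] at e1
  exact (sub_eq_zero.1 e1.symm)

open PlaneSys in
/-- **Theorem A** -/
theorem thmA (hmain : PlaneSys.StMain) (hcont : PlaneSys.StCont) (hE : PlaneSys.StE)
    (hP : PlaneSys.StP) : PlaneSys.StThmA := by
  intro Ω _ _ _ _ _ μ _ S u B hB hu ζ
  have hC0 := S.one_le_C₀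
  have hum : Measurable (u : Ω → ℂ) := (Lp.stronglyMeasurable u).measurable
  -- bad set of a small translation
  set bad : ℂ → Set Ω := fun ξ => {z | u (S.T ξ z) ≠ u z} with hbad
  have hbadm : ∀ ξ, MeasurableSet (bad ξ) := fun ξ =>
    (measurableSet_eq_fun (hum.comp (S.T_measurable ξ)) hum).compl
  set C : ℝ := S.Cv * (3 * (S.C₀ + 2)) ^ 2 with hC
  have hCnn : 0 ≤ C := by have := S.Cv_nonneg; positivity
  have hsmall : ∀ ξ : ℂ, ξ ≠ 0 → μ (bad ξ) ≤ ENNReal.ofReal (C * ‖ξ‖ ^ 2) := by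
    intro ξ hξ
    have hξ0 : 0 < ‖ξ‖ := norm_pos_iff.2 hξ
    set b : ℝ := 3 * (S.C₀ + 2) * ‖ξ‖ with hbdef
    have hb0 : 0 < b := by positivity
    have h1 := step2 hmain hcont hE hP S u B hB hu (b := b) (r := 3 * ‖ξ‖) (by positivity)
      (by rw [hbdef]; linarith) (ζ := ξ) (by linarith)
    have h2 : μ (bad ξ) ≤ μ {z | S.ρ z < b} := by
      refine measure_mono_ae ?_
      filter_upwards [h1] with z hz hzb
      change S.ρ z < b
      by_contra hlt
      exact hzb (hz (not_lt.1 hlt))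
    refine h2.trans ((S.vol b hb0).trans (le_of_eq ?_))
    congr 1
    rw [hC, hbdef]; ring
  -- along a ray
  obtain ⟨t, α, ht, -, hζ⟩ := exists_polar ζ
  have hray : ∀ s : ℝ, 0 < s → ∀ k : ℕ,
      μ (bad (((k * s : ℝ) : ℂ) * Complex.exp (α * Complex.I))) ≤
        k * ENNReal.ofReal (C * s ^ 2) := by
    intro s hs k
    induction k with
    | zero =>
      have : bad ((((0 : ℕ) * s : ℝ) : ℂ) * Complex.exp (α * Complex.I)) = ∅ := by
        ext z
        simp [hbad, S.T_zero]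
      rw [this]; simp
    | succ k ih =>
      set e := Complex.exp (α * Complex.I) with he
      have hsub : bad ((((k + 1 : ℕ) * s : ℝ) : ℂ) * e) ⊆
          (S.T (((k * s : ℝ) : ℂ) * e)) ⁻¹' (bad ((s : ℂ) * e)) ∪
            bad (((k * s : ℝ) : ℂ) * e) := by
        intro z hz
        by_contra hnot
        rw [Set.mem_union, not_or] at hnot
        obtain ⟨n1, n2⟩ := hnot
        have n1' : u (S.T ((s : ℂ) * e) (S.T (((k * s : ℝ) : ℂ) * e) z)) =
            u (S.T (((k * s : ℝ) : ℂ) * e) z) := by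
          by_contra hh; exact n1 hh
        have n2' : u (S.T (((k * s : ℝ) : ℂ) * e) z) = u z := by
          by_contra hh; exact n2 hh
        apply hz
        have hk : (((k + 1 : ℕ) * s : ℝ)) = s + k * s := by push_cast; ring
        rw [hk, S.T_ray hs.le (by positivity), n1', n2']
      have hnorm : ‖(s : ℂ) * e‖ = s := by
        rw [norm_mul, he, Complex.norm_exp_ofReal_mul_I, mul_one, Complex.norm_real,
          Real.norm_of_nonneg hs.le]
      have hne : (s : ℂ) * e ≠ 0 := by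
        rw [← norm_pos_iff, hnorm]; exact hs
      have hb1 := hsmall _ hne
      rw [hnorm] at hb1
      calc μ (bad ((((k + 1 : ℕ) * s : ℝ) : ℂ) * e))
          ≤ μ ((S.T (((k * s : ℝ) : ℂ) * e)) ⁻¹' (bad ((s : ℂ) * e)) ∪
            bad (((k * s : ℝ) : ℂ) * e)) := measure_mono hsub
        _ ≤ μ ((S.T (((k * s : ℝ) : ℂ) * e)) ⁻¹' (bad ((s : ℂ) * e))) +
            μ (bad (((k * s : ℝ) : ℂ) * e)) := measure_union_le _ _
        _ = μ (bad ((s : ℂ) * e)) + μ (bad (((k * s : ℝ) : ℂ) * e)) := by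
            rw [(S.T_mp _).measure_preimage (hbadm _).nullMeasurableSet]
        _ ≤ ENNReal.ofReal (C * s ^ 2) + k * ENNReal.ofReal (C * s ^ 2) := add_le_add hb1 ih
        _ = ((k + 1 : ℕ) : ENNReal) * ENNReal.ofReal (C * s ^ 2) := by push_cast; ring
  have hzero : μ (bad ζ) = 0 := by
    rcases ht.eq_or_lt with h0 | htpos
    · have : ζ = 0 := by rw [hζ, ← h0]; simp
      have h : bad ζ = ∅ := by
        ext z; simp [hbad, this, S.T_zero]
      rw [h]; simp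
    · have hN : ∀ N : ℕ, 0 < N → μ (bad ζ) ≤ ENNReal.ofReal (C * t ^ 2 / N) := by
        intro N hN
        have hN' : (0 : ℝ) < N := by exact_mod_cast hN
        have h1 := hray (t / N) (by positivity) N
        have h2 : ((N * (t / N) : ℝ)) = t := by field_simp
        rw [h2, ← hζ] at h1
        refine h1.trans (le_of_eq ?_)
        rw [← ENNReal.ofReal_natCast, ← ENNReal.ofReal_mul hN'.le]
        congr 1; field_simp
      have hlim : Tendsto (fun N : ℕ => ENNReal.ofReal (C * t ^ 2 / N)) atTop (𝓝 0) := by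
        have h1 : Tendsto (fun N : ℕ => C * t ^ 2 / (N : ℝ)) atTop (𝓝 0) :=
          tendsto_const_div_atTop_nhds_zero_nat _
        have h2 := ENNReal.tendsto_ofReal h1
        rwa [ENNReal.ofReal_zero] at h2
      refine le_antisymm (ge_of_tendsto hlim ?_) bot_le
      filter_upwards [eventually_gt_atTop 0] with N hN'
      exact hN N hN'
  apply Lp.ext
  have hae : ∀ᵐ z ∂μ, u (S.T ζ z) = u z := by
    rw [ae_iff]; exact hzero
  filter_upwards [S.U_coe ζ u, hae] with z h1 h2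
  rw [h1, h2]

end Crest.Agent.R103
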