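import Mathlib

/-!
# R103, step (5) of note 11649: scalar mollification lemma

If a continuous function on `ℂ` is uniformly approximated by continuous functions whose first
harmonics (on circles of radius `δ → 0` centred near `0`) are `o(δ)`, then it is constant near `0`.
-/

open MeasureTheory Filter Topology Metric Set
open scoped Convolution

noncomputable section

namespace Crest.Agent.R103.Wk

/-- integral against the character `e^{ika}` over the circle of radius `δ` centred at `ζ` -/
def circ (k : ℤ) (F : ℂ → ℂ) (δ : ℝ) (ζ : ℂ) : ℂ :=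
  ∫ a in (0 : ℝ)..(2 * Real.pi),
    Complex.exp (k * a * Complex.I) * F (ζ + δ * Complex.exp (a * Complex.I))

lemma norm_char (k : ℤ) (a : ℝ) : ‖Complex.exp (k * a * Complex.I)‖ = 1 := by
  have : ((k : ℂ) * a * Complex.I) = ((k * a : ℝ) : ℂ) * Complex.I := by push_cast; ring
  rw [this, Complex.norm_exp_ofReal_mul_I]

lemma int_char {k : ℤ} (hk : k ≠ 0) :
    ∫ a in (0 : ℝ)..(2 * Real.pi), Complex.exp (k * a * Complex.I) = 0 := by
  have h0 : (k : ℂ) * Complex.I ≠ 0 := by
    simp [hk]
  have h := integral_exp_mul_complex (a := 0) (b := 2 * Real.pi) h0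
  have e : ∀ a : ℝ, (k : ℂ) * a * Complex.I = (k : ℂ) * Complex.I * a := by intro a; ring
  simp_rw [e]
  rw [h]
  have h1 : Complex.exp ((k : ℂ) * Complex.I * ((2 * Real.pi : ℝ) : ℂ)) = 1 := by
    rw [Complex.exp_eq_one_iff]
    exact ⟨k, by push_cast; ring⟩
  rw [h1]; simp

lemma circ_cont {F : ℂ → ℂ} (hF : Continuous F) (k : ℤ) (δ : ℝ) (ζ : ℂ) :
    Continuous fun a : ℝ =>
      Complex.exp (k * a * Complex.I) * F (ζ + δ * Complex.exp (a * Complex.I)) := by
  fun_prop

/-- first harmonics do not see constants -/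
lemma circ_le_of_sub {F : ℂ → ℂ} (hF : Continuous F) {k : ℤ} (hk : k ≠ 0) {δ C : ℝ} {ζ : ℂ}
    (h : ∀ a : ℝ, ‖F (ζ + δ * Complex.exp (a * Complex.I)) - F ζ‖ ≤ C) :
    ‖circ k F δ ζ‖ ≤ C * (2 * Real.pi) := by
  have e : circ k F δ ζ = ∫ a in (0 : ℝ)..(2 * Real.pi),
      Complex.exp (k * a * Complex.I) * (F (ζ + δ * Complex.exp (a * Complex.I)) - F ζ) := by
    have h1 : ∀ a : ℝ, Complex.exp (k * a * Complex.I) *
        (F (ζ + δ * Complex.exp (a * Complex.I)) - F ζ)
        = Complex.exp (k * a * Complex.I) * F (ζ + δ * Complex.exp (a * Complex.I))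
          - Complex.exp (k * a * Complex.I) * F ζ := by intro a; ring
    simp_rw [h1]
    rw [intervalIntegral.integral_sub, intervalIntegral.integral_mul_const, int_char hk]
    · simp [circ]
    · exact (circ_cont hF k δ ζ).intervalIntegrable _ _
    · exact Continuous.intervalIntegrable (by fun_prop) _ _
  rw [e]
  have := intervalIntegral.norm_integral_le_of_norm_le_const (a := 0) (b := 2 * Real.pi) (C := C)
    (f := fun a : ℝ => Complex.exp (k * a * Complex.I) *
      (F (ζ + δ * Complex.exp (a * Complex.I)) - F ζ))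
    (fun a _ => by rw [norm_mul, norm_char, one_mul]; exact h a)
  rwa [sub_zero, abs_of_pos (by positivity)] at this

lemma circ_sub {F G : ℂ → ℂ} (hF : Continuous F) (hG : Continuous G) (k : ℤ) (δ : ℝ) (ζ : ℂ) :
    circ k (fun z => F z - G z) δ ζ = circ k F δ ζ - circ k G δ ζ := by
  unfold circ
  rw [← intervalIntegral.integral_sub ((circ_cont hF k δ ζ).intervalIntegrable _ _)
    ((circ_cont hG k δ ζ).intervalIntegrable _ _)]
  congr 1
  ext a; ring

/-- a real-linear map `ℂ → ℂ` whose two first harmonics vanish is zero -/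
lemma eq_zero_of_harmonics (A : ℂ →L[ℝ] ℂ)
    (h1 : ∫ a in (0 : ℝ)..(2 * Real.pi),
      Complex.exp ((1 : ℤ) * a * Complex.I) * A (Complex.exp (a * Complex.I)) = 0)
    (h2 : ∫ a in (0 : ℝ)..(2 * Real.pi),
      Complex.exp ((-1 : ℤ) * a * Complex.I) * A (Complex.exp (a * Complex.I)) = 0) :
    A = 0 := by
  -- Wirtinger components
  set p : ℂ := (A 1 - Complex.I * A Complex.I) / 2 with hp
  set q : ℂ := (A 1 + Complex.I * A Complex.I) / 2 with hq
  have hA : ∀ z : ℂ, A z = p * z + q * (starRingEnd ℂ) z := by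
    intro z
    have hz : z = (z.re : ℝ) • (1 : ℂ) + (z.im : ℝ) • Complex.I := by
      apply Complex.ext <;> simp
    have h3 : A z = (z.re : ℂ) * A 1 + (z.im : ℂ) * A Complex.I := by
      conv_lhs => rw [hz]
      rw [map_add, map_smul, map_smul]
      simp
    have h4 : (starRingEnd ℂ) z = (z.re : ℂ) - (z.im : ℂ) * Complex.I := by
      apply Complex.ext <;> simp
    have h5 : z = (z.re : ℂ) + (z.im : ℂ) * Complex.I := (Complex.re_add_im z).symm
    rw [h3, h4]
    conv_rhs => rw [h5]
    simp only [Complex.add_re, Complex.ofReal_re, Complex.mul_re, Complex.I_re, mul_zero,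
      Complex.ofReal_im, Complex.I_im, mul_one, sub_self, add_zero, Complex.add_im, Complex.mul_im,
      zero_add]
    rw [hp, hq]
    ring_nf
    simp only [Complex.I_sq]
    ring
  have hc : ∀ a : ℝ, (starRingEnd ℂ) (Complex.exp (a * Complex.I))
      = Complex.exp ((-1 : ℤ) * a * Complex.I) := by
    intro a
    rw [← Complex.exp_conj]
    congr 1
    simp
  have e1 : ∀ a : ℝ, Complex.exp ((1 : ℤ) * a * Complex.I) * A (Complex.exp (a * Complex.I))
      = p * Complex.exp ((2 : ℤ) * a * Complex.I) + q := by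
    intro a
    rw [hA, hc, mul_add]
    have t1 : Complex.exp ((1 : ℤ) * a * Complex.I) * (p * Complex.exp (a * Complex.I))
        = p * Complex.exp ((2 : ℤ) * a * Complex.I) := by
      rw [mul_left_comm, ← Complex.exp_add]
      congr 2; push_cast; ring
    have t2 : Complex.exp ((1 : ℤ) * a * Complex.I) * (q * Complex.exp ((-1 : ℤ) * a * Complex.I))
        = q := by
      rw [mul_left_comm, ← Complex.exp_add]
      have : ((1 : ℤ) : ℂ) * a * Complex.I + ((-1 : ℤ) : ℂ) * a * Complex.I = 0 := by
        push_cast; ring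
      rw [this, Complex.exp_zero, mul_one]
    rw [t1, t2]
  have e2 : ∀ a : ℝ, Complex.exp ((-1 : ℤ) * a * Complex.I) * A (Complex.exp (a * Complex.I))
      = p + q * Complex.exp ((-2 : ℤ) * a * Complex.I) := by
    intro a
    rw [hA, hc, mul_add]
    have t1 : Complex.exp ((-1 : ℤ) * a * Complex.I) * (p * Complex.exp (a * Complex.I)) = p := by
      rw [mul_left_comm, ← Complex.exp_add]
      have : ((-1 : ℤ) : ℂ) * a * Complex.I + a * Complex.I = 0 := by
        push_cast; ring
      rw [this, Complex.exp_zero, mul_one]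
    have t2 : Complex.exp ((-1 : ℤ) * a * Complex.I) *
        (q * Complex.exp ((-1 : ℤ) * a * Complex.I))
        = q * Complex.exp ((-2 : ℤ) * a * Complex.I) := by
      rw [mul_left_comm, ← Complex.exp_add]
      congr 2; push_cast; ring
    rw [t1, t2]
  simp_rw [e1] at h1
  simp_rw [e2] at h2
  rw [intervalIntegral.integral_add, intervalIntegral.integral_const_mul,
    int_char (by norm_num : (2 : ℤ) ≠ 0)] at h1
  rw [intervalIntegral.integral_add, intervalIntegral.integral_const_mul,
    int_char (by norm_num : (-2 : ℤ) ≠ 0)] at h2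
  · have hpi : ((2 * Real.pi : ℝ) : ℂ) ≠ 0 := by
      exact_mod_cast (by positivity : (2 * Real.pi : ℝ) ≠ 0)
    have hq0 : q = 0 := by
      simp only [mul_zero, intervalIntegral.integral_const, sub_zero, zero_add] at h1
      rw [Complex.real_smul] at h1
      exact (mul_eq_zero.1 h1).resolve_left hpi
    have hp0 : p = 0 := by
      simp only [mul_zero, intervalIntegral.integral_const, sub_zero, add_zero] at h2
      rw [Complex.real_smul] at h2
      exact (mul_eq_zero.1 h2).resolve_left hpi
    ext z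
    rw [hA, hq0, hp0]; simp
  · exact Continuous.intervalIntegrable (by fun_prop) _ _
  · exact Continuous.intervalIntegrable (by fun_prop) _ _
  · exact Continuous.intervalIntegrable (by fun_prop) _ _
  · exact Continuous.intervalIntegrable (by fun_prop) _ _


section moll

variable (φ : ContDiffBump (0 : ℂ))

/-- mollification -/
def moll (g : ℂ → ℂ) : ℂ → ℂ := (φ.normed volume ⋆[ContinuousLinearMap.lsmul ℝ ℝ, volume] g)

lemma moll_apply (g : ℂ → ℂ) (z : ℂ) : moll φ g z = ∫ t, φ.normed volume t • g (z - t) := rfl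

lemma moll_contDiff {g : ℂ → ℂ} (hg : Continuous g) : ContDiff ℝ 1 (moll φ g) :=
  φ.hasCompactSupport_normed.contDiff_convolution_left _ φ.contDiff_normed hg.locallyIntegrable

lemma moll_integrable {g : ℂ → ℂ} (hg : Continuous g) (z : ℂ) :
    Integrable fun t => φ.normed volume t • g (z - t) := by
  refine Continuous.integrable_of_hasCompactSupport ?_ ?_
  · exact φ.continuous_normed.smul (hg.comp (continuous_const.sub continuous_id))
  · exact φ.hasCompactSupport_normed.smul_right

lemma moll_sub {f g : ℂ → ℂ} (hf : Continuous f) (hg : Continuous g) (z : ℂ) :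
    moll φ (fun t => f t - g t) z = moll φ f z - moll φ g z := by
  rw [moll_apply, moll_apply, moll_apply, ← integral_sub (moll_integrable φ hf z)
    (moll_integrable φ hg z)]
  congr 1
  ext t
  rw [smul_sub]

lemma moll_lip : ∃ M : ℝ, 0 ≤ M ∧ ∀ (g : ℂ → ℂ) (ε : ℝ), Continuous g → (∀ t, ‖g t‖ ≤ ε) →
    ∀ z z' : ℂ, ‖moll φ g z - moll φ g z'‖ ≤ M * ε * ‖z - z'‖ := by
  obtain ⟨K, hK⟩ := ContDiff.lipschitzWith_of_hasCompactSupport (𝕂 := ℝ)
    (φ.hasCompactSupport_normed (μ := volume)) (φ.contDiff_normed (n := 1)) (by simp)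
  set V : ℝ := (volume (ball (0 : ℂ) φ.rOut)).toReal with hV
  refine ⟨K * (2 * V), by positivity, fun g ε hg hε z z' => ?_⟩
  have hε0 : 0 ≤ ε := (norm_nonneg _).trans (hε 0)
  have e : ∀ w, moll φ g w = ∫ t, φ.normed volume (w - t) • g t := fun w =>
    convolution_lsmul_swap
  have hint : ∀ w, Integrable fun t => φ.normed volume (w - t) • g t := by
    intro w
    have h := (moll_integrable φ hg w).comp_sub_left w
    simpa using h
  rw [e, e, ← integral_sub (hint z) (hint z')]
  have e2 : ∀ t, φ.normed volume (z - t) • g t - φ.normed volume (z' - t) • g t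
      = (φ.normed volume (z - t) - φ.normed volume (z' - t)) • g t := fun t => by rw [sub_smul]
  simp_rw [e2]
  set s : Set ℂ := ball z φ.rOut ∪ ball z' φ.rOut with hs
  have h0 : ∀ t, t ∉ s → (φ.normed volume (z - t) - φ.normed volume (z' - t)) • g t = 0 := by
    intro t ht
    have h1 : t ∉ ball z φ.rOut := fun h => ht (Or.inl h)
    have h2 : t ∉ ball z' φ.rOut := fun h => ht (Or.inr h)
    have k : ∀ w : ℂ, t ∉ ball w φ.rOut → φ.normed volume (w - t) = 0 := by
      intro w hw
      have : (w - t) ∉ Function.support (φ.normed volume) := by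
        rw [φ.support_normed_eq]
        simpa [mem_ball, dist_eq_norm, norm_sub_rev] using hw
      simpa [Function.mem_support] using this
    rw [k z h1, k z' h2]; simp
  rw [← setIntegral_eq_integral_of_forall_compl_eq_zero h0]
  have hsfin : volume s < ⊤ := (measure_union_le _ _).trans_lt
    (ENNReal.add_lt_top.2 ⟨measure_ball_lt_top, measure_ball_lt_top⟩)
  have hb := norm_setIntegral_le_of_norm_le_const (μ := volume) (s := s)
    (C := K * ‖z - z'‖ * ε)
    (f := fun t => (φ.normed volume (z - t) - φ.normed volume (z' - t)) • g t) hsfin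
    (fun t _ => by
      rw [norm_smul]
      have h1 := hK.dist_le_mul (z - t) (z' - t)
      rw [dist_eq_norm, dist_eq_norm] at h1
      have h2 : z - t - (z' - t) = z - z' := by ring
      rw [h2] at h1
      exact mul_le_mul h1 (hε t) (norm_nonneg _) (by positivity))
  refine hb.trans ?_
  have hvs : (volume s).toReal ≤ 2 * V := by
    have h1 : volume s ≤ volume (ball (0 : ℂ) φ.rOut) + volume (ball (0 : ℂ) φ.rOut) := by
      refine (measure_union_le _ _).trans ?_
      rw [Measure.addHaar_ball_center volume z, Measure.addHaar_ball_center volume z']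
    have h2 := ENNReal.toReal_mono (ENNReal.add_lt_top.2
      ⟨measure_ball_lt_top, measure_ball_lt_top⟩).ne h1
    rw [ENNReal.toReal_add measure_ball_lt_top.ne measure_ball_lt_top.ne] at h2
    linarith
  have : (volume.real s) = (volume s).toReal := rfl
  rw [this]
  calc K * ‖z - z'‖ * ε * (volume s).toReal ≤ K * ‖z - z'‖ * ε * (2 * V) := by gcongr
    _ = K * (2 * V) * ε * ‖z - z'‖ := by ring

lemma circ_moll {g : ℂ → ℂ} (hg : Continuous g) (k : ℤ) (δ : ℝ) (ζ : ℂ) :
    circ k (moll φ g) δ ζ = ∫ t, φ.normed volume t • circ k g δ (ζ - t) := by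
  unfold circ
  have e : ∀ a : ℝ, Complex.exp (k * a * Complex.I) *
      moll φ g (ζ + δ * Complex.exp (a * Complex.I))
      = ∫ t, φ.normed volume t • (Complex.exp (k * a * Complex.I) *
        g (ζ - t + δ * Complex.exp (a * Complex.I))) := by
    intro a
    rw [moll_apply, ← integral_const_mul]
    congr 1
    ext t
    rw [mul_smul_comm]
    congr 3
    ring
  simp_rw [e]
  rw [intervalIntegral_integral_swap]
  · congr 1
    ext t
    rw [intervalIntegral.integral_smul]
  · -- integrability
    have hcont : Continuous (Function.uncurry fun (a : ℝ) (t : ℂ) => φ.normed volume t •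
        (Complex.exp (k * a * Complex.I) * g (ζ - t + δ * Complex.exp (a * Complex.I)))) := by
      have h1 : Continuous fun p : ℝ × ℂ => φ.normed volume p.2 :=
        φ.continuous_normed.comp continuous_snd
      have h2 : Continuous fun p : ℝ × ℂ => g (ζ - p.2 + δ * Complex.exp (p.1 * Complex.I)) :=
        hg.comp (by fun_prop)
      have h3 : Continuous fun p : ℝ × ℂ => Complex.exp (k * p.1 * Complex.I) := by fun_prop
      exact h1.smul (h3.mul h2)
    have hcpt : IsCompact (Icc (0 : ℝ) (2 * Real.pi) ×ˢ closedBall (0 : ℂ) φ.rOut) :=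
      isCompact_Icc.prod (isCompact_closedBall _ _)
    have hi : IntegrableOn (Function.uncurry fun (a : ℝ) (t : ℂ) => φ.normed volume t •
        (Complex.exp (k * a * Complex.I) * g (ζ - t + δ * Complex.exp (a * Complex.I))))
        (Icc (0 : ℝ) (2 * Real.pi) ×ˢ closedBall (0 : ℂ) φ.rOut) (volume.prod volume) :=
      hcont.continuousOn.integrableOn_compact hcpt
    have hi2 : IntegrableOn (Function.uncurry fun (a : ℝ) (t : ℂ) => φ.normed volume t •
        (Complex.exp (k * a * Complex.I) * g (ζ - t + δ * Complex.exp (a * Complex.I))))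
        (Icc (0 : ℝ) (2 * Real.pi) ×ˢ univ) (volume.prod volume) := by
      refine hi.of_forall_sdiff_eq_zero (measurableSet_Icc.prod MeasurableSet.univ) ?_
      rintro ⟨a, t⟩ ⟨h1, h2⟩
      have h3 : t ∉ closedBall (0 : ℂ) φ.rOut := fun h => h2 ⟨h1.1, h⟩
      have h4 : φ.normed volume t = 0 := by
        have : t ∉ Function.support (φ.normed volume) := by
          rw [φ.support_normed_eq]
          exact fun h => h3 (ball_subset_closedBall h)
        simpa [Function.mem_support] using this
      simp [h4]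
    rw [IntegrableOn, ← Measure.prod_restrict, Measure.restrict_univ] at hi2
    refine hi2.mono_measure ?_
    refine Measure.prod_mono ?_ le_rfl
    rw [uIoc_of_le (by positivity)]
    exact Measure.restrict_mono Ioc_subset_Icc_self le_rfl

lemma norm_circ_moll_le {g : ℂ → ℂ} (hg : Continuous g) (k : ℤ) (δ : ℝ) (ζ : ℂ) {C : ℝ}
    (h : ∀ t ∈ ball (0 : ℂ) φ.rOut, ‖circ k g δ (ζ - t)‖ ≤ C) :
    ‖circ k (moll φ g) δ ζ‖ ≤ C := by
  rw [circ_moll φ hg]
  have h1 : ∀ t, ‖φ.normed volume t • circ k g δ (ζ - t)‖ ≤ C * φ.normed volume t := by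
    intro t
    rw [norm_smul, Real.norm_of_nonneg (φ.nonneg_normed t), mul_comm]
    by_cases ht : t ∈ ball (0 : ℂ) φ.rOut
    · exact mul_le_mul_of_nonneg_right (h t ht) (φ.nonneg_normed t)
    · have h4 : φ.normed volume t = 0 := by
        have : t ∉ Function.support (φ.normed volume) := by
          rw [φ.support_normed_eq]; exact ht
        simpa [Function.mem_support] using this
      simp [h4]
  refine (norm_integral_le_of_norm_le (φ.integrable_normed.const_mul C)
    (Eventually.of_forall h1)).trans ?_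
  rw [integral_const_mul, φ.integral_normed, mul_one]

end moll


/-- the first harmonics of a differentiable function on small circles -/
lemma circ_deriv {F : ℂ → ℂ} (hF : Continuous F) {ζ : ℂ} {A : ℂ →L[ℝ] ℂ}
    (hA : HasFDerivAt F A ζ) {k : ℤ} (hk : k ≠ 0) {ε : ℝ} (hε : 0 < ε) :
    ∃ δ₁ : ℝ, 0 < δ₁ ∧ ∀ δ : ℝ, 0 < δ → δ < δ₁ →
      ‖circ k F δ ζ - (δ : ℂ) * ∫ a in (0 : ℝ)..(2 * Real.pi),
        Complex.exp (k * a * Complex.I) * A (Complex.exp (a * Complex.I))‖
      ≤ ε * δ * (2 * Real.pi) := by
  have h := (hasFDerivAt_iff_isLittleO_nhds_zero.1 hA).def hε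
  rw [Metric.eventually_nhds_iff] at h
  obtain ⟨δ₁, hδ₁, h⟩ := h
  refine ⟨δ₁, hδ₁, fun δ hδ hδ' => ?_⟩
  -- the function `F - A(· - ζ)`
  set D : ℂ → ℂ := fun z => F z - A (z - ζ) with hD
  have hDc : Continuous D := hF.sub (A.continuous.comp (continuous_id.sub continuous_const))
  have hlin : Continuous fun z : ℂ => A (z - ζ) :=
    A.continuous.comp (continuous_id.sub continuous_const)
  have e : circ k F δ ζ - (δ : ℂ) * ∫ a in (0 : ℝ)..(2 * Real.pi),
        Complex.exp (k * a * Complex.I) * A (Complex.exp (a * Complex.I)) = circ k D δ ζ := by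
    rw [hD, circ_sub hF hlin]
    congr 1
    unfold circ
    rw [← intervalIntegral.integral_const_mul]
    congr 1
    ext a
    have h1 : ζ + (δ : ℂ) * Complex.exp (a * Complex.I) - ζ
        = (δ : ℝ) • Complex.exp (a * Complex.I) := by
      rw [Complex.real_smul]; ring
    beta_reduce
    rw [h1, map_smul, Complex.real_smul]; ring
  rw [e]
  refine circ_le_of_sub hDc hk fun a => ?_
  have hn : ‖(δ : ℂ) * Complex.exp (a * Complex.I)‖ = δ := by
    rw [norm_mul, Complex.norm_exp_ofReal_mul_I]; simp [abs_of_pos hδ]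
  have h2 := h (y := (δ : ℂ) * Complex.exp (a * Complex.I)) (by
    rw [dist_zero_right, hn]; exact hδ')
  rw [hn] at h2
  have h3 : D (ζ + δ * Complex.exp (a * Complex.I)) - D ζ
      = F (ζ + δ * Complex.exp (a * Complex.I)) - F ζ - A (δ * Complex.exp (a * Complex.I)) := by
    simp only [hD, add_sub_cancel_left, sub_self, map_zero, sub_zero]
    ring
  rw [h3]; exact h2

/-- **Scalar lemma.** A continuous function which is a uniform limit of continuous functions with
`o(δ)` first harmonics on small circles centred in a disc is constant on a smaller disc. -/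
theorem scalar {G : ℂ → ℂ} (hG : Continuous G) {e : ℝ} (he : 0 < e)
    (happ : ∀ ε : ℝ, 0 < ε → ∀ δ₀ : ℝ, 0 < δ₀ → ∃ δ : ℝ, 0 < δ ∧ δ < δ₀ ∧ ∃ Gh : ℂ → ℂ,
      Continuous Gh ∧ (∀ z, ‖Gh z - G z‖ ≤ ε) ∧
      ∀ z : ℂ, ‖z‖ < e → ‖circ 1 Gh δ z‖ ≤ ε * δ ∧ ‖circ (-1) Gh δ z‖ ≤ ε * δ)
    {ζ : ℂ} (hζ : ‖ζ‖ < e / 2) : G ζ = G 0 := by
  -- derivative of mollifications vanish
  have key : ∀ φ : ContDiffBump (0 : ℂ), φ.rOut < e / 2 → ∀ z : ℂ, ‖z‖ < e / 2 →
      fderiv ℝ (moll φ G) z = 0 := by
    intro φ hφ z hz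
    obtain ⟨M, hM0, hM⟩ := moll_lip φ
    have hc : Continuous (moll φ G) := (moll_contDiff φ hG).continuous
    have hd : HasFDerivAt (moll φ G) (fderiv ℝ (moll φ G) z) z :=
      ((moll_contDiff φ hG).differentiable one_ne_zero z).hasFDerivAt
    set A := fderiv ℝ (moll φ G) z with hAdef
    have harm0 : ∀ k : ℤ, k = 1 ∨ k = -1 → ∫ a in (0 : ℝ)..(2 * Real.pi),
        Complex.exp (k * a * Complex.I) * A (Complex.exp (a * Complex.I)) = 0 := by
      intro k hk
      have hk0 : k ≠ 0 := by rcases hk with rfl | rfl <;> norm_num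
      set I₀ := ∫ a in (0 : ℝ)..(2 * Real.pi),
        Complex.exp (k * a * Complex.I) * A (Complex.exp (a * Complex.I)) with hI₀
      by_contra hne
      have hpos : 0 < ‖I₀‖ := norm_pos_iff.2 hne
      set W : ℝ := (2 * Real.pi) + M * (2 * Real.pi) + 1 with hW
      have hWpos : 0 < W := by positivity
      set ε : ℝ := ‖I₀‖ / (2 * W) with hεdef
      have hε : 0 < ε := by positivity
      obtain ⟨δ₁, hδ₁, h1⟩ := circ_deriv hc hd hk0 hε
      obtain ⟨δ, hδ, hδ', Gh, hGh, hGh1, hGh2⟩ := happ ε hε δ₁ hδ₁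
      have h2 := h1 δ hδ hδ'
      -- bound of `circ k (moll φ G) δ z`
      have h3 : ‖circ k (moll φ Gh) δ z‖ ≤ ε * δ := by
        refine norm_circ_moll_le φ hGh k δ z fun t ht => ?_
        have hzt : ‖z - t‖ < e := by
          have : ‖t‖ < φ.rOut := by simpa using ht
          calc ‖z - t‖ ≤ ‖z‖ + ‖t‖ := norm_sub_le _ _
            _ < e := by linarith
        rcases hk with rfl | rfl
        · exact (hGh2 _ hzt).1
        · exact (hGh2 _ hzt).2
      have h4 : ‖circ k (moll φ fun z => G z - Gh z) δ z‖ ≤ M * ε * δ * (2 * Real.pi) := by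
        refine circ_le_of_sub (moll_contDiff φ (hG.sub hGh)).continuous hk0 fun a => ?_
        refine (hM _ ε (hG.sub hGh) (fun t => by
          rw [Pi.sub_apply, norm_sub_rev]; exact hGh1 t) _ _).trans ?_
        rw [add_sub_cancel_left, norm_mul, Complex.norm_exp_ofReal_mul_I]
        simp [abs_of_pos hδ]
      have h5 : circ k (moll φ fun z => G z - Gh z) δ z
          = circ k (moll φ G) δ z - circ k (moll φ Gh) δ z := by
        have : moll φ (fun z => G z - Gh z) = fun z => moll φ G z - moll φ Gh z :=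
          funext fun z => moll_sub φ hG hGh z
        rw [this, circ_sub hc (moll_contDiff φ hGh).continuous]
      have h6 : ‖circ k (moll φ G) δ z‖ ≤ M * ε * δ * (2 * Real.pi) + ε * δ := by
        have : circ k (moll φ G) δ z
            = circ k (moll φ fun z => G z - Gh z) δ z + circ k (moll φ Gh) δ z := by
          rw [h5]; ring
        rw [this]
        exact (norm_add_le _ _).trans (add_le_add h4 h3)
      have h7 : δ * ‖I₀‖ ≤ ε * W * δ := by
        have : (δ : ℂ) * I₀ = circ k (moll φ G) δ z - (circ k (moll φ G) δ z - (δ : ℂ) * I₀) := by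
          ring
        have h8 : ‖(δ : ℂ) * I₀‖ = δ * ‖I₀‖ := by
          rw [norm_mul]; simp [abs_of_pos hδ]
        rw [← h8, this]
        refine (norm_sub_le _ _).trans ?_
        refine (add_le_add h6 h2).trans (le_of_eq ?_)
        rw [hW]; ring
      have h9 : ‖I₀‖ ≤ ε * W := by
        have := le_of_mul_le_mul_left (by linarith : δ * ‖I₀‖ ≤ δ * (ε * W)) hδ
        exact this
      rw [hεdef] at h9
      have : ‖I₀‖ / (2 * W) * W = ‖I₀‖ / 2 := by field_simp
      rw [this] at h9
      linarith
    exact eq_zero_of_harmonics A (harm0 1 (Or.inl rfl)) (harm0 (-1) (Or.inr rfl))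
  -- hence mollifications are constant on the disc
  have hconst : ∀ φ : ContDiffBump (0 : ℂ), φ.rOut < e / 2 → moll φ G ζ = moll φ G 0 := by
    intro φ hφ
    refine isOpen_ball.is_const_of_fderiv_eq_zero (𝕜 := ℝ) (s := ball (0 : ℂ) (e / 2))
      (convex_ball _ _).isPreconnected
      ((moll_contDiff φ hG).differentiable one_ne_zero).differentiableOn
      (fun z hz => key φ hφ z (by simpa using hz)) (by simpa using hζ)
      (mem_ball_self (by positivity))
  -- pass to the limit
  let φ : ℕ → ContDiffBump (0 : ℂ) := fun n =>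
    { rIn := e / (n + 4) / 2, rOut := e / (n + 4), rIn_pos := by positivity,
      rIn_lt_rOut := half_lt_self (by positivity) }
  have hφ0 : Tendsto (fun n => (φ n).rOut) atTop (𝓝 0) := by
    have h : Tendsto (fun n : ℕ => (n : ℝ) + 4) atTop atTop :=
      tendsto_atTop_add_const_right _ _ tendsto_natCast_atTop_atTop
    exact Tendsto.div_atTop tendsto_const_nhds h
  have hφlt : ∀ n, (φ n).rOut < e / 2 := by
    intro n
    show e / ((n : ℝ) + 4) < e / 2
    have : (0 : ℝ) ≤ n := Nat.cast_nonneg n
    gcongr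
    linarith
  have l1 := ContDiffBump.convolution_tendsto_right_of_continuous (μ := (volume : Measure ℂ))
    hφ0 hG ζ
  have l2 := ContDiffBump.convolution_tendsto_right_of_continuous (μ := (volume : Measure ℂ))
    hφ0 hG 0
  have l3 : (fun n => ((φ n).normed volume ⋆[ContinuousLinearMap.lsmul ℝ ℝ, volume] G) ζ)
      = fun n => ((φ n).normed volume ⋆[ContinuousLinearMap.lsmul ℝ ℝ, volume] G) 0 :=
    funext fun n => hconst (φ n) (hφlt n)
  rw [l3] at l1
  exact tendsto_nhds_unique l1 l2

end Crest.Agent.R103.Wk
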