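import Crest.Agent.R103.Iface
import Crest.Agent.R103.WkScalar

/-!
# R103, step (5) of note 11649 (core of task A8)
-/

open MeasureTheory Filter Topology Metric Set
open scoped InnerProductSpace

noncomputable section

namespace Crest.Agent.R103.Wk

/-- radial retraction of `ℂ` onto the closed ball of radius `e` -/
def ret (e : ℝ) (z : ℂ) : ℂ := ((e / max e ‖z‖ : ℝ) : ℂ) * z

lemma ret_cont {e : ℝ} (he : 0 < e) : Continuous (ret e) := by
  unfold ret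
  refine Continuous.mul (Complex.continuous_ofReal.comp ?_) continuous_id
  exact continuous_const.div (continuous_const.max continuous_norm)
    (fun z => (he.trans_le (le_max_left _ _)).ne')

lemma ret_of_le {e : ℝ} (he : 0 < e) {z : ℂ} (hz : ‖z‖ ≤ e) : ret e z = z := by
  unfold ret
  rw [max_eq_left hz, div_self he.ne']; simp

lemma norm_ret_le {e : ℝ} (he : 0 < e) (z : ℂ) : ‖ret e z‖ ≤ e := by
  unfold ret
  have hm : 0 < max e ‖z‖ := he.trans_le (le_max_left _ _)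
  rw [norm_mul, Complex.norm_real, Real.norm_of_nonneg (by positivity), div_mul_eq_mul_div,
    div_le_iff₀ hm]
  exact mul_le_mul_of_nonneg_left (le_max_right _ _) he.le

/-- pairing with `harm` -/
lemma inner_harm {H : Type*} [NormedAddCommGroup H] [InnerProductSpace ℂ H] [CompleteSpace H]
    (k : ℤ) {F : ℝ → H} (hF : Continuous F) (v : H) :
    ∫ α in (0 : ℝ)..(2 * Real.pi), Complex.exp (k * α * Complex.I) * ⟪v, F α⟫_ℂ
      = (2 * Real.pi : ℝ) * ⟪v, harm k F⟫_ℂ := by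
  have hpi : (0 : ℝ) < 2 * Real.pi := by positivity
  have hc : Continuous fun α : ℝ => Complex.exp (k * α * Complex.I) := by fun_prop
  have hint : IntervalIntegrable (fun α : ℝ => Complex.exp (k * α * Complex.I) • F α)
      volume 0 (2 * Real.pi) := (hc.smul hF).intervalIntegrable _ _
  have h2 := (innerSL ℂ v).intervalIntegral_comp_comm hint
  simp only [innerSL_apply_apply, inner_smul_right] at h2
  unfold harm
  rw [← Complex.coe_smul, inner_smul_right, ← mul_assoc, ← h2]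
  have e1 : ((2 * Real.pi : ℝ) : ℂ) * (((2 * Real.pi)⁻¹ : ℝ) : ℂ) = 1 := by
    rw [← Complex.ofReal_mul, mul_inv_cancel₀ hpi.ne', Complex.ofReal_one]
  rw [e1, one_mul]

end Crest.Agent.R103.Wk

namespace Crest.Agent.R103.PlaneSys

variable {Ω : Type} [TopologicalSpace Ω] [MeasurableSpace Ω] {μ : Measure Ω}
variable (S : PlaneSys Ω μ)

/-- the local group law on the level of the Koopman operators: `U ζ (U ξ ψ) = U (ζ + ξ) ψ` if `ψ`
is supported in `{b ≤ ρ}` and `ζ, ξ` are small compared to `b`. -/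
theorem U_U_of_suppGe {b ε : ℝ} (hε : 0 < ε) (hb : (S.C₀ + 2) * ε ≤ b) {ψ : Lp ℂ 2 μ}
    (hψ : S.SuppGe b ψ) {ζ ξ : ℂ} (hζ : ‖ζ‖ ≤ ε) (hξ : ‖ξ‖ ≤ ε) :
    S.U ζ (S.U ξ ψ) = S.U (ζ + ξ) ψ := by
  have h1 : S.U ζ (S.U ξ ψ) =ᵐ[μ] fun z => ψ (S.T ξ (S.T ζ z)) := by
    refine (S.U_coe ζ _).trans ?_
    exact (S.T_mp ζ).quasiMeasurePreserving.ae_eq (S.U_coe ξ ψ)
  have h2 : S.U (ζ + ξ) ψ =ᵐ[μ] fun z => ψ (S.T (ζ + ξ) z) := S.U_coe _ _
  have h3 : ∀ᵐ z ∂μ, S.ρ (S.T ξ (S.T ζ z)) < b → ψ (S.T ξ (S.T ζ z)) = 0 :=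
    ((S.T_mp ξ).comp (S.T_mp ζ)).quasiMeasurePreserving.ae hψ
  have h4 : ∀ᵐ z ∂μ, S.ρ (S.T (ζ + ξ) z) < b → ψ (S.T (ζ + ξ) z) = 0 :=
    (S.T_mp (ζ + ξ)).quasiMeasurePreserving.ae hψ
  have h5 := S.LC ε hε ζ ξ hζ hξ
  refine Lp.ext ?_
  filter_upwards [h1, h2, h3, h4, h5] with z h1 h2 h3 h4 h5
  rw [h1, h2]
  rcases le_or_gt (S.C₀ * ε) (S.ρ z) with h | h
  · have := h5 h
    have e : S.T ξ (S.T ζ z) = S.T (ζ + ξ) z := this
    rw [e]
  · have k1 : S.ρ (S.T ξ (S.T ζ z)) < b := by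
      have a1 := S.ρ_T ξ (S.T ζ z)
      have a2 := S.ρ_T ζ z
      nlinarith
    have k2 : S.ρ (S.T (ζ + ξ) z) < b := by
      have a1 := S.ρ_T (ζ + ξ) z
      have a2 : ‖ζ + ξ‖ ≤ ε + ε := (norm_add_le _ _).trans (add_le_add hζ hξ)
      nlinarith
    rw [h3 k1, h4 k2]

lemma U_zero (f : Lp ℂ 2 μ) : S.U 0 f = f := by
  refine Lp.ext ?_
  filter_upwards [S.U_coe 0 f] with z hz
  rw [hz, S.T_zero]

/-- small translates of a `SuppGe` vector depend continuously on the displacement. -/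
theorem U_continuousAt {b ε : ℝ} (hU0 : ∀ f : Lp ℂ 2 μ, Tendsto (fun ζ : ℂ => S.U ζ f) (𝓝 0) (𝓝 f))
    (hε : 0 < ε) (hb : (S.C₀ + 2) * ε ≤ b) {ψ : Lp ℂ 2 μ}
    (hψ : S.SuppGe b ψ) {ξ : ℂ} (hξ : ‖ξ‖ ≤ ε) : ContinuousAt (fun ζ => S.U ζ ψ) ξ := by
  have h1 : Tendsto (fun ζ : ℂ => S.U ζ (S.U ξ ψ)) (𝓝 0) (𝓝 (S.U ξ ψ)) := hU0 _
  have h2 : ∀ᶠ ζ : ℂ in 𝓝 0, S.U ζ (S.U ξ ψ) = S.U (ζ + ξ) ψ := by
    filter_upwards [Metric.closedBall_mem_nhds (0 : ℂ) hε] with ζ hζ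
    exact S.U_U_of_suppGe hε hb hψ (by simpa using hζ) hξ
  have h3 : Tendsto (fun ζ : ℂ => S.U (ζ + ξ) ψ) (𝓝 0) (𝓝 (S.U ξ ψ)) := h1.congr' h2
  have h4 : Tendsto (fun ζ : ℂ => ζ - ξ) (𝓝 ξ) (𝓝 0) := by
    have : Tendsto (fun ζ : ℂ => ζ - ξ) (𝓝 ξ) (𝓝 (ξ - ξ)) := tendsto_id.sub_const ξ
    simpa using this
  have h5 := h3.comp h4
  simpa [ContinuousAt, Function.comp_def] using h5

/-- **Step (5).** Weak form: pairing with test vectors supported in `{b ≤ ρ}` is invariant under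
small translations, for every weight component of `u`. -/
theorem wk [BorelSpace Ω] [SecondCountableTopology Ω] [TopologicalSpace.PseudoMetrizableSpace Ω]
    [IsFiniteMeasure μ] (hCont : StCont) (hE : StE) (hP : StP) (u : Lp ℂ 2 μ)
    (hmain : ∀ ε : ℝ, 0 < ε → ∀ δ₀ : ℝ, 0 < δ₀ → ∃ δ : ℝ, 0 < δ ∧ δ < δ₀ ∧ ∃ h : Lp ℂ 2 μ,
      ‖h - u‖ ≤ ε ∧ ∀ n : ℤ, ‖S.Ep δ (S.P n h)‖ ≤ ε * δ ∧ ‖S.Em δ (S.P n h)‖ ≤ ε * δ)
    {b : ℝ} (hb : 0 < b) {ψ : Lp ℂ 2 μ} (hψ : S.SuppGe b ψ) (n : ℤ) {ζ : ℂ}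
    (hζ : ‖ζ‖ < b / (4 * (S.C₀ + 2))) :
    ⟪S.P n u, S.U ζ ψ⟫_ℂ = ⟪S.P n u, ψ⟫_ℂ := by
  have hC : 0 < S.C₀ + 2 := by linarith [S.one_le_C₀]
  obtain ⟨hU0, -, -, hUc⟩ := hCont Ω μ S
  obtain ⟨hPlin, hPn, -, -, -⟩ := hP Ω μ S
  set e : ℝ := b / (S.C₀ + 2) with he
  have he0 : 0 < e := by positivity
  have hbe : (S.C₀ + 2) * e ≤ b := by rw [he]; field_simp; exact le_rfl
  -- the continuous family of translates
  set V : ℂ → Lp ℂ 2 μ := fun z => S.U (Wk.ret e z) ψ with hV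
  have hVc : Continuous V := by
    rw [continuous_iff_continuousAt]
    intro z
    have h1 : ContinuousAt (fun ζ => S.U ζ ψ) (Wk.ret e z) :=
      S.U_continuousAt hU0 he0 hbe hψ (Wk.norm_ret_le he0 z)
    exact ContinuousAt.comp (f := Wk.ret e) h1 (Wk.ret_cont he0).continuousAt
  have hVn : ∀ z, ‖V z‖ = ‖ψ‖ := fun z => (S.U _).norm_map ψ
  have hGc : ∀ v : Lp ℂ 2 μ, Continuous fun z => ⟪v, V z⟫_ℂ := fun v =>
    continuous_const.inner hVc
  -- identification of the harmonics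
  have hcirc : ∀ (k : ℤ) (v : Lp ℂ 2 μ) (δ : ℝ) (z : ℂ), 0 < δ → δ < e / 2 → ‖z‖ < e / 2 →
      Wk.circ k (fun z => ⟪v, V z⟫_ℂ) δ z
        = (2 * Real.pi : ℝ) * ⟪v, harm k fun α => S.U (δ * Complex.exp (α * Complex.I))
            (S.U z ψ)⟫_ℂ := by
    intro k v δ z hδ hδe hz
    have hz' : ‖z‖ ≤ e := by linarith
    have hd : ∀ a : ℝ, ‖(δ : ℂ) * Complex.exp (a * Complex.I)‖ = δ := by
      intro a
      rw [norm_mul, Complex.norm_exp_ofReal_mul_I]; simp [abs_of_pos hδ]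
    have h1 : ∀ a : ℝ, V (z + δ * Complex.exp (a * Complex.I))
        = S.U (δ * Complex.exp (a * Complex.I)) (S.U z ψ) := by
      intro a
      have hle : ‖z + δ * Complex.exp (a * Complex.I)‖ ≤ e := by
        refine (norm_add_le _ _).trans ?_
        rw [hd]; linarith
      rw [S.U_U_of_suppGe he0 hbe hψ (by rw [hd]; linarith) hz']
      simp only [hV]
      rw [Wk.ret_of_le he0 hle, add_comm]
    unfold Wk.circ
    simp_rw [h1]
    exact Wk.inner_harm k (hUc δ (S.U z ψ) hδ.le) v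
  have key := Wk.scalar (G := fun z => ⟪S.P n u, V z⟫_ℂ) (hGc _) (e := e / 2) (by positivity)
    (ζ := ζ) ?_ ?_
  · have e0 : V 0 = ψ := by
      simp only [hV]
      rw [Wk.ret_of_le he0 (by simpa using he0.le), S.U_zero]
    have e1 : V ζ = S.U ζ ψ := by
      simp only [hV]
      rw [Wk.ret_of_le he0]
      have : b / (4 * (S.C₀ + 2)) = e / 4 := by rw [he]; field_simp
      rw [this] at hζ
      linarith
    simpa only [e0, e1] using key
  · intro ε hε δ₀ hδ₀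
    set ε' : ℝ := ε / (2 * Real.pi * (‖ψ‖ + 1)) with hε'
    have hε'0 : 0 < ε' := by positivity
    have hε'le : ε' * ‖ψ‖ * (2 * Real.pi) ≤ ε := by
      rw [hε', div_mul_eq_mul_div, div_mul_eq_mul_div, div_le_iff₀ (by positivity)]
      have : 0 ≤ ‖ψ‖ := norm_nonneg _
      nlinarith [Real.pi_pos, mul_pos hε Real.pi_pos]
    have hε'le2 : ε' * ‖ψ‖ ≤ ε := by
      refine le_trans ?_ hε'le
      have h1 : 1 ≤ 2 * Real.pi := by linarith [Real.pi_gt_three]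
      exact le_mul_of_one_le_right (by positivity) h1
    obtain ⟨δ, hδ, hδ', h, hh, hn⟩ := hmain ε' hε'0 (min δ₀ (e / 2)) (lt_min hδ₀ (by positivity))
    refine ⟨δ, hδ, hδ'.trans_le (min_le_left _ _), fun z => ⟪S.P n h, V z⟫_ℂ, hGc _, ?_, ?_⟩
    · intro z
      rw [← inner_sub_left]
      refine (norm_inner_le_norm _ _).trans ?_
      rw [hVn]
      obtain ⟨P', hP'⟩ := hPlin n
      have e1 : S.P n h - S.P n u = S.P n (h - u) := by
        rw [← hP', ← hP', ← hP', map_sub]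
      rw [e1]
      refine le_trans ?_ hε'le2
      exact mul_le_mul_of_nonneg_right ((hPn n _).trans hh) (norm_nonneg _)
    · intro z hz
      have hδe : δ < e / 2 := hδ'.trans_le (min_le_right _ _)
      obtain ⟨-, -, -, -, -, -, -, -, hadj1, hadj2⟩ := hE Ω μ S δ hδ.le
      have hp : (0 : ℝ) ≤ 2 * Real.pi := by positivity
      constructor
      · rw [hcirc 1 _ δ z hδ hδe hz]
        have e1 : (harm 1 fun α => S.U (δ * Complex.exp (α * Complex.I)) (S.U z ψ))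
            = S.Em δ (S.U z ψ) := rfl
        have e2 : ⟪S.P n h, S.Em δ (S.U z ψ)⟫_ℂ = - ⟪S.Ep δ (S.P n h), S.U z ψ⟫_ℂ := by
          rw [hadj1, neg_neg]
        rw [e1, e2, norm_mul, norm_neg, Complex.norm_real, Real.norm_of_nonneg hp]
        have h3 := norm_inner_le_norm (𝕜 := ℂ) (S.Ep δ (S.P n h)) (S.U z ψ)
        rw [(S.U z).norm_map] at h3
        have h4 : ‖S.Ep δ (S.P n h)‖ * ‖ψ‖ ≤ ε' * δ * ‖ψ‖ :=
          mul_le_mul_of_nonneg_right (hn n).1 (norm_nonneg _)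
        calc 2 * Real.pi * ‖⟪S.Ep δ (S.P n h), S.U z ψ⟫_ℂ‖
            ≤ 2 * Real.pi * (ε' * δ * ‖ψ‖) := mul_le_mul_of_nonneg_left (h3.trans h4) hp
          _ = (ε' * ‖ψ‖ * (2 * Real.pi)) * δ := by ring
          _ ≤ ε * δ := mul_le_mul_of_nonneg_right hε'le hδ.le
      · rw [hcirc (-1) _ δ z hδ hδe hz]
        have e1 : (harm (-1) fun α => S.U (δ * Complex.exp (α * Complex.I)) (S.U z ψ))
            = S.Ep δ (S.U z ψ) := rfl
        have e2 : ⟪S.P n h, S.Ep δ (S.U z ψ)⟫_ℂ = - ⟪S.Em δ (S.P n h), S.U z ψ⟫_ℂ := by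
          rw [hadj2, neg_neg]
        rw [e1, e2, norm_mul, norm_neg, Complex.norm_real, Real.norm_of_nonneg hp]
        have h3 := norm_inner_le_norm (𝕜 := ℂ) (S.Em δ (S.P n h)) (S.U z ψ)
        rw [(S.U z).norm_map] at h3
        have h4 : ‖S.Em δ (S.P n h)‖ * ‖ψ‖ ≤ ε' * δ * ‖ψ‖ :=
          mul_le_mul_of_nonneg_right (hn n).2 (norm_nonneg _)
        calc 2 * Real.pi * ‖⟪S.Em δ (S.P n h), S.U z ψ⟫_ℂ‖
            ≤ 2 * Real.pi * (ε' * δ * ‖ψ‖) := mul_le_mul_of_nonneg_left (h3.trans h4) hp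
          _ = (ε' * ‖ψ‖ * (2 * Real.pi)) * δ := by ring
          _ ≤ ε * δ := mul_le_mul_of_nonneg_right hε'le hδ.le
  · have : b / (4 * (S.C₀ + 2)) = e / 2 / 2 := by rw [he]; field_simp; norm_num
    rwa [this] at hζ

end Crest.Agent.R103.PlaneSys
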